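import Vale.Agent.P078.TypeIII.Reg.Goals
import Vale.Agent.P078.TypeIII.PointStep

/-!
# Lines: the roots of `t ↦ P (y + t)` and the step of the root potential

Convexity of the barrier value along a line, the bounds of the potential, and its supermartingale
property at one processed vertex.
-/

namespace Vale.Agent.P078.TypeIII.Reg

open Vale.Agent.P078.Mss (NumBound minorMat rootProd)
open Vale.Agent.P078.Mss2 Vale.Agent.P078.TypeIII.RootSum

open Finset Matrix Polynomial

universe u

variable {V : Type u} [DecidableEq V] {r : ℕ}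

/-- The kernels on `F`. -/
def kerOn (x : Matrix V V ℂ) (F : Finset V) (r : ℕ) :
    Fin r → Matrix {v // v ∈ F} {v // v ∈ F} ℂ :=
  fun _ => x.submatrix Subtype.val Subtype.val

/-- `P` at the complex levels `y + w`. -/
noncomputable def Pc (x : Matrix V V ℂ) (col : V → Option (Fin r)) (F : Finset V) (y : V → ℝ)
    (w : ℂ) : ℂ :=
  mix (kerOn x F r) (law fun v : {v // v ∈ F} => col v.1) (fun _ v => (y v.1 : ℂ) + w) univ
    (fun _ => ∅)

lemma P_shift (x : Matrix V V ℂ) (col : V → Option (Fin r)) (F : Finset V) (y : V → ℝ) (t : ℝ) :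
    P x col F (fun u => y u + t) = (Pc x col F y t).re := by
  unfold P Pc kerOn realVars
  simp only [Complex.ofReal_add]

lemma muPoly_eval (x : Matrix V V ℂ) (col : V → Option (Fin r)) (F : Finset V) (y : V → ℝ)
    (w : ℂ) :
    (muPoly (fun _ : Fin r => x.submatrix (Subtype.val : {v // v ∈ F} → V) Subtype.val
        - Matrix.diagonal fun v => (y v.1 : ℂ))
      (law fun v : {v // v ∈ F} => col v.1)).eval w = Pc x col F y w := by
  rw [eval_muPoly]
  refine sum_congr rfl (fun f _ => congrArg _ (prod_congr rfl (fun d _ => congrArg Matrix.det ?_)))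
  ext i j
  simp only [minorMat, kerOn, Matrix.of_apply, Matrix.sub_apply, Matrix.diagonal_apply]
  split_ifs with h1 h2
  · subst h2; ring
  · ring
  all_goals rfl

/-- `ρ` lists the roots of the line through `y`. -/
def LineRoots (x : Matrix V V ℂ) (col : V → Option (Fin r)) (F : Finset V) (y : V → ℝ) {m : ℕ}
    (ρ : Fin m → ℝ) : Prop :=
  ∀ w, Pc x col F y w = rootProd ρ w

lemma LineRoots.P_eq {x : Matrix V V ℂ} {col : V → Option (Fin r)} {F : Finset V} {y : V → ℝ}
    {m : ℕ} {ρ : Fin m → ℝ} (h : LineRoots x col F y ρ) (t : ℝ) :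
    P x col F (fun u => y u + t) = ∏ i, (t - ρ i) := by
  rw [P_shift, h]
  simp [rootProd, ← Complex.ofReal_sub, ← Complex.ofReal_prod]

lemma LineRoots.P_zero {x : Matrix V V ℂ} {col : V → Option (Fin r)} {F : Finset V} {y : V → ℝ}
    {m : ℕ} {ρ : Fin m → ℝ} (h : LineRoots x col F y ρ) : P x col F y = ∏ i, -ρ i := by
  simpa using h.P_eq 0

lemma LineRoots.phi_eq {x : Matrix V V ℂ} {col : V → Option (Fin r)} {F : Finset V} {y : V → ℝ}
    {m : ℕ} {ρ : Fin m → ℝ} (h : LineRoots x col F y ρ) (n : ℕ) :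
    Phi x col F y n = invSum ρ n := by
  have hp : muPoly (fun _ : Fin r => x.submatrix (Subtype.val : {v // v ∈ F} → V) Subtype.val
        - Matrix.diagonal fun v => (y v.1 : ℂ)) (law fun v : {v // v ∈ F} => col v.1)
      = ∏ i, (X - C (ρ i : ℂ)) :=
    Polynomial.funext (fun w => by rw [muPoly_eval, h]; simp [rootProd, eval_prod])
  rw [Phi, hp, Finset.prod_eq_multiset_prod,
    show (fun i => X - C (ρ i : ℂ)) = (fun b : ℂ => X - C b) ∘ (fun i => (ρ i : ℂ)) from rfl,
    ← Multiset.map_map, roots_multiset_prod_X_sub_C, Multiset.map_map, invSum,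
    Finset.sum_eq_multiset_sum]
  rfl

/-- The embedding of `F.erase v` in `F`. -/
def eraseEmb (F : Finset V) (v : V) : {u // u ∈ F.erase v} ↪ {u // u ∈ F} :=
  ⟨fun u => ⟨u.1, Finset.mem_of_mem_erase u.2⟩, fun _ _ h => Subtype.ext (Subtype.mk.injEq _ _ _ _ ▸ h)⟩

lemma eraseEmb_map (F : Finset V) {v : V} (hv : v ∈ F) :
    (univ : Finset {u // u ∈ F.erase v}).map (eraseEmb F v)
      = (univ : Finset {u // u ∈ F}).erase ⟨v, hv⟩ := by
  ext a
  simp only [mem_map, mem_univ, true_and, mem_erase, ne_eq, and_true]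
  constructor
  · rintro ⟨b, rfl⟩ e
    exact (mem_erase.1 b.2).1 (congrArg Subtype.val e)
  · intro ha
    exact ⟨⟨a.1, mem_erase.2 ⟨fun e => ha (Subtype.ext e), a.2⟩⟩, rfl⟩

variable [NeZero r]

lemma Pc_erase (x : Matrix V V ℂ) (col : V → Option (Fin r)) (F : Finset V) {v : V} (hv : v ∈ F)
    (y : V → ℝ) (w : ℂ) :
    Pc x col (F.erase v) y w
      = mix (kerOn x F r) (law fun u : {u // u ∈ F} => col u.1) (fun _ u => (y u.1 : ℂ) + w)
          ((univ : Finset {u // u ∈ F}).erase ⟨v, hv⟩) (fun _ => ∅) := by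
  have h := mix_embed (r := r) (eraseEmb F v) (kerOn x F r)
    (p := law fun u : {u // u ∈ F} => col u.1) (law_sum _) (fun _ u => (y u.1 : ℂ) + w) univ
    (fun _ => ∅)
  simp only [Finset.map_empty, eraseEmb_map F hv] at h
  rw [h]
  rfl

/-- **The line through `y` at the vertex `v`**: poles and residues, one family for all colours. -/
theorem exists_line {x : Matrix V V ℂ} (hx : Kern x) (col : V → Option (Fin r)) {F : Finset V}
    {v : V} (hv : v ∈ F) (y : V → ℝ) :
    ∃ (n : ℕ) (b : Fin n → ℝ) (k : Fin r → Fin n → ℝ), (∀ c i, 0 ≤ k c i) ∧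
      LineRoots x col (F.erase v) y b ∧
      (∃ ρ : Fin (n + 1) → ℝ,
        Factor b (fun i => ∑ c, law (fun _ : Unit => col v) () c * k c i) (y v) ρ ∧
          LineRoots x col F y ρ) ∧
      ∀ c (Y : ℝ), ∃ ρ : Fin (n + 1) → ℝ, Factor b (k c) Y ρ ∧
        LineRoots x (Function.update col v (some c)) F (Function.update y v Y) ρ := by
  classical
  set u : {u // u ∈ F} := ⟨v, hv⟩ with hu
  set p := law (fun u : {u // u ∈ F} => col u.1) with hp
  set y' : Fin r → {u // u ∈ F} → ℝ := fun _ u => y u.1 with hy'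
  have hp0 : ∀ a c, 0 ≤ p a c := fun a c => law_nonneg _ a c
  have hp1 : ∀ a, ∑ c, p a c = 1 := fun a => law_sum _ a
  obtain ⟨b, k, hb, hk0, hk⟩ := exists_pointFactor (x := kerOn x F r) (fun _ => hx.bound F)
    hp0 hp1 y' u (fun _ => hx.diag v)
  refine ⟨_, b, k, hk0, fun w => by rw [Pc_erase x col F hv]; exact hb w, ?_, fun c Y => ?_⟩
  · obtain ⟨ρ, hf, hρ⟩ := exists_parent_roots hp0 hp1 hk0 hk
    refine ⟨ρ, ?_, hρ⟩
    have e1 : ∀ c, law (fun _ : Unit => col v) () c = p u c := fun c => rfl
    simp only [e1]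
    simpa [y', ← sum_mul, hp1, hu] using hf
  · obtain ⟨ρ, hf, hρ⟩ := exists_child_roots hp1 hb hk0 hk c Y
    refine ⟨ρ, hf, fun w => ?_⟩
    rw [← hρ w, Pc]
    congr 1
    · funext a d
      by_cases ha : a = u
      · subst ha
        simp [fixCol, law, hu]
      · have : a.1 ≠ v := fun e => ha (Subtype.ext e)
        simp [fixCol, law, p, ha, this]
    · funext d a
      by_cases ha : a = u
      · subst ha
        simp [setLevel, hu]
      · have : a.1 ≠ v := fun e => ha (Subtype.ext e)
        simp [setLevel, y', ha, this]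

theorem exists_lineRoots {x : Matrix V V ℂ} (hx : Kern x) (col : V → Option (Fin r))
    (F : Finset V) (y : V → ℝ) : ∃ (m : ℕ) (ρ : Fin m → ℝ), m = F.card ∧ LineRoots x col F y ρ := by
  obtain ⟨ρ', hρ'⟩ : ∃ ρ : Fin (Fintype.card {v // v ∈ F}) → ℝ, LineRoots x col F y ρ := by
    rcases F.eq_empty_or_nonempty with rfl | ⟨v, hv⟩
    · refine ⟨fun _ => 0, fun w => ?_⟩
      rw [Pc, univ_eq_empty, mix_empty (law_sum _)]
      simp [minorMat_empty, rootProd]
    · obtain ⟨b, k, hb, hk0, hk⟩ := exists_pointFactor (x := kerOn x F r) (fun _ => hx.bound F)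
        (p := law fun u : {u // u ∈ F} => col u.1) (fun a c => law_nonneg _ a c) (law_sum _)
        (fun _ u => y u.1) ⟨v, hv⟩ (fun _ => hx.diag v)
      obtain ⟨ρ, -, hρ⟩ := exists_parent_roots (fun a c => law_nonneg _ a c) (law_sum _) hk0 hk
      have hc : Fintype.card {v // v ∈ F} = Fintype.card {v // v ∈ F} - 1 + 1 := by
        have := Fintype.card_pos_iff.2 (⟨⟨v, hv⟩⟩ : Nonempty {v // v ∈ F})
        omega
      refine ⟨fun i => ρ (Fin.cast hc i), fun w => (hρ w).trans ?_⟩
      exact (Equiv.prod_comp (finCongr hc) (fun i => w - (ρ i : ℂ))).symm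
  exact ⟨_, ρ', Fintype.card_coe F, hρ'⟩

omit [DecidableEq V] [NeZero r] in
lemma law_kbar_nonneg {n : ℕ} {k : Fin r → Fin n → ℝ} (hk : ∀ c i, 0 ≤ k c i)
    (o : Option (Fin r)) (i : Fin n) : 0 ≤ ∑ c, law (fun _ : Unit => o) () c * k c i :=
  sum_nonneg (fun c _ => mul_nonneg (law_nonneg _ _ c) (hk c i))

/-- Validity is negativity of the roots. -/
theorem valid_iff_neg {x : Matrix V V ℂ} (hx : Kern x) (col : V → Option (Fin r)) (F : Finset V)
    (y : V → ℝ) {m : ℕ} {ρ : Fin m → ℝ} (hρ : LineRoots x col F y ρ) :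
    Valid x col F y ↔ ∀ i, ρ i < 0 := by
  induction F using Finset.strongInduction generalizing m with
  | H F ih =>
    constructor
    · intro hV
      rcases F.eq_empty_or_nonempty with rfl | ⟨v, hv⟩
      · intro i
        by_contra hle
        push Not at hle
        have h1 := hρ.P_eq (ρ i)
        rw [prod_eq_zero (mem_univ i) (sub_self _)] at h1
        have h2 : P x col ∅ (fun u => y u + ρ i) = P x col ∅ y := by
          rw [P_shift]
          unfold P Pc kerOn realVars
          congr 2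
          funext c a
          exact absurd a.2 (Finset.notMem_empty _)
        have h3 := hV ∅ subset_rfl
        linarith
      · obtain ⟨n, b, k, hk0, hb, ⟨ρ', hf, hρ'⟩, -⟩ := exists_line hx col hv y
        have hbneg := (ih _ (erase_ssubset hv) hb).1 (fun G hG => hV G (hG.trans (erase_subset _ _)))
        have hlev : 0 < level b (fun i => ∑ c, law (fun _ : Unit => col v) () c * k c i) (y v) := by
          have h1 := hV F subset_rfl
          rw [hρ'.P_zero, hf.at_zero hbneg] at h1
          exact (mul_pos_iff_of_pos_left (prod_pos (fun i _ => neg_pos.2 (hbneg i)))).1 h1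
        have hneg := hf.roots_neg hbneg (law_kbar_nonneg hk0 _) hlev
        intro i
        by_contra hle
        push Not at hle
        have h1 := hρ.P_eq (ρ i)
        rw [prod_eq_zero (mem_univ i) (sub_self _), hρ'.P_eq] at h1
        have h2 : 0 < ∏ j, (ρ i - ρ' j) := prod_pos (fun j _ => by linarith [hneg j])
        linarith
    · intro hneg G hG
      rcases eq_or_ne G F with rfl | hne
      · rw [hρ.P_zero]
        exact prod_pos (fun i _ => neg_pos.2 (hneg i))
      obtain ⟨v, hv, hvG⟩ := exists_of_ssubset (hG.ssubset_of_ne hne)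
      obtain ⟨n, b, k, hk0, hb, ⟨ρ', hf, hρ'⟩, -⟩ := exists_line hx col hv y
      have hneg' : ∀ j, ρ' j < 0 := fun j => by
        by_contra hle
        push Not at hle
        have h1 := hρ'.P_eq (ρ' j)
        rw [prod_eq_zero (mem_univ j) (sub_self _), hρ.P_eq] at h1
        have h2 : 0 < ∏ i, (ρ' j - ρ i) := prod_pos (fun i _ => by linarith [hneg i])
        linarith
      exact (ih _ (erase_ssubset hv) hb).2 (hf.poles_neg (law_kbar_nonneg hk0 _) hneg') G
        (subset_erase.2 ⟨hG, hvG⟩)

/-- The roots below `-τ` are validity `τ` lower. -/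
theorem valid_shift_iff {x : Matrix V V ℂ} (hx : Kern x) (col : V → Option (Fin r)) (F : Finset V)
    (y : V → ℝ) (τ : ℝ) {m : ℕ} {ρ : Fin m → ℝ} (hρ : LineRoots x col F y ρ) :
    Valid x col F (fun u => y u - τ) ↔ ∀ i, ρ i < -τ := by
  have h : LineRoots x col F (fun u => y u - τ) (fun i => ρ i + τ) := fun w => by
    have h1 := hρ (w - τ)
    simp only [Pc, rootProd, Complex.ofReal_sub, Complex.ofReal_add] at h1 ⊢
    have e1 : (fun (_ : Fin r) (v : {v // v ∈ F}) => (y v.1 : ℂ) - τ + w)
        = fun _ v => (y v.1 : ℂ) + (w - τ) := by funext c v; ring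
    rw [e1, h1]
    exact prod_congr rfl (fun i _ => by ring)
  rw [valid_iff_neg hx col F _ h]
  exact forall_congr' (fun i => lt_neg_iff_add_neg.symm)

omit [NeZero r] in
/-- The barrier value is a sum of simple poles. -/
lemma aval_line {x : Matrix V V ℂ} {col : V → Option (Fin r)} {F : Finset V} {v : V} {y : V → ℝ}
    {n : ℕ} {b k : Fin n → ℝ} {ρ : Fin (n + 1) → ℝ} (hb : LineRoots x col (F.erase v) y b)
    (hf : Factor b k (y v) ρ) (hρ : LineRoots x col F y ρ) {t : ℝ} (ht : ∀ i, t ≠ b i) :
    aval x col F v (fun u => y u + t) = ∑ i, k i * (t - b i)⁻¹ := by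
  have h := factor_ratio hf ht
  rw [← hρ.P_eq, ← hb.P_eq] at h
  rw [aval]
  linarith

omit [NeZero r] in
/-- Colouring `v` does not change the poles. -/
lemma lineRoots_update {x : Matrix V V ℂ} {col : V → Option (Fin r)} {F : Finset V} {v : V}
    {y : V → ℝ} {n : ℕ} {b : Fin n → ℝ} (hb : LineRoots x col (F.erase v) y b) (o : Option (Fin r))
    (Y : ℝ) :
    LineRoots x (Function.update col v o) (F.erase v) (Function.update y v Y) b := fun w => by
  rw [← hb w, Pc, Pc]
  have hne : ∀ a : {u // u ∈ F.erase v}, a.1 ≠ v := fun a => (mem_erase.1 a.2).1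
  simp only [fun a => Function.update_of_ne (hne a) o col,
    fun a => Function.update_of_ne (hne a) Y y]

/-- **Convexity along a line.** -/
theorem convex : ConvexGoal.{u} := by
  intro V _ r _ x col F v y a b c hx hv hV ha hab hbc
  obtain ⟨n, p, k, hk0, hp, ⟨ρ, hf, hρ⟩, -⟩ := exists_line hx col hv y
  have hpneg := (valid_iff_neg hx col _ y hp).1 hV
  have hval : ∀ t, 0 ≤ t → aval x col F v (fun u => y u + t)
      = ∑ i, (∑ d, law (fun _ : Unit => col v) () d * k d i) * (t - p i)⁻¹ := fun t ht =>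
    aval_line hp hf hρ (fun i => by linarith [hpneg i])
  rw [hval a ha, hval b (ha.trans hab), hval c (ha.trans (hab.trans hbc))]
  simp only [mul_sum, ← sum_add_distrib]
  refine sum_le_sum (fun i _ => ?_)
  have hw := law_kbar_nonneg hk0 (col v) i
  have hua : 0 < a - p i := by linarith [hpneg i]
  have hub : 0 < b - p i := by linarith
  have huc : 0 < c - p i := by linarith
  have key : (c - a) * (b - p i)⁻¹ ≤ (c - b) * (a - p i)⁻¹ + (b - a) * (c - p i)⁻¹ := by
    have h0 : 0 ≤ (c - a) * (b - a) * (c - b) :=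
      mul_nonneg (mul_nonneg (by linarith) (by linarith)) (by linarith)
    have e : (c - b) * (a - p i)⁻¹ + (b - a) * (c - p i)⁻¹ - (c - a) * (b - p i)⁻¹
        = (c - a) * (b - a) * (c - b) / ((a - p i) * (b - p i) * (c - p i)) := by
      have := hua.ne'
      have := hub.ne'
      have := huc.ne'
      field_simp
      ring
    have h1 : 0 ≤ (c - a) * (b - a) * (c - b) / ((a - p i) * (b - p i) * (c - p i)) :=
      div_nonneg h0 (by positivity)
    linarith
  have h2 := mul_le_mul_of_nonneg_left key hw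
  linarith

omit [DecidableEq V] [NeZero r] in
lemma law_congr_sub {F : Finset V} {col col' : V → Option (Fin r)} (h : ∀ v ∈ F, col v = col' v) :
    (law fun v : {v // v ∈ F} => col v.1) = law fun v => col' v.1 := by
  rw [funext (fun v : {v // v ∈ F} => h v.1 v.2)]

/-- The potential only depends on the window. -/
theorem phiCongr : PhiCongrGoal.{u} := by
  intro V _ r x col col' F y y' n hc hy
  have e : (fun v : {v // v ∈ F} => (y v.1 : ℂ)) = fun v => (y' v.1 : ℂ) :=
    funext fun v => by rw [hy v.1 v.2]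
  rw [Phi, Phi, law_congr_sub hc, e]

/-- The potential against the position of the largest root. -/
theorem phiBounds : PhiBoundsGoal.{u} := by
  intro V _ r _ x col F y n τ hx hτ
  obtain ⟨m, ρ, rfl, hρ⟩ := exists_lineRoots hx col F y
  rw [hρ.phi_eq n]
  refine ⟨fun hV => ?_, fun hV => ?_, fun hV hnV => ?_⟩
  · exact sum_nonneg (fun i _ => pow_nonneg
      (inv_nonneg.2 (neg_nonneg.2 ((valid_iff_neg hx col F y hρ).1 hV i).le)) n)
  · exact (invSum_le hτ (fun i => ((valid_shift_iff hx col F y τ hρ).1 hV i).le) n).trans_eq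
      (by rw [Fintype.card_fin])
  · rw [valid_shift_iff hx col F y τ hρ, not_forall] at hnV
    obtain ⟨i, hi⟩ := hnV
    exact pow_le_invSum ((valid_iff_neg hx col F y hρ).1 hV) (not_lt.1 hi) n

/-- **One processed vertex of a good window.** -/
theorem phiStep : PhiStepGoal.{u} := by
  intro V _ r _ x col F v y s g A M L q n hx hv hcol hn hg hA hM hL hV hVe hq hq2 hq1 htest hpar
  obtain ⟨m, b, k, hk0, hb, ⟨ρ₀, hf₀, hρ₀⟩, hchild⟩ := exists_line hx col hv y
  choose ρ hf hρ using fun c => hchild c (y v + s)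
  choose ρ' hf' hρ' using fun c => hchild c (y v)
  have hneg₀ := (valid_iff_neg hx col F y hρ₀).1 hV
  have hbg : ∀ i, b i < -(g / 4) := (valid_shift_iff hx col _ y _ hb).1 hVe
  have hb0 : ∀ i, b i < 0 := fun i => by linarith [hbg i]
  set kbar := fun i => ∑ c, law (fun _ : Unit => col v) () c * k c i with hkbar
  have hkb : ∀ i, 0 ≤ kbar i := fun i => law_kbar_nonneg hk0 _ i
  have hac : ∀ c, ∀ t, 0 ≤ t →
      aval x (Function.update col v (some c)) F v (fun u => y u + t)
        = ∑ i, k c i * (t - b i)⁻¹ := by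
    intro c t ht
    have h1 := hρ' c
    have h2 := lineRoots_update hb (some c) (y v)
    rw [Function.update_eq_self v y] at h1 h2
    exact aval_line h2 (hf' c) h1 (fun i => by linarith [hb0 i])
  have hlev : ∀ c, level b (k c) (y v + s)
      = y v + s - aval x (Function.update col v (some c)) F v y := by
    intro c
    have := hac c 0 le_rfl
    simp only [add_zero, zero_sub] at this
    rw [this, level]
  have hlev₀ : level b kbar (y v) = y v - aval x col F v y := by
    have := aval_line hb hf₀ hρ₀ (t := 0) (fun i => by linarith [hb0 i])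
    simp only [add_zero, zero_sub] at this
    rw [this, level]
  have hM' : ∀ c, q c ≠ 0 → 1 + poleMom b (k c) 2 ≤ M * A := by
    intro c hc
    refine le_trans ?_ (htest c hc).2
    have h1 := poleMom_two_le (hk0 c) hg (fun i => (hbg i).le)
    have h2 := hac c 0 le_rfl
    have h3 := hac c g hg.le
    simp only [add_zero, zero_sub] at h2
    rw [← h2, ← h3] at h1
    linarith
  have hr : 0 < r := NeZero.pos r
  have hr' : (r : ℝ) ≠ 0 := by exact_mod_cast hr.ne'
  obtain ⟨h1, h2⟩ := rootSum_step hr hn hb0 hneg₀ hkb hf₀ hq hq2 hq1 hk0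
    (fun t => by
      simp only [hkbar, mul_sum, sum_mul]
      rw [sum_comm]
      refine sum_congr rfl (fun i _ => sum_congr rfl (fun c _ => ?_))
      simp only [law, hcol]
      field_simp)
    (fun c _ => hf c) hA (fun c hc => (hlev c).symm ▸ (htest c hc).1) hM' hM hL
    (hlev₀.symm ▸ hpar)
  refine ⟨fun c hc => (valid_iff_neg hx _ _ _ (hρ c)).2 (h1 c hc), ?_⟩
  simpa only [hρ₀.phi_eq, hb.phi_eq, fun c => (hρ c).phi_eq] using h2

end Vale.Agent.P078.TypeIII.Reg
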