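import Vale.Agent.P078.TypeIII.Reg.Goals

/-!
# The regular part without an invariant functional: averages over seeds

Uniform averages over the seeds of one slot, the law of the chosen colour, the splitting over the
at most one acting vertex of a set of small diameter, and the leftover after many slots.
-/

namespace Vale.Agent.P078.TypeIII.Reg

open Vale.Agent.P078.Mss2
open Finset

universe u

variable {V : Type u} [DecidableEq V] (p : Prm)

lemma card_seed : Fintype.card (Seed p) = p.Q * p.r ^ p.K := by
  simp [Seed]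

lemma card_seed_pos (hQ : 1 ≤ p.Q) (hr : 1 ≤ p.r) : 0 < Fintype.card (Seed p) := by
  rw [card_seed]
  exact Nat.mul_pos hQ (pow_pos (Nat.lt_of_lt_of_le Nat.zero_lt_one hr) _)

/-! ## Elementary properties of the average -/

theorem avg : AvgGoal.{u} := by
  intro p hQ hr V _ U
  have hc : (0 : ℝ) < (Fintype.card ({v // v ∈ U} → Seed p) : ℝ) := by
    rw [Fintype.card_fun]
    exact_mod_cast pow_pos (card_seed_pos p hQ hr) _
  refine ⟨fun f g h => ?_, fun f g => ?_, fun a f => ?_, fun a => ?_⟩
  · exact mul_le_mul_of_nonneg_left (Finset.sum_le_sum fun σ _ => h _) (inv_nonneg.2 hc.le)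
  · simp only [avgOn, Finset.sum_add_distrib, mul_add]
  · simp only [avgOn, ← Finset.mul_sum]
    ring
  · simp only [avgOn, Finset.sum_const, Finset.card_univ, nsmul_eq_mul]
    rw [← mul_assoc, inv_mul_cancel₀ hc.ne', one_mul]

section Avg

variable {p} (hQ : 1 ≤ p.Q) (hr : 1 ≤ p.r) (U : Finset V)
include hQ hr

lemma avgOn_mono {f g : (V → Option (Seed p)) → ℝ} (h : ∀ ω, f ω ≤ g ω) :
    avgOn p U f ≤ avgOn p U g :=
  (avg p hQ hr U).1 f g h

lemma avgOn_add (f g : (V → Option (Seed p)) → ℝ) :
    avgOn p U (fun ω => f ω + g ω) = avgOn p U f + avgOn p U g :=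
  (avg p hQ hr U).2.1 f g

lemma avgOn_mul (a : ℝ) (f : (V → Option (Seed p)) → ℝ) :
    avgOn p U (fun ω => a * f ω) = a * avgOn p U f :=
  (avg p hQ hr U).2.2.1 a f

lemma avgOn_const (a : ℝ) : avgOn p U (fun _ => a) = a :=
  (avg p hQ hr U).2.2.2 a

lemma avgOn_sum {ι : Type*} (s : Finset ι) (f : ι → (V → Option (Seed p)) → ℝ) :
    avgOn p U (fun ω => ∑ i ∈ s, f i ω) = ∑ i ∈ s, avgOn p U (f i) := by
  classical
  induction s using Finset.induction with
  | empty => simp only [Finset.sum_empty, avgOn_const hQ hr U]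
  | insert a s ha ih =>
    simp only [Finset.sum_insert ha]
    rw [avgOn_add hQ hr U, ih]

end Avg

/-! ## Isolating the seed of one vertex -/

/-- Separate the coordinate of `v`. -/
def splitAt {U : Finset V} {v : V} (hv : v ∈ U) (α : Type*) :
    ({u // u ∈ U} → α) ≃ α × ({u // u ∈ U.erase v} → α) where
  toFun f := (f ⟨v, hv⟩, fun u => f ⟨u.1, Finset.mem_of_mem_erase u.2⟩)
  invFun a := fun u =>
    if h : u.1 = v then a.1 else a.2 ⟨u.1, Finset.mem_erase.2 ⟨h, u.2⟩⟩
  left_inv f := by
    funext u
    by_cases h : u.1 = v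
    · obtain ⟨u, hu⟩ := u
      subst h
      simp
    · simp [h]
  right_inv a := by
    refine Prod.ext (by simp) ?_
    funext u
    simp [Finset.ne_of_mem_erase u.2]

lemma extend_splitAt {U : Finset V} {v : V} (hv : v ∈ U) (σ : Seed p)
    (f : {u // u ∈ U.erase v} → Seed p) :
    extend p U ((splitAt hv (Seed p)).symm (σ, f))
      = Function.update (extend p (U.erase v) f) v (some σ) := by
  funext u
  by_cases h : u = v
  · subst h
    simp [extend, splitAt, hv]
  · by_cases hu : u ∈ U
    · simp [extend, splitAt, hu, h]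
    · simp [extend, hu, h]

lemma avgOn_split {U : Finset V} {v : V} (hv : v ∈ U) (f : (V → Option (Seed p)) → ℝ) :
    avgOn p U f = (Fintype.card (Seed p) : ℝ)⁻¹ *
      ∑ σ : Seed p, avgOn p (U.erase v) (fun ω => f (Function.update ω v (some σ))) := by
  unfold avgOn
  rw [← (splitAt hv (Seed p)).symm.sum_comp, Fintype.card_congr (splitAt hv (Seed p)),
    Fintype.card_prod, Fintype.sum_prod_type, ← Finset.mul_sum]
  simp only [extend_splitAt]
  push_cast
  rw [mul_inv, mul_assoc]

/-! ## Firing and acting -/

/-- The indicator of a Boolean. -/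
def ind (b : Bool) : ℝ := if b then 1 else 0

lemma ind_nonneg (b : Bool) : 0 ≤ ind b := by
  cases b <;> simp [ind]

lemma ind_le_one (b : Bool) : ind b ≤ 1 := by
  cases b <;> simp [ind]

/-- Nobody near `v`, other than `v`, fires. -/
def quiet (nb : V → Finset V) (ω : V → Option (Seed p)) (v : V) : Bool :=
  decide (((nball nb (2 * p.ρ) v).erase v).filter (fun w => fire p ω w = true) = ∅)

lemma acts_eq (nb : V → Finset V) (ω : V → Option (Seed p)) (v : V) :
    acts p nb ω v = (fire p ω v && quiet p nb ω v) := rfl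

lemma fire_update_self (ω : V → Option (Seed p)) (v : V) (σ : Seed p) :
    fire p (Function.update ω v (some σ)) v = decide ((σ.1 : ℕ) = 0) := by
  simp [fire]

lemma fire_update_ne (ω : V → Option (Seed p)) {v w : V} (h : w ≠ v) (a : Option (Seed p)) :
    fire p (Function.update ω v a) w = fire p ω w := by
  simp [fire, h]

lemma quiet_update (nb : V → Finset V) (ω : V → Option (Seed p)) (v : V) (a : Option (Seed p)) :
    quiet p nb (Function.update ω v a) v = quiet p nb ω v := by
  have h : ((nball nb (2 * p.ρ) v).erase v).filter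
        (fun w => fire p (Function.update ω v a) w = true)
      = ((nball nb (2 * p.ρ) v).erase v).filter (fun w => fire p ω w = true) :=
    Finset.filter_congr fun w hw => by rw [fire_update_ne p ω (Finset.ne_of_mem_erase hw)]
  simp only [quiet, h]

lemma sum_seed (hQ : 1 ≤ p.Q) (F : (Fin p.K → Fin p.r) → ℝ) :
    ∑ σ : Seed p, ind (decide ((σ.1 : ℕ) = 0)) * F σ.2 = ∑ κ : Fin p.K → Fin p.r, F κ := by
  rw [Fintype.sum_prod_type, Finset.sum_eq_single (⟨0, hQ⟩ : Fin p.Q)]
  · simp [ind]
  · intro a _ ha
    have : (a : ℕ) ≠ 0 := fun h => ha (Fin.ext h)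
    simp [ind, this]
  · simp

section Fire

variable {p} (hQ : 1 ≤ p.Q) (hr : 1 ≤ p.r) (U : Finset V) (nb : V → Finset V) (v : V)
include hQ hr

/-- The probability that `v` fires is at most `1 / Q`. -/
lemma avg_fire_le : avgOn p U (fun ω => ind (fire p ω v)) ≤ 1 / (p.Q : ℝ) := by
  by_cases hv : v ∈ U
  · rw [avgOn_split p hv]
    simp only [fire_update_self, avgOn_const hQ hr]
    have h := sum_seed p hQ (fun _ => (1 : ℝ))
    simp only [mul_one, Finset.sum_const, Finset.card_univ, nsmul_eq_mul] at h
    rw [h, card_seed, Fintype.card_fun, Fintype.card_fin, Fintype.card_fin]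
    push_cast
    have h1 : ((p.r : ℝ) ^ p.K) ≠ 0 := pow_ne_zero _ (by positivity)
    rw [mul_inv, mul_assoc, inv_mul_cancel₀ h1, mul_one, one_div]
  · have h : avgOn p U (fun ω => ind (fire p ω v)) = avgOn p U (fun _ => (0 : ℝ)) := by
      unfold avgOn
      refine congrArg _ (Finset.sum_congr rfl fun σ _ => ?_)
      simp [fire, extend, hv, ind]
    rw [h, avgOn_const hQ hr]
    positivity

/-- An acting vertex: the seed of the trials is independent of acting. -/
lemma avg_acts_mul (hv : v ∈ U) (φ : Option (Seed p) → ℝ) (F : (Fin p.K → Fin p.r) → ℝ)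
    (hF : ∀ σ : Seed p, φ (some σ) = F σ.2) :
    avgOn p U (fun ω => ind (acts p nb ω v) * φ (ω v))
      = 1 / (p.Q : ℝ) * avgOn p (U.erase v) (fun ω => ind (quiet p nb ω v)) *
          (((p.r : ℝ) ^ p.K)⁻¹ * ∑ κ, F κ) := by
  rw [avgOn_split p hv]
  have h : ∀ σ : Seed p, avgOn p (U.erase v)
      (fun ω => ind (acts p nb (Function.update ω v (some σ)) v)
        * φ (Function.update ω v (some σ) v))
      = ind (decide ((σ.1 : ℕ) = 0)) * F σ.2
          * avgOn p (U.erase v) (fun ω => ind (quiet p nb ω v)) := by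
    intro σ
    rw [← avgOn_mul hQ hr]
    refine congrArg _ (funext fun ω => ?_)
    rw [acts_eq, fire_update_self, quiet_update, Function.update_self, hF]
    cases decide ((σ.1 : ℕ) = 0) <;> simp [ind, mul_comm]
  simp only [h]
  rw [← Finset.sum_mul, sum_seed p hQ F, card_seed]
  push_cast
  rw [mul_inv, one_div]
  ring

lemma avg_acts (hv : v ∈ U) :
    avgOn p U (fun ω => ind (acts p nb ω v))
      = 1 / (p.Q : ℝ) * avgOn p (U.erase v) (fun ω => ind (quiet p nb ω v)) := by
  have h := avg_acts_mul hQ hr U nb v hv (fun _ => 1) (fun _ => 1) (fun _ => rfl)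
  simp only [mul_one, Finset.sum_const, Finset.card_univ, nsmul_eq_mul, Fintype.card_fun,
    Fintype.card_fin, Nat.cast_pow] at h
  rw [inv_mul_cancel₀ (pow_ne_zero _ (by positivity)), mul_one] at h
  exact h

/-- A vertex with a small neighbourhood acts with probability about `1 / Q`. -/
lemma avg_acts_ge (hv : v ∈ U) :
    1 / (p.Q : ℝ) * (1 - ((nball nb (2 * p.ρ) v).card : ℝ) / p.Q)
      ≤ avgOn p U (fun ω => ind (acts p nb ω v)) := by
  rw [avg_acts hQ hr U nb v hv]
  refine mul_le_mul_of_nonneg_left ?_ (by positivity)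
  set B := (nball nb (2 * p.ρ) v).erase v with hB
  have h1 : ∀ ω : V → Option (Seed p),
      1 ≤ ind (quiet p nb ω v) + ∑ w ∈ B, ind (fire p ω w) := by
    intro ω
    rcases hq : quiet p nb ω v with _ | _
    · have hne : (B.filter fun w => fire p ω w = true).Nonempty := by
        rw [Finset.nonempty_iff_ne_empty]
        simpa [quiet, hB] using hq
      obtain ⟨w, hw⟩ := hne
      rw [Finset.mem_filter] at hw
      have := Finset.single_le_sum (f := fun w => ind (fire p ω w))
        (fun i _ => ind_nonneg _) hw.1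
      rw [hw.2] at this
      simpa [ind] using this
    · have := Finset.sum_nonneg (s := B) (fun w _ => ind_nonneg (fire p ω w))
      simp [ind]
  have h2 := avgOn_mono hQ hr (U.erase v) h1
  rw [avgOn_const hQ hr, avgOn_add hQ hr, avgOn_sum hQ hr] at h2
  have h3 : ∑ w ∈ B, avgOn p (U.erase v) (fun ω => ind (fire p ω w))
      ≤ ((nball nb (2 * p.ρ) v).card : ℝ) / p.Q := by
    refine (Finset.sum_le_sum fun w _ => avg_fire_le hQ hr (U.erase v) w).trans ?_
    rw [Finset.sum_const, nsmul_eq_mul, mul_one_div]
    gcongr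
    exact Finset.erase_subset v (nball nb (2 * p.ρ) v)
  linarith

end Fire

/-! ## The law of the chosen colour -/

lemma find_law {r : ℕ} (hr : 1 ≤ r) (G : Finset (Fin r)) (φ : Option (Fin r) → ℝ) :
    ∀ K : ℕ, ((r : ℝ) ^ K)⁻¹ *
        ∑ κ : Fin K → Fin r, φ ((List.ofFn κ).find? fun c => decide (c ∈ G))
      = (∑ c ∈ G, (1 - (1 - (G.card : ℝ) / r) ^ K) / G.card * φ (some c))
          + (1 - (G.card : ℝ) / r) ^ K * φ none
  | 0 => by simp
  | K + 1 => by
    have hr0 : (r : ℝ) ≠ 0 := by positivity
    have ih := find_law hr G φ K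
    rw [← (Fin.consEquiv fun _ : Fin (K + 1) => Fin r).sum_comp, Fintype.sum_prod_type]
    have h : ∀ a : Fin r, ((r : ℝ) ^ K)⁻¹ * ∑ κ : Fin K → Fin r,
        φ ((List.ofFn ((Fin.consEquiv fun _ : Fin (K + 1) => Fin r) (a, κ))).find?
          fun c => decide (c ∈ G))
        = if a ∈ G then φ (some a) else
            (∑ c ∈ G, (1 - (1 - (G.card : ℝ) / r) ^ K) / G.card * φ (some c))
              + (1 - (G.card : ℝ) / r) ^ K * φ none := by
      intro a
      by_cases ha : a ∈ G
      · simp [List.ofFn_succ, ha, hr0]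
      · rw [if_neg ha, ← ih]
        simp [List.ofFn_succ, ha]
    rw [pow_succ', mul_inv, mul_assoc, Finset.mul_sum]
    simp only [h]
    rw [Finset.sum_ite, Finset.filter_mem_eq_inter, Finset.univ_inter, Finset.sum_const,
      nsmul_eq_mul]
    have hcard : ((Finset.univ.filter fun a => a ∉ G).card : ℝ) = r - G.card := by
      rw [Finset.filter_not, Finset.filter_mem_eq_inter, Finset.univ_inter,
        Finset.card_sdiff_of_subset (Finset.subset_univ _), Nat.cast_sub (Finset.card_le_card (Finset.subset_univ G))]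
      simp
    rw [hcard]
    rcases G.eq_empty_or_nonempty with rfl | hG
    · simp
      field_simp
    · have hg : (G.card : ℝ) ≠ 0 := by
        have := hG.card_pos
        positivity
      rw [mul_add ((r : ℝ) - G.card), ← Finset.mul_sum, ← Finset.mul_sum, pow_succ']
      generalize (1 - (G.card : ℝ) / r) ^ K = t
      field_simp
      ring

lemma choose_law (hr : 1 ≤ p.r) (f : St V p.r → ℝ) (st : St V p.r) (v : V)
    (G : Finset (Fin p.r)) :
    ((p.r : ℝ) ^ p.K)⁻¹ * ∑ κ : Fin p.K → Fin p.r,
        f (Function.update st v (some ((List.ofFn κ).find? fun c => decide (c ∈ G))))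
      = outAvg p f st v G := by
  rw [find_law hr G (fun o => f (Function.update st v (some o))) p.K]
  have hs : ∑ c, qLaw p G c = ∑ c ∈ G, (1 - (1 - (G.card : ℝ) / p.r) ^ p.K) / G.card := by
    simp [qLaw]
  have hs' : ∑ c, qLaw p G c * f (Function.update st v (some (some c)))
      = ∑ c ∈ G, (1 - (1 - (G.card : ℝ) / p.r) ^ p.K) / G.card
          * f (Function.update st v (some (some c))) := by
    simp [qLaw, ite_mul]
  rw [outAvg, hs, hs']
  congr 1
  congr 1
  rcases G.eq_empty_or_nonempty with rfl | hG
  · simp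
  · have hg : (G.card : ℝ) ≠ 0 := by
      have := hG.card_pos
      positivity
    rw [Finset.sum_const, nsmul_eq_mul, mul_div_cancel₀ _ hg]
    ring

theorem qLaw' : QLawGoal := by
  intro p hr G
  have hr0 : (0 : ℝ) < p.r := by positivity
  have hle : (G.card : ℝ) ≤ p.r := by
    exact_mod_cast (card_le_univ G).trans_eq (Fintype.card_fin _)
  have hb0 : 0 ≤ 1 - (G.card : ℝ) / p.r := by
    rw [sub_nonneg, div_le_one hr0]
    exact hle
  have hb1 : 1 - (G.card : ℝ) / p.r ≤ 1 := by
    have : 0 ≤ (G.card : ℝ) / p.r := by positivity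
    linarith
  have hp1 : (1 - (G.card : ℝ) / p.r) ^ p.K ≤ 1 := pow_le_one₀ hb0 hb1
  have hp0 : 0 ≤ (1 - (G.card : ℝ) / p.r) ^ p.K := pow_nonneg hb0 _
  have hsum : G.Nonempty → ∑ c, qLaw p G c = 1 - (1 - (G.card : ℝ) / p.r) ^ p.K := by
    intro hG
    have hg : (G.card : ℝ) ≠ 0 := by
      have := hG.card_pos
      positivity
    simp only [qLaw, Finset.sum_ite_mem, Finset.univ_inter, Finset.sum_const, nsmul_eq_mul]
    rw [mul_div_cancel₀ _ hg]
  refine ⟨fun c => ?_, fun c hc => ?_, ?_, fun h c => ?_, fun hG h => ?_⟩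
  · unfold qLaw
    split_ifs
    · exact div_nonneg (by linarith) (Nat.cast_nonneg _)
    · exact le_rfl
  · by_contra h
    exact hc (by simp [qLaw, h])
  · rcases G.eq_empty_or_nonempty with rfl | hG
    · simp [qLaw]
    · rw [hsum hG]
      linarith
  · unfold qLaw
    split_ifs with hc
    · have h2 : (p.r : ℝ) ≤ 2 * G.card := by exact_mod_cast h ⟨c, hc⟩
      have hg : (0 : ℝ) < G.card := by
        have := Finset.card_pos.2 ⟨c, hc⟩
        exact_mod_cast this
      calc _ ≤ 1 / (G.card : ℝ) := by gcongr; linarith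
        _ ≤ 2 / p.r := by
          rw [div_le_div_iff₀ hg hr0]
          linarith
    · positivity
  · rw [hsum hG, sub_sub_cancel]
    refine pow_le_pow_left₀ hb0 ?_ _
    have h2 : (p.r : ℝ) ≤ 2 * G.card := by exact_mod_cast h
    have h3 : (1 / 2 : ℝ) ≤ (G.card : ℝ) / p.r := by
      rw [div_le_div_iff₀ two_pos hr0]
      linarith
    linarith

/-! ## Splitting over the acting vertex -/

theorem split : SplitGoal.{u} := by
  intro p hQ hr V _ nb O U W j st f hW hf
  set G : V → Option (Seed p) → ℝ := fun v a =>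
    if st v = none then f (Function.update st v (choose p (O j st v) a)) else f st with hG
  set pr : V → ℝ := fun v => avgOn p U (fun ω => ind (acts p nb ω v)) with hpr
  have hone : ∀ ω, ∀ v ∈ W, ∀ w ∈ W, acts p nb ω v = true → acts p nb ω w = true → v = w := by
    intro ω v hv w hw hav haw
    by_contra hne
    simp only [acts, Bool.and_eq_true, decide_eq_true_eq] at hav haw
    have hmem : w ∈ ((nball nb (2 * p.ρ) v).erase v).filter (fun x => fire p ω x = true) :=
      Finset.mem_filter.2 ⟨Finset.mem_erase.2 ⟨Ne.symm hne, hW w hw v hv⟩, haw.1⟩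
    rw [hav.2] at hmem
    simp at hmem
  have hpt : ∀ ω, f (step p nb O j st ω)
      = ∑ v ∈ W, ind (acts p nb ω v) * (G v (ω v) - f st) + f st := by
    intro ω
    by_cases hex : ∃ v ∈ W, acts p nb ω v = true
    · obtain ⟨v, hv, hva⟩ := hex
      rw [Finset.sum_eq_single v]
      · rw [hva]
        simp only [ind, if_true, one_mul, sub_add_cancel, hG]
        split_ifs with hst
        · refine hf _ _ fun w hw => ?_
          by_cases hwv : w = v
          · subst hwv
            simp [step, hst, hva]
          · have : acts p nb ω w ≠ true := fun h => hwv (hone ω w hw v hv h hva)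
            simp [step, this, hwv]
        · refine hf _ _ fun w hw => ?_
          by_cases hwv : w = v
          · subst hwv
            simp [step, hst]
          · have : acts p nb ω w ≠ true := fun h => hwv (hone ω w hw v hv h hva)
            simp [step, this]
      · intro w hw hwv
        have : acts p nb ω w ≠ true := fun h => hwv (hone ω w hw v hv h hva)
        simp [ind, this]
      · exact fun h => absurd hv h
    · simp only [not_exists, not_and] at hex
      rw [Finset.sum_eq_zero fun v hv => by simp [ind, hex v hv], zero_add]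
      exact hf _ _ fun w hw => by simp [step, hex w hw]
  have hterm : ∀ v, avgOn p U (fun ω => ind (acts p nb ω v) * (G v (ω v) - f st))
      = pr v * ((if st v = none then outAvg p f st v (O j st v) else f st) - f st) := by
    intro v
    by_cases hv : v ∈ U
    · rw [avg_acts_mul hQ hr U nb v hv (fun a => G v a - f st)
        (fun κ => (if st v = none then f (Function.update st v
          (some ((List.ofFn κ).find? fun c => decide (c ∈ O j st v)))) else f st) - f st)
        (fun σ => by simp only [hG, choose]), hpr]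
      dsimp only
      rw [avg_acts hQ hr U nb v hv]
      congr 1
      have hrK : ((p.r : ℝ) ^ p.K) ≠ 0 := pow_ne_zero _ (by positivity)
      rw [Finset.sum_sub_distrib, mul_sub, Finset.sum_const, Finset.card_univ, nsmul_eq_mul,
        Fintype.card_fun, Fintype.card_fin, Fintype.card_fin, Nat.cast_pow, ← mul_assoc,
        inv_mul_cancel₀ hrK, one_mul]
      congr 1
      split_ifs with hst
      · exact choose_law p hr f st v _
      · rw [Finset.sum_const, Finset.card_univ, nsmul_eq_mul,
          Fintype.card_fun, Fintype.card_fin, Fintype.card_fin, Nat.cast_pow, ← mul_assoc,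
          inv_mul_cancel₀ hrK, one_mul]
    · have h0 : ∀ σ : {u // u ∈ U} → Seed p, acts p nb (extend p U σ) v = false := by
        intro σ
        simp [acts, fire, extend, hv]
      simp [hpr, avgOn, h0, ind]
  refine ⟨pr, fun v => ⟨?_, ?_⟩, ?_, ?_⟩
  · have h := avgOn_mono hQ hr U (f := fun _ => (0 : ℝ))
      (g := fun ω => ind (acts p nb ω v)) (fun ω => ind_nonneg _)
    rwa [avgOn_const hQ hr] at h
  · refine (avgOn_mono hQ hr U fun ω => ?_).trans (avg_fire_le hQ hr U v)
    rw [acts_eq]
    cases fire p ω v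
    · simp [ind]
    · exact ind_le_one _
  · rw [hpr, ← avgOn_sum hQ hr]
    refine (avgOn_mono hQ hr U (g := fun _ => (1 : ℝ)) fun ω => ?_).trans_eq
      (avgOn_const hQ hr U 1)
    by_cases hex : ∃ v ∈ W, acts p nb ω v = true
    · obtain ⟨v, hv, hva⟩ := hex
      rw [Finset.sum_eq_single v]
      · exact ind_le_one _
      · intro w hw hwv
        have : acts p nb ω w ≠ true := fun h => hwv (hone ω w hw v hv h hva)
        simp [ind, this]
      · exact fun h => absurd hv h
    · simp only [not_exists, not_and] at hex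
      rw [Finset.sum_eq_zero fun v hv => by simp [ind, hex v hv]]
      exact zero_le_one
  · simp only [hpt]
    rw [avgOn_add hQ hr, avgOn_sum hQ hr, avgOn_const hQ hr]
    rw [Finset.sum_congr rfl fun v _ => hterm v]
    simp only [mul_sub, Finset.sum_sub_distrib]
    rw [← Finset.sum_mul]
    ring

/-! ## Leftover -/

theorem leftover : LeftoverGoal.{u} := by
  intro p hQ hr V _ nb O U ψ k t st hψ hN
  set a := 1 / (p.Q : ℝ) * (1 - ((nball nb (2 * p.ρ) ψ).card : ℝ) / p.Q) with ha
  have hQ0 : (0 : ℝ) < p.Q := by positivity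
  have hN' : ((nball nb (2 * p.ρ) ψ).card : ℝ) / p.Q ≤ 1 := by
    rw [div_le_one hQ0]
    exact_mod_cast hN
  have ha1 : a ≤ 1 := by
    have hx : 0 ≤ ((nball nb (2 * p.ρ) ψ).card : ℝ) / p.Q := by positivity
    have hy : 1 / (p.Q : ℝ) ≤ 1 := by
      rw [div_le_one hQ0]
      exact_mod_cast hQ
    calc a ≤ 1 / (p.Q : ℝ) * 1 := by
          rw [ha]
          gcongr
          linarith
      _ ≤ 1 := by linarith
  have main : ∀ k t st, run p nb O U k t st (fun s => if s ψ = none then 1 else 0)
      ≤ (if st ψ = none then 1 else 0) * (1 - a) ^ k := by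
    intro k
    induction k with
    | zero => intro t st; simp [run]
    | succ k ih =>
      intro t st
      rw [run]
      refine (avgOn_mono hQ hr U fun ω => ih _ _).trans ?_
      have hb : 0 ≤ (1 - a) ^ k := pow_nonneg (by linarith) _
      by_cases hst : st ψ = none
      · have hω : ∀ ω, (if step p nb O (t / p.S) st ω ψ = none then (1 : ℝ) else 0) * (1 - a) ^ k
            ≤ (1 - a) ^ k + -(1 - a) ^ k * ind (acts p nb ω ψ) := by
          intro ω
          rcases hac : acts p nb ω ψ with _ | _
          · simp [step, hst, hac, ind]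
          · have : step p nb O (t / p.S) st ω ψ ≠ none := by
              simp only [step, hst, hac, and_self, if_true]
              cases ω ψ <;> simp [choose]
            simp [this, ind]
        refine (avgOn_mono hQ hr U hω).trans ?_
        rw [avgOn_add hQ hr, avgOn_const hQ hr, avgOn_mul hQ hr, if_pos hst, one_mul, pow_succ]
        nlinarith [avg_acts_ge hQ hr U nb ψ hψ]
      · have hω : ∀ ω, (if step p nb O (t / p.S) st ω ψ = none then (1 : ℝ) else 0) * (1 - a) ^ k
            ≤ 0 := by
          intro ω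
          simp [step, hst]
        refine (avgOn_mono hQ hr U hω).trans ?_
        rw [avgOn_const hQ hr, if_neg hst, zero_mul]
  refine (main k t st).trans ?_
  have he : -((k : ℝ) / p.Q * (1 - ((nball nb (2 * p.ρ) ψ).card : ℝ) / p.Q)) = (k : ℝ) * -a := by
    rw [ha]
    ring
  rw [he, Real.exp_nat_mul]
  calc (if st ψ = none then (1 : ℝ) else 0) * (1 - a) ^ k ≤ 1 * (1 - a) ^ k := by
        refine mul_le_mul_of_nonneg_right ?_ (pow_nonneg (by linarith) _)
        split_ifs <;> norm_num
    _ ≤ Real.exp (-a) ^ k := by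
        rw [one_mul]
        exact pow_le_pow_left₀ (by linarith) (Real.one_sub_le_exp_neg a) k

end Vale.Agent.P078.TypeIII.Reg
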