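import Vale.Agent.P078.TypeIII.Reg.Basic
import Vale.Agent.P078.TypeIII.Cheby
import Vale.Agent.P078.TypeIII.PointFactor

/-!
# Replacing a valid set by a ball

The power sums of the roots of the mixed determinant up to `N` differ, between a set and the set
without `v`, by cumulants carried in the ball of radius `N` about `v`. They determine the residue
moments up to `N - 2`, and a Chebyshev polynomial approximates `1 / (-t)` on the poles.
-/

namespace Vale.Agent.P078.TypeIII.Reg

open Vale.Agent.P078.Mss (NumBound minorMat HalfPlane rootProd)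
open Vale.Agent.P078.Mss2 Vale.Agent.P078.TypeIII.RootSum
open Finset Matrix

universe u

section generic

open Polynomial

variable {V : Type*} [Fintype V] [DecidableEq V] {r : ℕ}
variable {x : Fin r → Matrix V V ℂ} {p : V → Fin r → ℝ}

/-- Real roots and their power sums, given that all roots are real. -/
theorem roots_kappa (hp1 : ∀ v, ∑ c, p v c = 1)
    (hroot : ∀ s : ℂ, (muPoly x p).eval s = 0 → s.im = 0) :
    ∃ ρ : Fin (Fintype.card V) → ℝ,
      (∀ w, mix x p (fun _ _ => w) Finset.univ (fun _ => ∅) = rootProd ρ w) ∧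
      ∀ k, 0 < k → ∑ S ∈ (Finset.univ : Finset V).powerset, kappa x p k S
        = ((∑ i, ρ i ^ k : ℝ) : ℂ) := by
  set n := Fintype.card V with hn
  have hA0 : ∑ S ∈ (Finset.univ : Finset V).powerset, acoef x p 0 S = 1 := by
    simp [acoef_zero_eq hp1]
  have hlead : (muPoly x p).coeff n = 1 := by
    have h := coeff_muPoly (x := x) hp1 (Nat.zero_le n)
    rw [Nat.sub_zero] at h
    rw [h, hA0]
  obtain ⟨ρ, hρm, hρ⟩ := real_rooted_form natDegree_muPoly (by rw [hlead]; exact one_ne_zero) hroot
  rw [hlead, map_one, one_mul] at hρ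
  have hev : ∀ w, mix x p (fun _ _ => w) Finset.univ (fun _ => ∅) = rootProd ρ w := fun w => by
    rw [← eval_muPoly, hρ, rootProd, eval_prod]
    simp
  refine ⟨ρ, hev, ?_⟩
  -- Newton's identities
  set m : Multiset ℂ := Finset.univ.val.map (fun i => ((ρ i : ℝ) : ℂ)) with hm
  have hcard : Multiset.card m = n := by simp [m, n]
  have hprod : muPoly x p = (m.map fun t => X - Polynomial.C t).prod := by
    rw [hρ, hm, Multiset.map_map]; rfl
  have hA : ∀ j, ∑ S ∈ (Finset.univ : Finset V).powerset, acoef x p j S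
      = (-1) ^ j * m.esymm j := by
    intro j
    rcases le_or_gt j n with hj | hj
    · rw [← coeff_muPoly hp1 hj, hprod, Multiset.prod_X_sub_C_coeff _ (by omega), hcard]
      rw [show n - (n - j) = j by omega]
    · rw [Finset.sum_eq_zero (fun S _ => by
        rw [acoef, if_neg (by have := Finset.card_le_univ S; omega)])]
      rw [Multiset.esymm, Multiset.powersetCard_eq_empty _ (by omega)]
      simp
  intro k
  induction k using Nat.strong_induction_on with
  | h k ih =>
    intro hk
    set K := fun i => ∑ S ∈ (Finset.univ : Finset V).powerset, kappa x p i S with hK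
    have h1 := sum_kappa_identity (x := x) hp1 (Finset.univ : Finset V) k
    rw [Finset.sum_range_succ, Nat.sub_self, hA0, mul_one, hA k] at h1
    have h2 := congrArg (MvPolynomial.aeval (fun i => ((ρ i : ℝ) : ℂ)))
      (MvPolynomial.psum_eq_mul_esymm_sub_sum (Fin n) ℤ k hk)
    simp only [map_sub, map_mul, map_pow, map_neg, map_one, map_natCast, map_sum,
      MvPolynomial.psum, MvPolynomial.aeval_X] at h2
    have h2' : ∀ j, MvPolynomial.aeval (fun i => ((ρ i : ℝ) : ℂ))
        (MvPolynomial.esymm (Fin n) ℤ j) = m.esymm j :=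
      fun j => MvPolynomial.aeval_esymm_eq_multiset_esymm (Fin n) ℤ j _
    simp only [h2'] at h2
    have h3 : ∑ i ∈ Finset.range k, K i * ((-1) ^ (k - i) * m.esymm (k - i))
        = ∑ a ∈ Finset.HasAntidiagonal.antidiagonal k with a.1 ∈ Set.Ioo 0 k,
          (-1) ^ a.1 * m.esymm a.1 * ∑ i, ((ρ i : ℝ) : ℂ) ^ a.2 := by
      trans ∑ i ∈ (Finset.range k).filter (fun i => 0 < i), K i * ((-1) ^ (k - i) * m.esymm (k - i))
      · refine (Finset.sum_filter_of_ne (fun i _ hne' => ?_)).symm
        by_contra h0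
        rw [not_lt, Nat.le_zero] at h0
        subst h0
        simp [K, kappa_zero] at hne'
      · refine Finset.sum_nbij' (fun i => (k - i, i)) (fun a => a.2) ?_ ?_ ?_ ?_ ?_
        · intro i hi
          simp only [Finset.mem_filter, Finset.mem_range] at hi ⊢
          exact ⟨Finset.HasAntidiagonal.mem_antidiagonal.2 (by dsimp only; omega),
            Set.mem_Ioo.2 ⟨by omega, by omega⟩⟩
        · intro a ha
          simp only [Finset.mem_filter, Finset.mem_range] at ha ⊢
          obtain ⟨h5, h6, h7⟩ := ha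
          have := Finset.HasAntidiagonal.mem_antidiagonal.1 h5
          omega
        · intro i _; rfl
        · intro a ha
          simp only [Finset.mem_filter] at ha
          have := Finset.HasAntidiagonal.mem_antidiagonal.1 ha.1
          exact Prod.ext (by simp only; omega) rfl
        · intro i hi
          simp only [Finset.mem_filter, Finset.mem_range] at hi
          simp only [K]
          rw [ih i hi.1 hi.2]
          push_cast
          ring
    have h4 : ∀ i, (∑ S ∈ (Finset.univ : Finset V).powerset, acoef x p (k - i) S)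
        = (-1) ^ (k - i) * m.esymm (k - i) := fun i => hA _
    simp only [h4] at h1
    change K k = _
    rw [show (∑ S ∈ (Finset.univ : Finset V).powerset, kappa x p k S) = K k from rfl] at h1
    rw [show ((∑ i, ρ i ^ k : ℝ) : ℂ) = ∑ i, ((ρ i : ℝ) : ℂ) ^ k by push_cast; rfl, h2, ← h3]
    rw [pow_succ] at *
    linear_combination h1

/-- Shifting the variables is subtracting a diagonal. -/
lemma mix_diag (x : Fin r → Matrix V V ℂ) (p : V → Fin r → ℝ) (d : V → ℂ) (z : Fin r → V → ℂ)
    (U : Finset V) (D : Fin r → Finset V) :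
    mix (fun c => x c - Matrix.diagonal d) p z U D = mix x p (fun c i => d i + z c i) U D := by
  simp only [mix]
  refine Finset.sum_congr rfl (fun f _ => congrArg _ (Finset.prod_congr rfl (fun c _ => ?_)))
  congr 1
  refine Matrix.ext (fun i j => ?_)
  simp only [minorMat, Matrix.of_apply, Matrix.sub_apply, Matrix.diagonal_apply]
  split_ifs <;> ring

end generic

section small

variable {V : Type*} [DecidableEq V] {r : ℕ} {x : Fin r → Matrix V V ℂ} {p : V → Fin r → ℝ}

lemma minorMat_univ_zero {W : Type*} [Fintype W] [DecidableEq W] (M : Matrix W W ℂ) :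
    minorMat M 0 univ = -M := by
  refine Matrix.ext (fun i j => ?_)
  simp [minorMat]

lemma ecoef_map_univ {W : Type*} [Fintype W] [DecidableEq W] (hp : ∀ v, ∑ c, p v c = 1)
    (ι : W ↪ V) :
    ecoef x p (univ.map ι) = ∑ f : W → Fin r, (∏ i, (p (ι i) (f i) : ℂ)) *
      (-pinched (Mss2.sub x ι) f).det := by
  rw [ecoef_eq hp, show (0 : Fin r → W → ℂ) = fun _ => (0 : W → ℂ) from rfl, mix_eq_pinched]
  simp only [minorMat_univ_zero]

lemma ecoef_single (hp : ∀ v, ∑ c, p v c = 1) (v : V) :
    ecoef x p {v} = -∑ c, (p v c : ℂ) * x c v v := by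
  have h := ecoef_map_univ (x := x) hp (⟨fun _ : Fin 1 => v, fun a b _ => Subsingleton.elim a b⟩)
  rw [show (univ : Finset (Fin 1)).map ⟨fun _ : Fin 1 => v, fun a b _ => Subsingleton.elim a b⟩
    = {v} by
      ext a
      rw [mem_map, mem_singleton]
      exact ⟨fun ⟨_, _, e⟩ => e.symm, fun e => ⟨0, mem_univ _, e.symm⟩⟩] at h
  rw [h, ← (Equiv.funUnique (Fin 1) (Fin r)).symm.sum_comp, ← sum_neg_distrib]
  refine sum_congr rfl fun c _ => ?_
  simp [pinched, Mss2.sub]
  rfl

lemma ecoef_pair (hp : ∀ v, ∑ c, p v c = 1) {v u : V} (h : v ≠ u) :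
    ecoef x p {v, u} = (∑ c, (p v c : ℂ) * x c v v) * (∑ c, (p u c : ℂ) * x c u u)
      - ∑ c, (p v c : ℂ) * (p u c : ℂ) * (x c v u * x c u v) := by
  have hι : Function.Injective (![v, u] : Fin 2 → V) := by
    intro a b hab
    fin_cases a <;> fin_cases b <;> simp_all
  have h0 := ecoef_map_univ (x := x) hp ⟨_, hι⟩
  rw [show (univ : Finset (Fin 2)).map ⟨_, hι⟩ = {v, u} by
    ext a; simp [eq_comm]] at h0
  rw [h0, ← (finTwoArrowEquiv (Fin r)).symm.sum_comp, Fintype.sum_prod_type, sum_mul_sum,
    ← sum_sub_distrib]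
  refine sum_congr rfl fun c _ => ?_
  rw [eq_sub_iff_add_eq]
  conv_lhs => arg 2; rw [← Fintype.sum_ite_eq c (fun d => (p v c : ℂ) * (p u d : ℂ) *
    (x c v u * x d u v))]
  rw [← sum_add_distrib]
  refine sum_congr rfl fun d _ => ?_
  by_cases hcd : c = d
  · subst hcd
    simp [pinched, Mss2.sub, Matrix.det_fin_two]
    ring
  · simp [pinched, Mss2.sub, Matrix.det_fin_two, hcd, Ne.symm hcd]
    ring

end small

section series

open PowerSeries in
/-- The logarithmic derivative of the quotient. -/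
theorem deriv_quot {n m : ℕ} {b k : Fin n → ℝ} {ρ : Fin m → ℝ} {A₀ : ℝ} (hm : m = n + 1)
    (h : Factor b k A₀ ρ) (E : ℝ⟦X⟧)
    (hE : E = 1 + C A₀ * X - X ^ 2 * ∑ i, C (k i) * geo (b i)) :
    X * d⁄dX ℝ E = -(E * (powSeries ρ - powSeries b)) := by
  have hp : (∏ i, (1 - Polynomial.C (ρ i) * Polynomial.X) : Polynomial ℝ)
      = (∏ i, (1 - Polynomial.C (b i) * Polynomial.X))
          * (1 + Polynomial.C A₀ * Polynomial.X)
        - Polynomial.X ^ 2 * ∑ i, Polynomial.C (k i)
          * ∏ j ∈ univ.erase i, (1 - Polynomial.C (b j) * Polynomial.X) := by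
    refine Polynomial.funext (fun s => ?_)
    simp only [Polynomial.eval_finsetSum, Polynomial.eval_mul, Polynomial.eval_C,
      Polynomial.eval_prod, Polynomial.eval_sub, Polynomial.eval_add, Polynomial.eval_one,
      Polynomial.eval_X, Polynomial.eval_pow]
    rcases eq_or_ne s 0 with rfl | hs
    · simp
    have key : ∀ (c : ℝ), 1 - c * s = s * (s⁻¹ - c) := fun c => by
      rw [mul_sub, mul_inv_cancel₀ hs, mul_comm c]
    simp only [key, Finset.prod_mul_distrib, Finset.prod_const, card_univ, Fintype.card_fin, h s⁻¹]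
    rw [hm]
    have hsum : ∀ i : Fin n, s ^ 2 * (k i * (s ^ (univ.erase i).card
        * ∏ j ∈ univ.erase i, (s⁻¹ - b j)))
        = s ^ (n + 1) * (k i * ∏ j ∈ univ.erase i, (s⁻¹ - b j)) := fun i => by
      rw [card_erase_of_mem (mem_univ i), card_univ, Fintype.card_fin,
        show n + 1 = 2 + (n - 1) by have := i.pos; omega, pow_add]
      ring
    rw [mul_sub, mul_sum, mul_sum, sum_congr rfl fun i _ => hsum i]
    congr 1
    field_simp
    ring
  have h2 := congrArg (Polynomial.coeToPowerSeries.ringHom (R := ℝ)) hp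
  simp only [map_sum, map_mul, map_sub, map_add, map_one, map_pow,
    Polynomial.coeToPowerSeries.ringHom_apply, Polynomial.coe_C, Polynomial.coe_X,
    coe_linPoly] at h2
  have h3 : linProd ρ = linProd b * E := by
    rw [hE, mul_sub, linProd, h2]
    congr 1
    simp only [← linProd_geo, linProd, mul_sum]
    exact sum_congr rfl fun i _ => by ring
  have d1 := deriv_linProd ρ univ
  have d2 := deriv_linProd b univ
  rw [show (∏ i, (1 - C (ρ i) * X)) = linProd ρ from rfl, h3, Derivation.leibniz,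
    smul_eq_mul, smul_eq_mul] at d1
  rw [show (∏ i, (1 - C (b i) * X)) = linProd b from rfl] at d2
  refine mul_left_cancel₀ (linProd_ne_zero b) ?_
  linear_combination (norm := (simp only [powSeries]; ring)) d1 - E * d2

open PowerSeries in
/-- The power sums up to `N` determine the residue moments up to `N - 2`. -/
theorem moments_of_powerSums {n m n' m' : ℕ} {b k : Fin n → ℝ} {ρ : Fin m → ℝ} {A₀ : ℝ}
    {b' k' : Fin n' → ℝ} {ρ' : Fin m' → ℝ}
    (hm : m = n + 1) (hm' : m' = n' + 1)
    (h : Factor b k A₀ ρ) (h' : Factor b' k' A₀ ρ') (N : ℕ)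
    (hps : ∀ j, 1 ≤ j → j ≤ N →
      ∑ i, ρ i ^ j - ∑ i, b i ^ j = ∑ i, ρ' i ^ j - ∑ i, b' i ^ j) :
    ∀ j, j + 2 ≤ N → ∑ i, k i * b i ^ j = ∑ i, k' i * b' i ^ j := by
  set E := 1 + C A₀ * X - X ^ 2 * ∑ i, C (k i) * geo (b i) with hE
  set E' := 1 + C A₀ * X - X ^ 2 * ∑ i, C (k' i) * geo (b' i) with hE'
  have e1 := deriv_quot hm h E hE
  have e2 := deriv_quot hm' h' E' hE'
  have hD : ∀ j, j ≤ N → coeff j (powSeries ρ - powSeries b)
      = coeff j (powSeries ρ' - powSeries b') := by
    intro j hj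
    rcases j with _ | j
    · simp only [map_sub, coeff_powSeries_zero]
    · simp only [map_sub, coeff_powSeries]
      exact hps (j + 1) (by omega) hj
  have hc : ∀ j, j ≤ N → coeff j E = coeff j E' := by
    intro j
    induction j using Nat.strong_induction_on with
    | h j ih =>
      intro hj
      rcases j with _ | j
      · simp [hE, hE', PowerSeries.coeff_zero_eq_constantCoeff]
      · have h1 := congrArg (coeff (j + 1)) e1
        have h2 := congrArg (coeff (j + 1)) e2
        rw [coeff_succ_X_mul, coeff_derivative, map_neg, coeff_mul] at h1 h2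
        have h3 : coeff (j + 1) E * ((j : ℝ) + 1) = coeff (j + 1) E' * ((j : ℝ) + 1) := by
          rw [h1, h2]
          congr 1
          refine sum_congr rfl fun a ha => ?_
          have ha' := Finset.HasAntidiagonal.mem_antidiagonal.1 ha
          rcases eq_or_ne a.2 0 with h0 | h0
          · rw [h0, hD 0 (Nat.zero_le _)]
            simp only [map_sub, coeff_powSeries_zero, sub_self, mul_zero]
          · rw [ih a.1 (by omega) (by omega), hD a.2 (by omega)]
        exact mul_right_cancel₀ (by positivity) h3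
  intro j hj
  have h4 := hc (j + 2) hj
  simp only [hE, hE', map_sub, map_add, coeff_one, coeff_succ_mul_X, coeff_X_pow_mul,
    map_sum, coeff_C_mul, geo, coeff_mk, coeff_C] at h4
  simpa using h4

/-- The total residue from the first two power sums. -/
theorem residue_total {n m : ℕ} {b k : Fin n → ℝ} {ρ : Fin m → ℝ} {A₀ : ℝ} (hm : m = n + 1)
    (h : Factor b k A₀ ρ) (e1 : ∑ i, ρ i ^ 1 - ∑ i, b i ^ 1 = -A₀) :
    ∑ i, k i = ((∑ i, ρ i ^ 2 - ∑ i, b i ^ 2) - A₀ ^ 2) / 2 := by
  have h2 := congrArg (PowerSeries.coeff 2) (deriv_quot hm h _ rfl)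
  rw [show (2 : ℕ) = 1 + 1 from rfl, PowerSeries.coeff_succ_X_mul, PowerSeries.coeff_derivative,
    map_neg, PowerSeries.coeff_mul] at h2
  simp [Finset.Nat.sum_antidiagonal_succ, coeff_powSeries, coeff_powSeries_zero,
    PowerSeries.coeff_X_pow_mul', geo, PowerSeries.coeff_succ_mul_X] at h2
  simp only [pow_one] at e1
  linear_combination (-1 / 2 : ℝ) * h2 + (A₀ / 2) * e1

end series

variable {V : Type u} [DecidableEq V] {r : ℕ}

/-- The kernel with the levels subtracted on the diagonal. -/
noncomputable def lk (x : Matrix V V ℂ) (y : V → ℝ) : Fin r → Matrix V V ℂ :=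
  fun _ => x - Matrix.diagonal fun i => (y i : ℂ)

variable [NeZero r] {x : Matrix V V ℂ} {col : V → Option (Fin r)}

lemma lsum (col : V → Option (Fin r)) (v : V) : ∑ c, law col v c = 1 := by
  unfold law
  split
  · simp [NeZero.ne r]
  · simp

lemma lnn (col : V → Option (Fin r)) (v : V) (c : Fin r) : 0 ≤ law col v c := by
  unfold law
  split
  · positivity
  · split_ifs <;> norm_num

/-- The mixed determinant of `G` at `y + w`. -/
noncomputable def Ev (x : Matrix V V ℂ) (col : V → Option (Fin r)) (y : V → ℝ) (G : Finset V)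
    (w : ℂ) : ℂ :=
  mix (Mss2.sub (fun _ : Fin r => x) Subtype.val) (law fun v : {v // v ∈ G} => col v.1)
    (fun _ v => (y v.1 : ℂ) + w) univ (fun _ => ∅)

lemma P_eq_Ev (col : V → Option (Fin r)) (y : V → ℝ) (G : Finset V) (t : ℝ) :
    P x col G (fun v => y v + t) = (Ev x col y G t).re := by
  simp only [P, Ev]
  unfold realVars Mss2.sub
  simp only [Complex.ofReal_add]

lemma sub_lk (y : V → ℝ) {W : Type*} [DecidableEq W] (ι : W → V) (hι : Function.Injective ι) :
    Mss2.sub (lk (r := r) x y) ι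
      = fun c => Mss2.sub (fun _ : Fin r => x) ι c - Matrix.diagonal fun i => (y (ι i) : ℂ) := by
  funext c
  refine Matrix.ext fun i j => ?_
  simp [Mss2.sub, lk, Matrix.diagonal_apply, hι.eq_iff]

/-- Real roots in `[-(1+K), 1+K]` with power sums given by the cumulants. -/
theorem exists_rootsOn (hx : Kern x) (col : V → Option (Fin r)) (y : V → ℝ) (G : Finset V)
    {K : ℝ} (hy : ∀ u ∈ G, |y u| ≤ K) :
    ∃ ρ : Fin G.card → ℝ, (∀ w, Ev x col y G w = rootProd ρ w) ∧ (∀ i, -(1 + K) ≤ ρ i) ∧
      ∀ k, 0 < k → ∑ S ∈ G.powerset, kappa (lk x y) (law col) k S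
        = ((∑ i, ρ i ^ k : ℝ) : ℂ) := by
  set xs := Mss2.sub (lk (r := r) x y) (Subtype.val : {v // v ∈ G} → V) with hxs
  set ps := law fun v : {v // v ∈ G} => col v.1 with hps
  have hEv : ∀ w : ℂ, Ev x col y G w = mix xs ps (fun _ _ => w) univ (fun _ => ∅) := fun w => by
    rw [hxs, sub_lk y _ Subtype.val_injective, mix_diag]
    rfl
  have hne : ∀ (Pl : HalfPlane 1) (s : ℂ), (∀ v ∈ G, 0 < Pl.ht ((y v : ℂ) + s)) →
      (muPoly xs ps).eval s ≠ 0 := fun Pl s hs => by
    rw [eval_muPoly, ← hEv, Ev]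
    exact (mix_stable (fun _ => hx.bound G) Pl (lnn _) (lsum _) univ _
      (fun _ v => hs v.1 v.2) (fun _ => ∅) (fun _ => disjoint_empty_right _)).1
  have hroot : ∀ s : ℂ, (muPoly xs ps).eval s = 0 → s.im = 0 := by
    intro s hs
    rcases lt_trichotomy s.im 0 with h | h | h
    · refine absurd ?_ (hne (upper0 1) (starRingEnd ℂ s) (fun v _ => by simpa using h))
      have h1 := congrArg (starRingEnd ℂ) hs
      rw [eval_muPoly, mix_conj, map_zero] at h1
      · rw [eval_muPoly]
        exact h1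
      · intro c
        rw [hxs, sub_lk y _ Subtype.val_injective]
        refine (hx.bound G).1.sub ?_
        rw [Matrix.IsHermitian, Matrix.diagonal_conjTranspose]
        congr 1
        funext i
        simp
    · exact h
    · exact absurd hs (hne (upper0 1) s (fun v _ => by simpa using h))
  obtain ⟨ρ, hev, hsum⟩ := roots_kappa (x := xs) (p := ps) (lsum _) hroot
  have hc : Fintype.card {v // v ∈ G} = G.card := Fintype.card_coe G
  refine ⟨fun i => ρ (Fin.cast hc.symm i), fun w => ?_, fun i => ?_, fun k hk => ?_⟩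
  · rw [hEv, hev, rootProd, rootProd]
    exact (Fintype.prod_equiv (finCongr hc.symm) _ _ fun i => rfl).symm
  · by_contra hlt
    push Not at hlt
    refine hne (sidePlane (-1) (Or.inr rfl)) ((ρ (Fin.cast hc.symm i) : ℝ) : ℂ) (fun v hv => ?_) ?_
    · have := abs_le.1 (hy v hv)
      simp [sidePlane, HalfPlane.ht]
      linarith
    · rw [eval_muPoly, hev, rootProd]
      exact prod_eq_zero (mem_univ _) (sub_self _)
  · rw [Fintype.sum_equiv (finCongr hc.symm) (fun i => ρ (Fin.cast hc.symm i) ^ k)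
      (fun i => ρ i ^ k) (fun i => rfl), ← hsum k hk]
    have hmap : (univ : Finset {v // v ∈ G}).map (Function.Embedding.subtype _) = G := by
      ext a; simp
    conv_lhs => rw [← hmap]
    refine (sum_bij' (fun S _ => S.map (Function.Embedding.subtype _))
      (fun S _ => S.subtype (fun a => a ∈ G)) ?_ ?_ ?_ ?_ ?_).symm
    · intro S _
      exact mem_powerset.2 (Finset.map_subset_map.2 (subset_univ S))
    · intro S _
      exact mem_powerset.2 (subset_univ _)
    · intro S _
      ext a
      simp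
    · intro S hS
      rw [mem_powerset, hmap] at hS
      rw [subtype_map_of_mem]
      exact fun a ha => hS ha
    · intro S _
      exact (kappa_map (x := lk x y) (lsum col) (Function.Embedding.subtype _) k S).symm

/-- The factorisation at `v`, with residues. -/
theorem exists_factorOn (hx : Kern x) (col : V → Option (Fin r)) (y : V → ℝ) {G : Finset V}
    {v : V} (hv : v ∈ G) {b : Fin (G.erase v).card → ℝ}
    (hb : ∀ w, Ev x col y (G.erase v) w = rootProd b w) {ρ : Fin G.card → ℝ}
    (hρ : ∀ w, Ev x col y G w = rootProd ρ w) :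
    ∃ (b' k : Fin (G.erase v).card → ℝ), (∀ i, 0 ≤ k i) ∧ Factor b' k (y v) ρ ∧
      (∀ j : ℕ, ∑ i, b' i ^ j = ∑ i, b i ^ j) ∧ (∀ i, ∃ l, b' i = b l) ∧
      aval x col G v y = y v - (∏ i, -ρ i) / ∏ i, -b' i := by
  set xs := Mss2.sub (fun _ : Fin r => x) (Subtype.val : {v // v ∈ G} → V) with hxs
  set ps := law fun v : {v // v ∈ G} => col v.1 with hps
  obtain ⟨b₀, k, hb₀, hk0, hk⟩ := exists_pointFactor (x := xs) (fun _ => hx.bound G) (lnn _)
    (lsum (fun v : {v // v ∈ G} => col v.1)) (fun _ v => y v.1) ⟨v, hv⟩ (fun _ => hx.diag v)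
  have hc : Fintype.card {v // v ∈ G} - 1 = (G.erase v).card := by
    rw [Fintype.card_coe, card_erase_of_mem hv]
  have herase : ∀ w : ℂ, mix xs ps (fun _ u => (y u.1 : ℂ) + w) (univ.erase ⟨v, hv⟩) (fun _ => ∅)
      = Ev x col y (G.erase v) w := fun w => by
    have e1 := ecoef_eq (x := fun _ : Fin r => x - Matrix.diagonal fun i => (y i : ℂ) + w)
      (lsum col) (Function.Embedding.subtype (fun u => u ∈ G)) (univ.erase ⟨v, hv⟩)
    have e2 : (univ.erase (⟨v, hv⟩ : {u // u ∈ G})).map (Function.Embedding.subtype _)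
        = G.erase v := by
      ext a
      simp
    have hsub : ∀ {W : Type u} [DecidableEq W] (ι : W → V), Function.Injective ι →
        Mss2.sub (fun _ : Fin r => x - Matrix.diagonal fun i => (y i : ℂ) + w) ι
          = fun c => Mss2.sub (fun _ : Fin r => x) ι c - Matrix.diagonal fun i => (y (ι i) : ℂ) + w := by
      intro W _ ι hι
      funext c
      refine Matrix.ext fun i j => ?_
      simp [Mss2.sub, Matrix.diagonal_apply, hι.eq_iff]
    rw [e2, ecoef, Function.Embedding.coe_subtype, hsub _ Subtype.val_injective, mix_diag, hsub _ (Subtype.val_injective),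
      mix_diag] at e1
    simp only [Pi.zero_apply, add_zero] at e1
    exact e1.symm
  set kk : Fin (G.erase v).card → ℝ :=
    fun i => ∑ c, ps ⟨v, hv⟩ c * k c (Fin.cast hc.symm i) with hkk
  set b' : Fin (G.erase v).card → ℝ := fun i => b₀ (Fin.cast hc.symm i) with hb'
  have hb'p : ∀ w, rootProd b₀ w = rootProd b' w := fun w => by
    rw [rootProd, rootProd]
    exact (Fintype.prod_equiv (finCongr hc.symm) _ _ fun i => rfl).symm
  have hfull : ∀ w : ℂ, rootProd ρ w = rootProd b' w * ((y v : ℂ) + w)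
      - ∑ i, (kk i : ℂ) * ∏ j ∈ univ.erase i, (w - b' j) := fun w => by
    rw [← hρ, Ev, ← hxs, ← hps, mix_pointFactor (lsum _) hk w, hb'p]
    rw [← Finset.sum_mul, lsum, one_mul]
    congr 1
    refine (Fintype.sum_equiv (finCongr hc.symm) _ _ fun i => ?_).symm
    congr 1
    refine Finset.prod_bij' (fun j _ => Fin.cast hc.symm j) (fun j _ => Fin.cast hc j) ?_ ?_ ?_ ?_ ?_
    all_goals intros
    all_goals simp_all [Fin.ext_iff]
  have hroots : (univ.val.map b') = univ.val.map b := by
    have e : (∏ i, (Polynomial.X - Polynomial.C (b' i)))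
        = ∏ i, (Polynomial.X - Polynomial.C (b i)) := by
      refine Polynomial.funext fun t => ?_
      have h1 : rootProd b' (t : ℂ) = rootProd b (t : ℂ) := by
        rw [← hb'p, ← hb₀, ← hb, ← herase]
      simp only [rootProd, ← Complex.ofReal_sub, ← Complex.ofReal_prod] at h1
      simpa [Polynomial.eval_prod] using Complex.ofReal_injective h1
    have e2 : (((univ.val.map b').map fun t => Polynomial.X - Polynomial.C t).prod)
        = ((univ.val.map b).map fun t => Polynomial.X - Polynomial.C t).prod := by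
      rw [Multiset.map_map, Multiset.map_map]
      exact e
    simpa only [Polynomial.roots_multiset_prod_X_sub_C] using congrArg Polynomial.roots e2
  refine ⟨b', kk, fun i => sum_nonneg fun c _ => mul_nonneg (lnn _ _ _) (hk0 _ _), fun t => ?_,
    fun j => ?_, fun i => ?_, ?_⟩
  · have h1 := hfull (t : ℂ)
    simp only [rootProd] at h1
    exact_mod_cast h1
  · have := congrArg (fun s => (s.map (fun z : ℝ => z ^ j)).sum) hroots
    simp only [Multiset.map_map] at this
    exact this
  · have hmem : b' i ∈ univ.val.map b' := Multiset.mem_map.2 ⟨i, mem_univ_val i, rfl⟩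
    rw [hroots, Multiset.mem_map] at hmem
    obtain ⟨l, -, hl⟩ := hmem
    exact ⟨l, hl.symm⟩
  · have h0 : ∀ (H : Finset V), P x col H y = (Ev x col y H 0).re := fun H => by
      simpa using P_eq_Ev (x := x) col y H 0
    have hz : ∀ {n : ℕ} (c : Fin n → ℝ), (rootProd c 0).re = ∏ i, -c i := fun c => by
      simp [rootProd, ← Complex.ofReal_neg, ← Complex.ofReal_prod]
    rw [aval, h0, h0, hρ, hb, hz, hz]
    congr 2
    have := congrArg (fun s => (s.map (fun z : ℝ => -z)).prod) hroots
    simp only [Multiset.map_map] at this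
    exact this.symm

/-- A row of a compression of norm at most one. -/
lemma row_le (hx : Kern x) {G : Finset V} {v : V} (hv : v ∈ G) :
    ∑ u ∈ G.erase v, ‖x v u‖ ^ 2 ≤ 1 := by
  set M : Matrix {u // u ∈ G} {u // u ∈ G} ℂ := x.submatrix Subtype.val Subtype.val with hM
  obtain ⟨hH, hB⟩ := hx.bound G
  set i₀ : {u // u ∈ G} := ⟨v, hv⟩
  set a := ∑ u ∈ G.erase v, ‖x v u‖ ^ 2 with ha
  have ha0 : 0 ≤ a := sum_nonneg fun _ _ => sq_nonneg _
  set w : {u // u ∈ G} → ℂ := fun u => starRingEnd ℂ (x v u.1) with hw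
  have hw0 : w i₀ = 0 := by simp [hw, i₀, hx.diag]
  have hsum : ∑ u, Complex.normSq (w u) = a := by
    rw [ha, sum_erase (a := v) G (f := fun u => ‖x v u‖ ^ 2) (by simp [hx.diag]),
      ← sum_coe_sort G]
    exact sum_congr rfl fun u _ => by simp [hw, Complex.normSq_eq_norm_sq]
  set s := Real.sqrt a with hs
  have hvec : ∀ σ : ℝ, |σ| = 1 → |2 * σ * s * a + (star w ⬝ᵥ M *ᵥ w).re| ≤ 2 * a := by
    intro σ hσ
    have h1 := hB (w + Pi.single i₀ ((σ * s : ℝ) : ℂ))
    have hrow : (M *ᵥ w) i₀ = (a : ℂ) := by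
      rw [← hsum]
      push_cast
      simp [Matrix.mulVec, dotProduct, hM, hw, i₀, Complex.normSq_eq_conj_mul_self, mul_comm]
    have hcol : ∀ u, M u i₀ = w u := fun u => by
      simp [hM, hw, i₀, hx.herm u.1 v]
    have hdot : star w ⬝ᵥ (M *ᵥ Pi.single i₀ ((σ * s : ℝ) : ℂ)) = ((σ * s * a : ℝ) : ℂ) := by
      rw [← hsum]
      push_cast
      simp [dotProduct, Matrix.mulVec, Pi.single_apply, hcol, mul_sum,
        Complex.normSq_eq_conj_mul_self]
      exact sum_congr rfl fun u _ => by ring
    have hstar : star (Pi.single i₀ ((σ * s : ℝ) : ℂ) : {u // u ∈ G} → ℂ)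
        = Pi.single i₀ ((σ * s : ℝ) : ℂ) := by
      funext u
      by_cases hu : u = i₀
      · subst hu; simp
      · simp [Pi.single_eq_of_ne hu]
    rw [star_add, hstar, Matrix.mulVec_add, add_dotProduct, dotProduct_add, dotProduct_add, hdot,
      single_dotProduct, single_dotProduct, hrow, Matrix.mulVec_single] at h1
    simp [hx.diag] at h1
    have hn : ∑ u, Complex.normSq (w u + (Pi.single i₀ ((σ * s : ℝ) : ℂ) : _ → ℂ) u) = 2 * a := by
      have : ∀ u, Complex.normSq (w u + (Pi.single i₀ ((σ * s : ℝ) : ℂ) : _ → ℂ) u)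
          = Complex.normSq (w u) + (if u = i₀ then (σ * s) ^ 2 else 0) := fun u => by
        by_cases hu : u = i₀
        · subst hu; simp [hw0, Complex.normSq_mul]; ring
        · simp [hu]
      rw [sum_congr rfl (fun u _ => this u), sum_add_distrib, hsum, sum_ite_eq',
        if_pos (mem_univ _), mul_pow, ← sq_abs σ, hσ, hs, Real.sq_sqrt ha0]
      ring
    push_cast at hn
    rw [Finset.univ_eq_attach] at hn
    rw [hn] at h1
    refine le_of_eq_of_le ?_ h1
    congr 1
    ring
  have h1 := abs_le.1 (hvec 1 abs_one)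
  have h2 := abs_le.1 (hvec (-1) (by simp))
  have h3 : s * a ≤ a := by linarith [h1.2, h2.1]
  by_contra hlt
  push Not at hlt
  have h4 : 1 < s := by rw [hs, Real.lt_sqrt zero_le_one]; simpa using hlt
  nlinarith

/-- The total residue is at most one. -/
theorem residue_le (hx : Kern x) (col : V → Option (Fin r)) (y : V → ℝ) {G : Finset V}
    {v : V} (hv : v ∈ G) {b k : Fin (G.erase v).card → ℝ} {ρ : Fin G.card → ℝ}
    (h : Factor b k (y v) ρ)
    (h1 : ∀ j, 0 < j → ∑ S ∈ G.powerset, kappa (lk x y) (law col) j S = ((∑ i, ρ i ^ j : ℝ) : ℂ))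
    (h2 : ∀ j, 0 < j →
      ∑ S ∈ (G.erase v).powerset, kappa (lk x y) (law col) j S = ((∑ i, b i ^ j : ℝ) : ℂ)) :
    ∑ i, k i ≤ 1 := by
  set X := lk (r := r) x y with hX
  have hl := lsum (r := r) col
  set a := fun (j : ℕ) (H : Finset V) => ∑ S ∈ H.powerset, acoef X (law col) j S with ha
  have hk0 : ∀ H : Finset V, ∑ S ∈ H.powerset, kappa X (law col) 0 S = 0 := fun H =>
    sum_eq_zero fun S _ => kappa_zero X _ S
  have ha0 : ∀ H : Finset V, a 0 H = 1 := fun H => by simp [ha, acoef_zero_eq hl]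
  have id1 : ∀ H : Finset V, ∑ S ∈ H.powerset, kappa X (law col) 1 S = -a 1 H := fun H => by
    have := sum_kappa_identity (x := X) hl H 1
    simp only [sum_range_succ, sum_range_zero, zero_add, hk0, zero_mul, Nat.sub_self,
      Nat.cast_one] at this
    rw [show ∑ S ∈ H.powerset, acoef X (law col) 0 S = 1 from ha0 H, mul_one] at this
    rw [this]; ring
  have id2 : ∀ H : Finset V,
      ∑ S ∈ H.powerset, kappa X (law col) 2 S = -2 * a 2 H + a 1 H ^ 2 := fun H => by
    have := sum_kappa_identity (x := X) hl H 2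
    simp only [sum_range_succ, sum_range_zero, zero_add, hk0, zero_mul, Nat.sub_self] at this
    rw [show ∑ S ∈ H.powerset, acoef X (law col) 0 S = 1 from ha0 H, mul_one, id1] at this
    simp only [ha] at this ⊢
    push_cast at this
    linear_combination this
  have hXd : ∀ c u, X c u u = -(y u : ℂ) := fun c u => by simp [hX, lk, hx.diag]
  have he1 : ∀ u, ecoef X (law col) {u} = (y u : ℂ) := fun u => by
    rw [ecoef_single hl]
    simp [hXd, ← sum_neg_distrib, ← sum_mul, ← Complex.ofReal_sum, hl]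
  have he2 : ∀ u, v ≠ u → ecoef X (law col) {v, u}
      = (y v : ℂ) * y u - ((‖x v u‖ ^ 2 * ∑ c, law col v c * law col u c : ℝ) : ℂ) := by
    intro u hu
    rw [ecoef_pair hl hu]
    simp only [hXd, ← sum_mul, ← Complex.ofReal_sum, hl]
    have hxx : ∀ c, X c v u * X c u v = ((‖x v u‖ ^ 2 : ℝ) : ℂ) := fun c => by
      simp only [hX, lk, Matrix.sub_apply, Matrix.diagonal_apply_ne _ hu,
        Matrix.diagonal_apply_ne _ hu.symm, sub_zero]
      rw [← hx.herm u v, Complex.mul_conj, Complex.normSq_eq_norm_sq]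
    simp only [hxx, ← sum_mul]
    push_cast
    ring
  have hv' : v ∉ G.erase v := notMem_erase v G
  have hsplit : ∀ j, a j G = a j (G.erase v)
      + ∑ S ∈ (G.erase v).powerset, acoef X (law col) j (insert v S) := fun j => by
    simp only [ha]
    conv_lhs => rw [← insert_erase hv]
    rw [sum_powerset_insert hv']
  have hA1 : a 1 G = a 1 (G.erase v) + (y v : ℂ) := by
    rw [hsplit, sum_eq_single ∅]
    · simp [acoef, he1]
    · intro S hS hne
      rw [acoef, if_neg]
      rw [card_insert_of_notMem (fun hm => hv' (mem_powerset.1 hS hm))]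
      have := card_pos.2 (nonempty_iff_ne_empty.2 hne)
      omega
    · simp
  have hA1' : a 1 (G.erase v) = ((∑ u ∈ G.erase v, y u : ℝ) : ℂ) := by
    simp only [ha]
    rw [← sum_subset (s₁ := (G.erase v).powersetCard 1)
      (fun S hS => mem_powerset.2 (mem_powersetCard.1 hS).1) (fun S hS hn => by
        rw [acoef, if_neg (fun hc => hn (mem_powersetCard.2 ⟨mem_powerset.1 hS, hc⟩))]),
      powersetCard_one, sum_map]
    simp [acoef, he1]
  have hA2 : a 2 G = a 2 (G.erase v) + ((∑ u ∈ G.erase v,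
      (y v * y u - ‖x v u‖ ^ 2 * ∑ c, law col v c * law col u c) : ℝ) : ℂ) := by
    rw [hsplit]
    congr 1
    rw [← sum_subset (s₁ := (G.erase v).powersetCard 1)
      (fun S hS => mem_powerset.2 (mem_powersetCard.1 hS).1) (fun S hS hn => by
        rw [acoef, if_neg (fun hc => hn (mem_powersetCard.2 ⟨mem_powerset.1 hS, by
          rw [card_insert_of_notMem (fun hm => hv' (mem_powerset.1 hS hm))] at hc; omega⟩))]),
      powersetCard_one, sum_map, Complex.ofReal_sum]
    refine sum_congr rfl fun u hu => ?_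
    have hne : v ≠ u := (ne_of_mem_erase hu).symm
    simp only [Function.Embedding.coeFn_mk, acoef]
    rw [if_pos (card_pair hne), he2 u hne]
    push_cast
    ring
  have d1 := congrArg₂ (fun a b : ℂ => a - b) (h1 1 one_pos) (h2 1 one_pos)
  have d2 := congrArg₂ (fun a b : ℂ => a - b) (h1 2 two_pos) (h2 2 two_pos)
  simp only [id1, hA1] at d1
  simp only [id2, hA2, hA1, hA1'] at d2
  have e1 : ∑ i, ρ i ^ 1 - ∑ i, b i ^ 1 = -y v := by
    apply Complex.ofReal_injective
    push_cast at d1 ⊢
    linear_combination -d1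
  have e2 : ∑ i, ρ i ^ 2 - ∑ i, b i ^ 2 = y v ^ 2
      + 2 * ∑ u ∈ G.erase v, ‖x v u‖ ^ 2 * ∑ c, law col v c * law col u c := by
    apply Complex.ofReal_injective
    simp only [sum_sub_distrib, ← mul_sum] at d2
    push_cast at d2 ⊢
    linear_combination -d2
  have hfac : ∑ i, k i = ((∑ i, ρ i ^ 2 - ∑ i, b i ^ 2) - y v ^ 2) / 2 := by
    have hcard : G.card = (G.erase v).card + 1 := (card_erase_add_one hv).symm
    exact residue_total hcard h e1
  rw [hfac, e2, add_sub_cancel_left, mul_div_cancel_left₀ _ (two_ne_zero' ℝ)]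
  refine le_trans (sum_le_sum fun u _ => mul_le_of_le_one_right (sq_nonneg _) ?_) (row_le hx hv)
  calc ∑ c, law col v c * law col u c ≤ ∑ c, law col v c * 1 :=
        sum_le_sum fun c _ => mul_le_mul_of_nonneg_left ((single_le_sum (fun d _ => lnn col u d)
          (mem_univ c)).trans (lsum col u).le) (lnn col v c)
    _ = 1 := by simp [lsum]

/-- A valid set may be replaced by a ball, up to an exponentially small error. -/
theorem tail_of_validMono (hVM : ValidMonoGoal.{u}) : TailGoal.{u} := by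
  intro V _ r _ x nb col F v y η K N hx hband hv hK hη hηK hy hval
  set B := nball nb N v with hB
  have hbd : Banded (lk (r := r) x y) nb := by
    refine ⟨hband.refl, hband.symm, fun c a b hne => ?_⟩
    by_cases hab : a = b
    · exact hab ▸ hband.refl a
    · simp only [lk, Matrix.sub_apply, Matrix.diagonal_apply_ne _ hab, sub_zero] at hne
      exact hband.supp 0 a b hne
  have hvB : v ∈ F ∩ B := mem_inter.2 ⟨hv, mem_nball_self hbd N v⟩
  have key : ∀ G ⊆ F, v ∈ G → ∃ (b k : Fin (G.erase v).card → ℝ) (ρ : Fin G.card → ℝ),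
      (∀ i, 0 ≤ k i) ∧ Factor b k (y v) ρ ∧ (∀ i, -(1 + K) ≤ b i ∧ b i < -η) ∧
      (∀ j, 0 < j → ∑ S ∈ G.powerset, kappa (lk x y) (law col) j S = ((∑ i, ρ i ^ j : ℝ) : ℂ)) ∧
      (∀ j, 0 < j →
        ∑ S ∈ (G.erase v).powerset, kappa (lk x y) (law col) j S = ((∑ i, b i ^ j : ℝ) : ℂ)) ∧
      aval x col G v y = ∑ i, k i / -b i := by
    intro G hG hvG
    obtain ⟨ρ, hρ, -, hρs⟩ := exists_rootsOn hx col y G (fun u hu => hy u (hG hu))
    obtain ⟨b₁, hb₁, hb₁lo, hb₁s⟩ :=
      exists_rootsOn hx col y (G.erase v) (fun u hu => hy u (hG (mem_of_mem_erase hu)))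
    obtain ⟨b, k, hk, hfac, hpow, hmem, hav⟩ := exists_factorOn hx col y hvG hb₁ hρ
    have hup : ∀ i, b₁ i < -η := fun i => by
      by_contra hle
      push Not at hle
      have h0 := hVM x col (G.erase v) (F.erase v) _ (fun u => y u + b₁ i) hx hval
        (erase_subset_erase v hG) (fun u _ => by linarith) (G.erase v) subset_rfl
      rw [P_eq_Ev, hb₁, rootProd, prod_eq_zero (mem_univ i) (sub_self _)] at h0
      simp at h0
    have hbb : ∀ i, -(1 + K) ≤ b i ∧ b i < -η := fun i => by
      obtain ⟨l, hl⟩ := hmem i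
      exact hl ▸ ⟨hb₁lo l, hup l⟩
    have hneg : ∀ i, b i < 0 := fun i => (hbb i).2.trans (neg_lt_zero.2 hη)
    refine ⟨b, k, ρ, hk, hfac, hbb, hρs, fun j hj => by rw [hb₁s j hj, hpow j], ?_⟩
    rw [hav, hfac.at_zero hneg, mul_div_cancel_left₀ _
      (prod_pos fun i _ => neg_pos.2 (hneg i)).ne', level, sub_sub_cancel]
    simp [div_eq_mul_inv]
  obtain ⟨b, k, ρ, hk, hfac, hb, hs1, hs2, hav⟩ := key F subset_rfl hv
  obtain ⟨b', k', ρ', hk', hfac', hb', hs1', hs2', hav'⟩ := key (F ∩ B) inter_subset_left hvB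
  have hm := residue_le hx col y hv hfac hs1 hs2
  have hm' := residue_le hx col y hvB hfac' hs1' hs2'
  rw [hav, hav']
  have hθ0 : 0 ≤ Real.sqrt (η / (16 * K)) := Real.sqrt_nonneg _
  have hθ1 : Real.sqrt (η / (16 * K)) ≤ 1 / 4 := by
    rw [Real.sqrt_le_iff]
    refine ⟨by norm_num, ?_⟩
    rw [div_le_iff₀ (by positivity)]
    linarith
  rcases le_or_gt N 1 with hN | hN
  · have h0 : 0 ≤ ∑ i, k' i / -b' i :=
      sum_nonneg fun i _ => div_nonneg (hk' i) (by linarith [(hb' i).2])
    have hle : ∑ i, k i / -b i ≤ 1 / η := by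
      calc ∑ i, k i / -b i ≤ ∑ i, k i / η := sum_le_sum fun i _ =>
            div_le_div_of_nonneg_left (hk i) hη (by linarith [(hb i).2])
        _ = (∑ i, k i) / η := (sum_div _ _ _).symm
        _ ≤ 1 / η := div_le_div_of_nonneg_right hm hη.le
    have hex : 1 / 16 ≤ Real.exp (-((N : ℝ) * Real.sqrt (η / (16 * K)))) := by
      have h1 : (N : ℝ) ≤ 1 := by exact_mod_cast hN
      have := Real.add_one_le_exp (-((N : ℝ) * Real.sqrt (η / (16 * K))))
      nlinarith
    have : 1 / η ≤ tailErr η K N := by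
      rw [tailErr]
      refine le_trans (le_of_eq ?_) (mul_le_mul_of_nonneg_left hex (by positivity))
      field_simp
    linarith
  have hps : ∀ j, 1 ≤ j → j ≤ N →
      ∑ i, ρ i ^ j - ∑ i, b i ^ j = ∑ i, ρ' i ^ j - ∑ i, b' i ^ j := by
    intro j h1 hj
    apply Complex.ofReal_injective
    rw [Complex.ofReal_sub, Complex.ofReal_sub, ← hs1 j h1, ← hs2 j h1, ← hs1' j h1, ← hs2' j h1]
    have split : ∀ G : Finset V, v ∈ G →
        ∑ S ∈ G.powerset, kappa (lk (r := r) x y) (law col) j S
          - ∑ S ∈ (G.erase v).powerset, kappa (lk (r := r) x y) (law col) j S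
        = ∑ S ∈ (G.erase v).powerset, kappa (lk (r := r) x y) (law col) j (insert v S) := by
      intro G hG
      conv_lhs => arg 1; rw [← insert_erase hG]
      rw [sum_powerset_insert (notMem_erase v G), add_sub_cancel_left]
    rw [split F hv, split (F ∩ B) hvB]
    refine (sum_subset (powerset_mono.2 (erase_subset_erase v inter_subset_left)) fun S hS hn => ?_).symm
    by_contra hne
    refine hn (mem_powerset.2 fun a ha => ?_)
    have haB := nball_mono hbd hj v
      (kappa_support (lsum col) hbd hne (mem_insert_self v S) (mem_insert_of_mem ha))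
    have := mem_powerset.1 hS ha
    exact mem_erase.2 ⟨ne_of_mem_erase this, mem_inter.2 ⟨mem_of_mem_erase this, haB⟩⟩
  have hmom := moments_of_powerSums (card_erase_add_one hv).symm (card_erase_add_one hvB).symm
    hfac hfac' N hps
  have hKb : ∀ t : ℝ, -(1 + K) ≤ t → -(4 * K) ≤ t := fun t ht => by linarith
  have happ := inv_sum_sub_le (N - 1) (a := -(4 * K)) (b := -η) (by linarith) (neg_lt_zero.2 hη)
    (by linarith) univ univ k b k' b' (fun i _ => hk i) (fun i _ => hk' i)
    (fun i _ => Or.inr ⟨hKb _ (hb i).1, (hb i).2.le⟩)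
    (fun i _ => Or.inr ⟨hKb _ (hb' i).1, (hb' i).2.le⟩) (fun j hj => hmom j (by omega))
  have herr : 2 / -(-η) * Real.exp (-(((N - 1 : ℕ) : ℝ)
      * Real.sqrt (-(2 * -η) / (-η - -(4 * K))))) * (∑ i, k i + ∑ i, k' i) ≤ tailErr η K N := by
    have h2 : (∑ i, k i + ∑ i, k' i) ≤ 2 := by linarith
    have h3 : 2 * Real.sqrt (η / (16 * K)) ≤ Real.sqrt (-(2 * -η) / (-η - -(4 * K))) := by
      rw [show (2 : ℝ) * Real.sqrt (η / (16 * K)) = Real.sqrt (4 * (η / (16 * K))) by
        rw [Real.sqrt_mul (by norm_num : (0 : ℝ) ≤ 4),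
          show Real.sqrt 4 = 2 by rw [show (4 : ℝ) = 2 ^ 2 by norm_num, Real.sqrt_sq two_pos.le]]]
      refine Real.sqrt_le_sqrt ?_
      rw [← mul_div_assoc, div_le_div_iff₀ (by positivity) (by linarith)]
      nlinarith
    have hN' : (N : ℝ) ≤ 2 * ((N - 1 : ℕ) : ℝ) := by exact_mod_cast (by omega : N ≤ 2 * (N - 1))
    have h4 : (N : ℝ) * Real.sqrt (η / (16 * K))
        ≤ ((N - 1 : ℕ) : ℝ) * Real.sqrt (-(2 * -η) / (-η - -(4 * K))) :=
      calc (N : ℝ) * Real.sqrt (η / (16 * K))
          ≤ 2 * ((N - 1 : ℕ) : ℝ) * Real.sqrt (η / (16 * K)) :=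
            mul_le_mul_of_nonneg_right hN' hθ0
        _ = ((N - 1 : ℕ) : ℝ) * (2 * Real.sqrt (η / (16 * K))) := by ring
        _ ≤ _ := mul_le_mul_of_nonneg_left h3 (Nat.cast_nonneg _)
    rw [neg_neg, tailErr]
    calc 2 / η * Real.exp (-(((N - 1 : ℕ) : ℝ)
          * Real.sqrt (-(2 * -η) / (-η - -(4 * K))))) * (∑ i, k i + ∑ i, k' i)
        ≤ 2 / η * Real.exp (-((N : ℝ) * Real.sqrt (η / (16 * K)))) * 2 := by
          gcongr
          exact add_nonneg (sum_nonneg fun i _ => hk i) (sum_nonneg fun i _ => hk' i)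
      _ ≤ 16 / η * Real.exp (-((N : ℝ) * Real.sqrt (η / (16 * K)))) := by
          rw [show 2 / η * Real.exp (-((N : ℝ) * Real.sqrt (η / (16 * K)))) * 2
            = 4 / η * Real.exp (-((N : ℝ) * Real.sqrt (η / (16 * K)))) by ring]
          gcongr
          norm_num
  linarith [(abs_le.1 happ).2]

theorem tail : TailGoal.{u} :=
  tail_of_validMono validMono

end Vale.Agent.P078.TypeIII.Reg
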