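import Vale.Agent.P078.TypeIII.Reg.Basic
import Vale.Agent.P078.TypeIII.Reg.Line

/-!
# Updates of one vertex

The barrier value of `v` in `F` exceeds that in `F - w` by a cross term, which is free of the
variable of `w` and linear in the colour law of `w`.
-/

namespace Vale.Agent.P078.TypeIII.Reg

open Vale.Agent.P078.Mss (minorMat)
open Vale.Agent.P078.Mss2
open Finset Matrix Filter Topology

universe u

namespace Update

variable {V : Type u} [DecidableEq V] {r : ℕ} [NeZero r]
variable {x : Matrix V V ℂ} {col : V → Option (Fin r)} {F : Finset V} {v w : V} {y : V → ℝ}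

/-- The cross term of `v` and `w`. -/
noncomputable def cross (x : Matrix V V ℂ) (col : V → Option (Fin r)) (F : Finset V) (v w : V)
    (y : V → ℝ) : ℝ :=
  P x col (F.erase w) y * P x col (F.erase v) y - P x col F y * P x col ((F.erase v).erase w) y

omit [NeZero r] in
lemma valid_subset {G : Finset V} (h : Valid x col G y) (hFG : F ⊆ G) : Valid x col F y :=
  fun H hH => h H (hH.trans hFG)

omit [NeZero r] in
lemma gap_eq (H : Finset V) : y w - aval x col H w y = P x col H y / P x col (H.erase w) y := by
  unfold aval; ring

variable (hC : PCongrGoal.{u}) (hA : PAffineGoal.{u})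

include hC in
omit [NeZero r] in
lemma p_upd_var {G : Finset V} (hw : w ∉ G) (t : ℝ) :
    P x col G (Function.update y w t) = P x col G y :=
  hC x col col G _ _ (fun _ _ => rfl)
    (fun _ hu => Function.update_of_ne (ne_of_mem_of_not_mem hu hw) t y)

include hC in
omit [NeZero r] in
lemma p_upd_col {G : Finset V} (hw : w ∉ G) (c : Option (Fin r)) :
    P x (Function.update col w c) G y = P x col G y :=
  hC x _ col G y y (fun _ hu => Function.update_of_ne (ne_of_mem_of_not_mem hu hw) c col)
    (fun _ _ => rfl)

include hA in
lemma p_shift (hk : Kern x) {H : Finset V} (hw : w ∈ H) (t : ℝ) :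
    P x col H (Function.update y w t) = P x col H y + (t - y w) * P x col (H.erase w) y := by
  have h1 := hA x col H w y t hk hw
  have h2 := hA x col H w y (y w) hk hw
  rw [Function.update_eq_self] at h2
  linarith

include hC hA in
lemma cross_upd (hk : Kern x) (hw : w ∈ F) (hwv : w ≠ v) (t : ℝ) :
    cross x col F v w (Function.update y w t) = cross x col F v w y := by
  unfold cross
  rw [p_upd_var hC (notMem_erase w F), p_upd_var hC (notMem_erase w (F.erase v)),
    p_shift hA hk hw, p_shift hA hk (mem_erase.2 ⟨hwv, hw⟩)]
  ring

include hC hA in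
lemma aval_upd (hk : Kern x) {H : Finset V} (hw : w ∈ H) (hB : P x col (H.erase w) y ≠ 0)
    (t : ℝ) : aval x col H w (Function.update y w t) = aval x col H w y := by
  unfold aval
  rw [p_upd_var hC (notMem_erase w H), p_shift hA hk hw, Function.update_self]
  field_simp
  ring

omit [NeZero r] in
lemma aval_diff (hA0 : P x col (F.erase v) y ≠ 0) (hB : P x col ((F.erase v).erase w) y ≠ 0) :
    aval x col F v y - aval x col (F.erase w) v y
      = cross x col F v w y / (P x col (F.erase v) y * P x col ((F.erase v).erase w) y) := by
  unfold aval cross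
  rw [erase_right_comm (a := w) (b := v)]
  field_simp
  ring

variable (hM : AvalMonoGoal.{u}) (hS : ValidStepGoal.{u})

include hC hA hM hS in
lemma cross_nonneg (hk : Kern x) (hv : v ∈ F) (hw : w ∈ F) (hwv : w ≠ v)
    (hval : Valid x col ((F.erase v).erase w) y) : 0 ≤ cross x col F v w y := by
  have hw' : w ∈ F.erase v := mem_erase.2 ⟨hwv, hw⟩
  have hv' : v ∈ F.erase w := mem_erase.2 ⟨hwv.symm, hv⟩
  have hB0 : 0 < P x col ((F.erase v).erase w) y := hval _ Subset.rfl
  set y' := Function.update y w (aval x col (F.erase v) w y + 1) with hy'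
  have hval' : Valid x col (F.erase v) y' := by
    refine (hS x col (F.erase v) w y' hk hw').2 ⟨fun G hG => ?_, ?_⟩
    · rw [hy', p_upd_var hC (fun h => notMem_erase w _ (hG h))]; exact hval G hG
    · rw [hy', aval_upd hC hA hk hw' hB0.ne', Function.update_self]; linarith
  have hA' : 0 < P x col (F.erase v) y' := hval' _ Subset.rfl
  have hB' : 0 < P x col ((F.erase v).erase w) y' := hval' _ (erase_subset _ _)
  have hm := (hM x col (F.erase w) F v y' y' hk hv' (erase_subset _ _) hval' (fun _ _ => le_rfl)).2
  have h := aval_diff (x := x) (col := col) (F := F) (v := v) (w := w) (y := y') hA'.ne' hB'.ne'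
  rw [← cross_upd hC hA hk hw hwv (y := y) (aval x col (F.erase v) w y + 1), ← hy']
  have h' := sub_nonneg.2 hm
  rw [h] at h'
  rcases div_nonneg_iff.1 h' with h1 | h1
  · exact h1.1
  · linarith [h1.2, mul_pos hA' hB']

include hC hA hM hS in
/-- Lowering the variable of `w` by `δ` raises the barrier value of `v` by at least `δ / Y` times
the loss by removing `w`. -/
lemma drop_one (hk : Kern x) (hv : v ∈ F) (hw : w ∈ F) (hwv : w ≠ v) {δ Y : ℝ} (hδ : 0 ≤ δ)
    (hY : y w ≤ Y) (hval : Valid x col (F.erase v) y)
    (hval' : Valid x col (F.erase v) (Function.update y w (y w - δ))) :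
    δ * (aval x col F v y - aval x col (F.erase w) v y)
      ≤ Y * (aval x col F v (Function.update y w (y w - δ)) - aval x col F v y) := by
  have hw' : w ∈ F.erase v := mem_erase.2 ⟨hwv, hw⟩
  have hB : 0 < P x col ((F.erase v).erase w) y := hval _ (erase_subset _ _)
  have hA0 : 0 < P x col (F.erase v) y := hval _ Subset.rfl
  set y' := Function.update y w (y w - δ) with hy'
  have eB : P x col ((F.erase v).erase w) y' = P x col ((F.erase v).erase w) y :=
    p_upd_var hC (notMem_erase _ _) _
  have eA : P x col (F.erase v) y'
      = P x col (F.erase v) y - δ * P x col ((F.erase v).erase w) y := by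
    rw [hy', p_shift hA hk hw']; ring
  have hA' : 0 < P x col (F.erase v) y' := hval' _ Subset.rfl
  have hK : cross x col F v w y' = cross x col F v w y := cross_upd hC hA hk hw hwv _
  have hK0 := cross_nonneg hC hA hM hS hk hv hw hwv (valid_subset hval (erase_subset _ _))
  have eF : aval x col (F.erase w) v y' = aval x col (F.erase w) v y := by
    unfold aval
    rw [hy', Function.update_of_ne hwv.symm, p_upd_var hC (notMem_erase _ _),
      p_upd_var hC (fun h => notMem_erase w F (mem_of_mem_erase h))]
  have d := aval_diff (x := x) (col := col) (F := F) (v := v) (w := w) hA0.ne' hB.ne'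
  have d' := aval_diff (x := x) (col := col) (F := F) (v := v) (w := w) (y := y') hA'.ne'
    (eB ▸ hB.ne')
  rw [hK, eB, eF] at d'
  have hgap := gap_eq (x := x) (col := col) (y := y') (w := w) (F.erase v)
  rw [eB, hy', Function.update_self, ← hy'] at hgap
  have ha : 0 ≤ aval x col (F.erase v) w y' :=
    (hM x col (F.erase v) (F.erase v) w y' y' hk hw' Subset.rfl
      (valid_subset hval' (erase_subset _ _)) (fun _ _ => le_rfl)).1
  have hle : P x col (F.erase v) y' ≤ Y * P x col ((F.erase v).erase w) y := by
    rw [← div_le_iff₀ hB, ← hgap]; linarith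
  set A := P x col (F.erase v) y
  set A' := P x col (F.erase v) y'
  set B := P x col ((F.erase v).erase w) y
  set K := cross x col F v w y
  have e : aval x col F v y' - aval x col F v y = δ * K / (A * A') := by
    have : aval x col F v y' - aval x col F v y = K / (A' * B) - K / (A * B) := by linarith
    rw [this]
    field_simp
    rw [eA]; ring
  rw [e, d, mul_div_assoc' δ, mul_div_assoc' Y, div_le_div_iff₀ (mul_pos hA0 hB) (mul_pos hA0 hA')]
  calc δ * K * (A * A') ≤ δ * K * (A * (Y * B)) := by gcongr
    _ = Y * (δ * K) * (A * B) := by ring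

end Update

open Update

/-- Processing `w` does not increase the barrier value of `v` on average. -/
theorem stepAvg_of (hC : PCongrGoal.{u}) (hA : PAffineGoal.{u}) (hP : PAvgGoal.{u})
    (hM : AvalMonoGoal.{u}) (hS : ValidStepGoal.{u}) : StepAvgGoal.{u} := by
  intro V _ r _ x col F v w y s q hk hv hw hwv hcol hval hq hq2 _ hlev
  have hw' : w ∈ F.erase v := mem_erase.2 ⟨hwv, hw⟩
  have hA0 : 0 < P x col (F.erase v) y := hval _ (erase_subset _ _)
  have hB : 0 < P x col ((F.erase v).erase w) y :=
    hval _ ((erase_subset _ _).trans (erase_subset _ _))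
  set A := P x col (F.erase v) y with hAdef
  set B := P x col ((F.erase v).erase w) y with hBdef
  set a := aval x col (F.erase w) v y
  set K : Fin r → ℝ := fun c => cross x (Function.update col w (some c)) F v w y with hKdef
  have hK0 : ∀ c, 0 ≤ K c := fun c =>
    cross_nonneg hC hA hM hS hk hv hw hwv (fun G hG => by
      rw [p_upd_col hC (fun h => notMem_erase w _ (hG h))]
      exact valid_subset hval ((erase_subset _ _).trans (erase_subset _ _)) G hG)
  have hKsum : ∑ c, K c = r * cross x col F v w y := by
    simp only [hKdef, cross, sum_sub_distrib, p_upd_col hC (notMem_erase w F),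
      p_upd_col hC (notMem_erase w (F.erase v)), ← mul_sum, ← sum_mul,
      (hP x col F w y hk hw hcol).1, (hP x col (F.erase v) w y hk hw' hcol).1]
    ring
  have key : ∀ c, q c * (aval x (Function.update col w (some c)) F v
      (Function.update y w (y w + s)) - a) ≤ 1 / r * (K c / (A * B)) := by
    intro c
    have hr : (0 : ℝ) ≤ 1 / r := by positivity
    have hKc := hK0 c
    rcases eq_or_ne (q c) 0 with h0 | h0
    · rw [h0, zero_mul]
      exact mul_nonneg hr (div_nonneg hKc (mul_pos hA0 hB).le)
    set col' := Function.update col w (some c) with hcol'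
    set y' := Function.update y w (y w + s) with hy'
    have eB : P x col' ((F.erase v).erase w) y' = B := by
      rw [hy', p_upd_var hC (notMem_erase _ _), hcol', p_upd_col hC (notMem_erase _ _)]
    have eB0 : P x col' ((F.erase v).erase w) y = B := by
      rw [hcol', p_upd_col hC (notMem_erase _ _)]
    have ea : aval x col' (F.erase w) v y' = a := by
      unfold aval
      rw [hy', p_upd_var hC (notMem_erase _ _),
        p_upd_var hC (fun h => notMem_erase w F (mem_of_mem_erase h)), hcol',
        p_upd_col hC (notMem_erase _ _),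
        p_upd_col hC (fun h => notMem_erase w F (mem_of_mem_erase h)),
        Function.update_of_ne hwv.symm]
      rfl
    have hgap := gap_eq (x := x) (col := col') (y := y') (w := w) (F.erase v)
    rw [eB, hy', Function.update_self,
      aval_upd hC hA hk hw' (by rw [eB0]; exact hB.ne'), ← hy'] at hgap
    have h2 := hlev c h0
    rw [← hcol', hgap, gap_eq (x := x) (col := col) (y := y) (w := w) (F.erase v), ← hAdef,
      ← hBdef, mul_div_assoc', div_le_div_iff_of_pos_right hB] at h2
    have hA' : 0 < P x col' (F.erase v) y' := by linarith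
    have d := aval_diff (x := x) (col := col') (F := F) (v := v) (w := w) (y := y') hA'.ne'
      (eB ▸ hB.ne')
    rw [cross_upd hC hA hk hw hwv, eB, ea] at d
    rw [d]
    calc q c * (K c / (P x col' (F.erase v) y' * B))
        ≤ 2 / r * (K c / (2 * A * B)) :=
          mul_le_mul (hq2 c) (div_le_div_of_nonneg_left hKc (by positivity) (by gcongr))
            (div_nonneg hKc (by positivity)) (by positivity)
      _ = 1 / r * (K c / (A * B)) := by ring
  have hr : (r : ℝ) ≠ 0 := NeZero.ne _
  have h1 := sum_le_sum (s := univ) (fun c (_ : c ∈ univ) => key c)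
  simp only [mul_sub, sum_sub_distrib, ← sum_mul] at h1
  rw [← mul_sum, ← sum_div, hKsum] at h1
  have d := aval_diff (x := x) (col := col) (F := F) (v := v) (w := w) hA0.ne' hB.ne'
  have e : 1 / (r : ℝ) * (r * cross x col F v w y / (A * B)) = cross x col F v w y / (A * B) := by
    field_simp
  rw [e, ← d] at h1
  linarith

/-- `y` lowered by `δ` on `S`. -/
def lowered {V : Type u} [DecidableEq V] (y : V → ℝ) (S : Finset V) (δ : ℝ) (u : V) : ℝ :=
  y u - δ * if u ∈ S then 1 else 0


lemma continuous_P_lowered {V : Type u} [DecidableEq V] {r : ℕ} (x : Matrix V V ℂ)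
    (col : V → Option (Fin r)) (G S : Finset V) (y : V → ℝ) :
    Continuous (fun δ => P x col G (lowered y S δ)) := by
  unfold P mix
  refine Complex.continuous_re.comp (continuous_finsetSum _ (fun f _ => continuous_const.mul ?_))
  refine continuous_finsetProd _ (fun c _ => Continuous.matrix_det ?_)
  refine continuous_matrix (fun i j => ?_)
  simp only [minorMat, Matrix.of_apply, realVars, lowered]
  split_ifs <;> fun_prop

/-- The total loss by removing single vertices is at most `Y` times a difference quotient. -/
theorem drop_of (hC : PCongrGoal.{u}) (hA : PAffineGoal.{u}) (hM : AvalMonoGoal.{u})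
    (hS : ValidStepGoal.{u}) (hV : ValidMonoGoal.{u}) (hX : ConvexGoal.{u}) : DropGoal.{u} := by
  intro V _ r _ x col F S v y g Y hk hv hSF hg hY hSY hval
  set G : V → (V → ℝ) → ℝ := fun w z => aval x col F v z - aval x col (F.erase w) v z with hG
  have hvalid : ∀ z : V → ℝ, (∀ u, y u - g ≤ z u) → Valid x col (F.erase v) z :=
    fun z hz => hV x col _ _ _ z hk hval Subset.rfl (fun u _ => hz u)
  have hlow : ∀ (T : Finset V) (δ : ℝ), 0 < δ → δ < g →
      ∀ u, y u - δ ≤ lowered y T δ u ∧ y u - g ≤ lowered y T δ u := by
    intro T δ h0 h1 u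
    simp only [lowered]
    split_ifs <;> constructor <;> linarith
  have main : ∀ T ⊆ S, ∀ ε > 0, ∀ᶠ δ in 𝓝[>] (0 : ℝ),
      δ * (∑ w ∈ T, G w y - ε) ≤ Y * (aval x col F v (lowered y T δ) - aval x col F v y) := by
    intro T
    induction T using Finset.induction with
    | empty =>
      intro _ ε hε
      filter_upwards [self_mem_nhdsWithin] with δ (hδ : (0 : ℝ) < δ)
      rw [show lowered y ∅ δ = y from funext fun u => by simp [lowered]]
      simp only [sum_empty, zero_sub, sub_self, mul_zero]
      exact mul_nonpos_of_nonneg_of_nonpos hδ.le (by linarith)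
    | insert w T hwT ih =>
      intro hT ε hε
      have hwS : w ∈ S := hT (mem_insert_self w T)
      obtain ⟨hwv, hwF⟩ := mem_erase.1 (hSF hwS)
      have hy0 : lowered y T 0 = y := funext fun u => by simp [lowered]
      have hvy : Valid x col (F.erase v) y := hvalid y (fun u => by linarith)
      have hlim : Tendsto (fun δ => G w (lowered y T δ)) (𝓝[>] 0) (𝓝 (G w y)) := by
        have hc : ∀ H : Finset V, P x col (H.erase v) y ≠ 0 →
            ContinuousAt (fun δ => aval x col H v (lowered y T δ)) 0 := by
          intro H hH
          refine ContinuousAt.sub (by unfold lowered; fun_prop)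
            ((continuous_P_lowered x col H T y).continuousAt.div
              (continuous_P_lowered x col _ T y).continuousAt (by rw [hy0]; exact hH))
        have h := ((hc F (hvy _ Subset.rfl).ne').sub (hc (F.erase w) (ne_of_gt
          (hvy _ (by rw [erase_right_comm]; exact erase_subset _ _))))).tendsto
        simp only [Pi.sub_apply, hy0] at h
        exact h.mono_left nhdsWithin_le_nhds
      filter_upwards [ih ((subset_insert w T).trans hT) (ε / 2) (half_pos hε),
        hlim.eventually (eventually_gt_nhds (show G w y - ε / 2 < G w y by linarith)),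
        Ioo_mem_nhdsGT hg] with δ h1 h2 h3
      have e : lowered y (insert w T) δ
          = Function.update (lowered y T δ) w (lowered y T δ w - δ) := funext fun u => by
        by_cases hu : u = w
        · subst hu; simp [lowered, hwT]
        · simp [lowered, hu]
      have hwY : lowered y T δ w ≤ Y := by simpa [lowered, hwT] using hSY w hwS
      have h4 := drop_one hC hA hM hS hk hv hwF hwv h3.1.le hwY
        (hvalid _ (fun u => (hlow T δ h3.1 h3.2 u).2))
        (e ▸ hvalid _ (fun u => (hlow (insert w T) δ h3.1 h3.2 u).2))
      rw [← e] at h4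
      have h5 := mul_le_mul_of_nonneg_left h2.le h3.1.le
      rw [sum_insert hwT]
      simp only [hG] at h1 h5 ⊢
      linarith
  rw [div_mul_eq_mul_div, le_div_iff₀ hg]
  refine le_of_forall_pos_le_add (fun ε hε => ?_)
  obtain ⟨δ, hδ, hδ0, hδg⟩ :=
    ((main S Subset.rfl (ε / g) (div_pos hε hg)).and (Ioo_mem_nhdsGT hg)).exists
  have hmono := (hM x col F F v (fun u => y u - δ) (lowered y S δ) hk hv Subset.rfl
    (hvalid _ (fun u => by linarith)) (fun u _ => (hlow S δ hδ0 hδg u).1)).2
  have hconv := hX x col F v (fun u => y u - g) 0 (g - δ) g hk hv hval le_rfl (by linarith)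
    (by linarith)
  simp only [add_zero, sub_add_cancel, sub_zero,
    show ∀ u, y u - g + (g - δ) = y u - δ from fun u => by ring] at hconv
  have h1 := hδ.trans (mul_le_mul_of_nonneg_left (sub_le_sub_right hmono _) hY)
  have h2 : g * (aval x col F v (fun u => y u - δ) - aval x col F v y)
      ≤ δ * (aval x col F v (fun u => y u - g) - aval x col F v y) := by linarith
  have h3 : δ * (g * (∑ w ∈ S, G w y - ε / g))
      ≤ δ * (Y * (aval x col F v (fun u => y u - g) - aval x col F v y)) := by
    calc δ * (g * (∑ w ∈ S, G w y - ε / g)) = g * (δ * (∑ w ∈ S, G w y - ε / g)) := by ring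
      _ ≤ g * (Y * (aval x col F v (fun u => y u - δ) - aval x col F v y)) :=
          mul_le_mul_of_nonneg_left h1 hg.le
      _ = Y * (g * (aval x col F v (fun u => y u - δ) - aval x col F v y)) := by ring
      _ ≤ Y * (δ * (aval x col F v (fun u => y u - g) - aval x col F v y)) :=
          mul_le_mul_of_nonneg_left h2 hY
      _ = _ := by ring
  have h4 := le_of_mul_le_mul_left h3 hδ0
  rw [mul_sub, mul_div_cancel₀ _ hg.ne'] at h4
  simp only [hG] at h4
  linarith

theorem stepAvg : StepAvgGoal.{u} := stepAvg_of pCongr pAffine pAvg avalMono validStep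

theorem drop : DropGoal.{u} := drop_of pCongr pAffine avalMono validStep validMono convex

end Vale.Agent.P078.TypeIII.Reg
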