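import Vale.Agent.P078.TypeIII.Reg.Goals

/-!
# The regular part: a window stays good

The potential of a window is the inverse power sum of the roots at the damped levels. One
processed vertex increases it in the mean by an error which is negligible against the threshold
of a bad window; a new round restarts it from a negligible value.
-/

namespace Vale.Agent.P078.TypeIII.Reg

open Vale.Agent.P078.Mss Vale.Agent.P078.Mss2
open Finset Matrix

universe u

namespace Win

/-- The goals of the other modules that are used. -/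
structure Hyps : Prop where
  pc : PCongrGoal.{u}
  vm : ValidMonoGoal.{u}
  am : AvalMonoGoal.{u}
  us : UniformStartGoal.{u}
  cv : ConvexGoal.{u}
  phc : PhiCongrGoal.{u}
  pb : PhiBoundsGoal.{u}
  ps : PhiStepGoal.{u}
  tl : TailGoal.{u}
  av : AvgGoal.{u}
  ql : QLawGoal
  sp : SplitGoal.{u}

variable {V : Type u} [DecidableEq V] {p : Prm}

/-! ## Numerics -/

lemma Y0_pos (hp : p.Ok) : 0 < p.Y0 := by
  have h := hp.r_ge
  have : (0 : ℝ) < p.r := by exact_mod_cast (by omega : 0 < p.r)
  exact div_pos (by norm_num) (Real.sqrt_pos.2 this)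

lemma Y0_le_one (hp : p.Ok) : p.Y0 ≤ 1 := by
  have h : (3 : ℝ) ^ 2 ≤ p.r := by
    have h9 : ((9 : ℕ) : ℝ) ≤ p.r := by exact_mod_cast hp.r_ge
    norm_num at h9 ⊢
    exact h9
  exact div_le_one_of_le₀ (Real.le_sqrt_of_sq_le h) (Real.sqrt_nonneg _)

lemma J_ge' (hp : p.Ok) : (10 : ℝ) ≤ p.J := by exact_mod_cast hp.J_ge

lemma g_pos (hp : p.Ok) : 0 < p.g :=
  div_pos (Y0_pos hp) (lt_of_lt_of_le (by norm_num) (J_ge' hp))

lemma g_mul (hp : p.Ok) : p.g * p.J = p.Y0 :=
  div_mul_cancel₀ _ (ne_of_gt (lt_of_lt_of_le (by norm_num) (J_ge' hp)))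

lemma g_le_lam (hp : p.Ok) : p.g ≤ p.lam * p.Y0 := by
  have h : p.g * 1 ≤ p.g * (p.lam * p.J) := mul_le_mul_of_nonneg_left hp.lam_J (g_pos hp).le
  rw [← g_mul hp]
  linarith

lemma g_le_Y0 (hp : p.Ok) : p.g * 10 ≤ p.Y0 := by
  rw [← g_mul hp]
  exact mul_le_mul_of_nonneg_left (J_ge' hp) (g_pos hp).le

lemma lev_succ (p : Prm) (j : ℕ) : p.lev (j + 1) = p.lev j + p.g := by
  simp only [Prm.lev]
  push_cast
  ring

lemma lev_le (hp : p.Ok) {j : ℕ} (hj : j < p.J) : p.lev j ≤ (21 / 10) * p.Y0 := by
  have h : (j : ℝ) + 1 ≤ p.J := by exact_mod_cast hj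
  have h1 := g_le_Y0 hp
  have h2 := g_mul hp
  have h3 := mul_le_mul_of_nonneg_left h (g_pos hp).le
  simp only [Prm.lev]
  nlinarith

lemma lev_nonneg (hp : p.Ok) (j : ℕ) : 0 ≤ p.lev j := by
  have := Y0_pos hp
  have := g_pos hp
  simp only [Prm.lev]
  positivity

lemma one_le_base (p : Prm) : 1 ≤ p.base := by
  have : (0 : ℝ) ≤ 1 / (20 * (p.R : ℝ)) := by positivity
  simp only [Prm.base]
  linarith

lemma base_pow_two_R (hp : p.Ok) : p.base ^ (2 * p.R) ≤ 10 / 9 := by
  have hR : (0 : ℝ) < p.R := by exact_mod_cast hp.R_pos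
  have h1 : p.base ≤ Real.exp (1 / (20 * (p.R : ℝ))) := by
    have := Real.add_one_le_exp (1 / (20 * (p.R : ℝ)))
    simp only [Prm.base]
    linarith
  calc p.base ^ (2 * p.R) ≤ Real.exp (1 / (20 * (p.R : ℝ))) ^ (2 * p.R) :=
        pow_le_pow_left₀ (zero_le_one.trans (one_le_base p)) h1 _
    _ = Real.exp (1 / 10) := by
        rw [← Real.exp_nat_mul]
        congr 1
        push_cast
        field_simp
        ring
    _ ≤ 10 / 9 := by
        have h := Real.add_one_le_exp (-(1 / 10 : ℝ))
        rw [Real.exp_neg] at h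
        have hpos := Real.exp_pos (1 / 10 : ℝ)
        have hi : Real.exp (1 / 10 : ℝ) * (Real.exp (1 / 10 : ℝ))⁻¹ = 1 :=
          mul_inv_cancel₀ (ne_of_gt hpos)
        nlinarith

/-! ## Signs -/

omit [DecidableEq V] in
lemma kern_sgn {x : Matrix V V ℂ} (h : Kern x) (b : Bool) : Kern (sgn b x) := by
  cases b
  · refine ⟨fun i j => ?_, fun i => ?_, fun F => ?_⟩
    · simp [sgn, h.herm i j]
    · simp [sgn, h.diag i]
    · have hF := h.bound F
      have e : (sgn false x).submatrix (Subtype.val : {v // v ∈ F} → V)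
            (Subtype.val : {v // v ∈ F} → V)
          = -(x.submatrix (Subtype.val : {v // v ∈ F} → V)
            (Subtype.val : {v // v ∈ F} → V)) := by
        ext i j
        simp [sgn]
      rw [e]
      refine ⟨hF.1.neg, fun v => ?_⟩
      rw [Matrix.neg_mulVec, dotProduct_neg, Complex.neg_re, abs_neg]
      exact hF.2 v
  · simpa [sgn] using h

omit [DecidableEq V] in
lemma band_sgn {x : Matrix V V ℂ} {nb : V → Finset V} (h : Band x nb) (b : Bool) :
    Band (sgn b x) nb := by
  cases b
  · exact ⟨h.refl, h.symm, fun c v w hne => h.supp c v w (by simpa [sgn] using hne)⟩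
  · simpa [sgn] using h

/-! ## The distance and the profile -/

variable {x : Matrix V V ℂ} {nb : V → Finset V}

lemma dist_le_succ (ρ : ℕ) (ψ v : V) : dist' nb ρ ψ v ≤ ρ + 1 :=
  (card_filter_le _ _).trans_eq (card_range _)

lemma dist_le_of_mem (hb : Band x nb) {ρ d : ℕ} {ψ v : V} (h : v ∈ nball nb d ψ) :
    dist' nb ρ ψ v ≤ d := by
  refine le_trans (card_le_card ?_) (card_range d).le
  intro i hi
  rw [mem_filter] at hi
  rw [mem_range]
  by_contra hlt
  exact hi.2 (nball_mono hb (by omega) ψ h)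

lemma mem_dist (hb : Band x nb) {ρ : ℕ} {ψ v : V} (h : v ∈ nball nb ρ ψ) :
    v ∈ nball nb (dist' nb ρ ψ v) ψ := by
  have hex : ∃ d, v ∈ nball nb d ψ := ⟨ρ, h⟩
  have hd : Nat.find hex ≤ dist' nb ρ ψ v := by
    refine (card_range _).symm.le.trans (card_le_card ?_)
    intro i hi
    rw [mem_range] at hi
    have hle : Nat.find hex ≤ ρ := Nat.find_min' hex h
    exact mem_filter.2 ⟨mem_range.2 (by omega), Nat.find_min hex hi⟩
  exact nball_mono hb hd ψ (Nat.find_spec hex)

lemma succ_le_dist (hb : Band x nb) {ρ k : ℕ} {ψ v : V} (hk : k ≤ ρ) (h : v ∉ nball nb k ψ) :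
    k + 1 ≤ dist' nb ρ ψ v := by
  refine (card_range _).symm.le.trans (card_le_card ?_)
  intro i hi
  rw [mem_range] at hi
  exact mem_filter.2 ⟨mem_range.2 (by omega), fun hc => h (nball_mono hb (by omega) ψ hc)⟩

lemma phi_nonneg (hp : p.Ok) (nb : V → Finset V) (ψ v : V) : 0 ≤ phi p nb ψ v :=
  mul_nonneg (g_pos hp).le (sub_nonneg.2 (one_le_pow₀ (one_le_base p)))

lemma phi_le (hp : p.Ok) (nb : V → Finset V) (ψ v : V) : phi p nb ψ v ≤ p.Y0 := by
  have h1 : p.base ^ dist' nb p.ρ ψ v ≤ p.J :=
    (pow_le_pow_right₀ (one_le_base p) (dist_le_succ _ _ _)).trans hp.rho_hi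
  rw [← g_mul hp]
  exact mul_le_mul_of_nonneg_left (by linarith) (g_pos hp).le

/-! ## States -/

lemma colOf_upd (st : St V p.r) (v : V) (o : Option (Fin p.r)) :
    colOf (Function.update st v (some o)) = Function.update (colOf st) v o := by
  funext u
  by_cases h : u = v
  · subst h; simp [colOf]
  · simp [colOf, h]

lemma colOf_del {st : St V p.r} {v : V} (h : st v = none) :
    colOf (Function.update st v (some none)) = colOf st := by
  funext u
  by_cases hu : u = v
  · subst hu; simp [colOf, h]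
  · simp [colOf, hu]

lemma win_col {st : St V p.r} {v : V} {ψ : V} (h : st v = none) (c : Fin p.r) :
    win p nb ψ (Function.update st v (some (some c))) = win p nb ψ st := by
  refine filter_congr fun u _ => ?_
  by_cases hu : u = v
  · subst hu; simp [h]
  · simp [hu]

lemma win_del {st : St V p.r} {v : V} {ψ : V} :
    win p nb ψ (Function.update st v (some none)) = (win p nb ψ st).erase v := by
  ext u
  by_cases hu : u = v
  · subst hu; simp [win, alive]
  · simp [win, alive, hu]

lemma ywin_col {st : St V p.r} {v : V} {ψ : V} {j : ℕ} (h : st v = none) (c : Fin p.r) :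
    ywin p nb ψ j (Function.update st v (some (some c)))
      = Function.update (ywin p nb ψ j st) v (ywin p nb ψ j st v + p.shiftS) := by
  funext u
  by_cases hu : u = v
  · subst hu
    simp only [ywin, ylev, Function.update_self, colOf, h]
    simp
    ring
  · have hc : colOf (Function.update st v (some (some c))) u = colOf st u := by simp [colOf, hu]
    simp only [ywin, ylev, hc, Function.update_of_ne hu]

lemma ywin_del {st : St V p.r} {v : V} {ψ : V} {j : ℕ} (h : st v = none) :
    ywin p nb ψ j (Function.update st v (some none)) = ywin p nb ψ j st := by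
  funext u
  simp only [ywin, ylev, colOf_del h]

lemma valid_congr (H : Hyps.{u}) {r : ℕ} {col col' : V → Option (Fin r)} {F : Finset V}
    {y y' : V → ℝ} (hc : ∀ v ∈ F, col v = col' v) (hy : ∀ v ∈ F, y v = y' v)
    (h : Valid x col F y) : Valid x col' F y' := fun G hG => by
  rw [← H.pc x col col' G y y' (fun v hv => hc v (hG hv)) (fun v hv => hy v (hG hv))]
  exact h G hG

/-! ## Flatness of the barrier value in the window -/

lemma flat (H : Hyps.{u}) (hp : p.Ok) [NeZero p.r] (hx : Kern x) (hb : Band x nb) {ψ v : V}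
    {j : ℕ} {st : St V p.r} (hj : j < p.J) (hv : st v = none) (hvW : v ∈ nball nb p.ρ ψ)
    (hW : Valid x (colOf st) (win p nb ψ st) (fun u => ywin p nb ψ j st u - p.g / 4))
    (c : Fin p.r) (hB : Valid x (colOf st) (ball p nb v st) (ylev p (p.lev j) st))
    (ha : aval x (Function.update (colOf st) v (some c)) (ball p nb v st) v
      (ylev p (p.lev j) st) ≤ 8 * p.lev j)
    (hd : dval p x (Function.update (colOf st) v (some c)) (ball p nb v st) v
      (ylev p (p.lev j) st) ≤ p.lam * p.Y0) :
    aval x (Function.update (colOf st) v (some c)) (win p nb ψ st) v (ywin p nb ψ j st)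
        ≤ 18 * p.Y0 ∧
      aval x (Function.update (colOf st) v (some c)) (win p nb ψ st) v (ywin p nb ψ j st)
          - aval x (Function.update (colOf st) v (some c)) (win p nb ψ st) v
              (fun u => ywin p nb ψ j st u + p.g)
        ≤ (5 / 4) * (p.lam * p.Y0) := by
  have hY := Y0_pos hp
  have hg := g_pos hp
  have hlY : 0 < p.lam * p.Y0 := mul_pos hp.lam_pos hY
  have hlev := lev_le hp hj
  set col := Function.update (colOf st) v (some c) with hcol
  set L := ylev p (p.lev j) st with hL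
  set B := ball p nb v st with hBdef
  set W := win p nb ψ st with hWdef
  set y := ywin p nb ψ j st with hy
  set F := W ∩ nball nb p.R v with hF
  have hyL : ∀ u, y u = L u + phi p nb ψ u := fun u => rfl
  have hvWin : v ∈ W := by simp [hWdef, win, alive, hvW, hv]
  have hvB : v ∈ B := by
    simp [hBdef, ball, alive, hv, mem_nball_self hb p.R v]
  have hvF : v ∈ F := mem_inter.2 ⟨hvWin, mem_nball_self hb p.R v⟩
  have hFB : F ⊆ B := by
    intro u hu
    simp only [hF, hWdef, win, alive, mem_inter, mem_filter] at hu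
    simp only [hBdef, ball, alive, mem_filter]
    exact ⟨hu.2, hu.1.2⟩
  have hFW : F ⊆ W := inter_subset_left
  have hoff : ∀ (S : Finset V), ∀ u ∈ S.erase v, colOf st u = col u := by
    intro S u hu
    simp [hcol, (mem_erase.1 hu).1]
  -- validity for the new colour law, away from `v`
  have hBv : Valid x col (B.erase v) L :=
    valid_congr H (hoff B) (fun _ _ => rfl)
      (H.vm x (colOf st) (B.erase v) B L L hx hB (erase_subset _ _) fun _ _ => le_rfl)
  have hWv : Valid x col (W.erase v) (fun u => y u - p.g / 4) :=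
    valid_congr H (hoff W) (fun _ _ => rfl)
      (H.vm x (colOf st) (W.erase v) W _ _ hx hW (erase_subset _ _) fun _ _ => le_rfl)
  have hWv0 : Valid x col (W.erase v) y :=
    H.vm x col _ _ _ _ hx hWv (Subset.refl _) fun u _ => by linarith
  have hWvg : Valid x col (W.erase v) (fun u => y u + p.g) :=
    H.vm x col _ _ _ _ hx hWv (Subset.refl _) fun u _ => by linarith
  have hWv16 : Valid x col (W.erase v) (fun u => y u - p.g / 16) :=
    H.vm x col _ _ _ _ hx hWv (Subset.refl _) fun u _ => by linarith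
  have hFvg : Valid x col (F.erase v) (fun u => y u + p.g) :=
    H.vm x col _ _ _ _ hx hWvg (erase_subset_erase v hFW) fun u _ => le_rfl
  -- the tail
  have hy200 : ∀ u ∈ W, |y u| ≤ 200 := by
    intro u _
    have h1 := phi_le hp nb ψ u
    have h2 := phi_nonneg hp nb ψ u
    have h3 := Y0_le_one hp
    have h4 := lev_nonneg hp j
    rw [hyL u, abs_le]
    simp only [hL, ylev, Prm.shiftS]
    split_ifs <;> constructor <;> linarith
  have htail : aval x col W v y ≤ aval x col F v y + p.lam * p.Y0 / 8 := by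
    have h := H.tl x nb col W v y (p.g / 16) 200 p.R hx hb hvWin (by norm_num) (by linarith)
      (by linarith [g_le_Y0 hp, Y0_le_one hp]) hy200 hWv16
    linarith [hp.tail]
  -- the values on the two sides
  have hFy : aval x col F v y ≤ aval x col B v L :=
    (H.am x col F B v L y hx hvF hFB hBv fun u _ => by
      rw [hyL u]; linarith [phi_nonneg hp nb ψ u]).2
  have hA : aval x col W v y ≤ 18 * p.Y0 := by
    have : p.lam * p.Y0 ≤ 1 * p.Y0 := mul_le_mul_of_nonneg_right hp.lam_le hY.le
    linarith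
  refine ⟨hA, ?_⟩
  have hFWg : aval x col F v (fun u => y u + p.g) ≤ aval x col W v (fun u => y u + p.g) :=
    (H.am x col F W v _ _ hx hvF hFW hWvg fun u _ => le_rfl).2
  have hFg0 : 0 ≤ aval x col F v (fun u => y u + p.g) :=
    (H.am x col F F v _ _ hx hvF (Subset.refl _) hFvg fun u _ => le_rfl).1
  obtain ⟨um, hum, hmin⟩ := exists_min_image F (phi p nb ψ) ⟨v, hvF⟩
  obtain ⟨uM, huM, hmax⟩ := exists_max_image F (phi p nb ψ) ⟨v, hvF⟩
  set m := phi p nb ψ um with hm
  set Mx := phi p nb ψ uM with hMx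
  have hm0 : 0 ≤ m := phi_nonneg hp nb ψ um
  have hMx0 : 0 ≤ Mx := phi_nonneg hp nb ψ uM
  have hF0 : Valid x col (F.erase v) (fun u => y u - m) :=
    H.vm x col _ _ _ _ hx hBv (erase_subset_erase v hFB) fun u hu => by
      rw [hyL u]; linarith [hmin u (mem_of_mem_erase hu)]
  have hFm : aval x col F v (fun u => y u - m) ≤ aval x col B v L :=
    (H.am x col F B v L _ hx hvF hFB hBv fun u hu => by
      rw [hyL u]; linarith [hmin u (mem_of_mem_erase hu)]).2
  have hconv : (m + p.g) * (aval x col F v y - aval x col F v (fun u => y u + p.g))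
      ≤ p.g * (aval x col F v (fun u => y u - m) - aval x col F v (fun u => y u + p.g)) := by
    have h := H.cv x col F v (fun u => y u - m) 0 m (m + p.g) hx hvF hF0 le_rfl hm0
      (by linarith)
    have e1 : (fun u => y u - m + m) = y := by funext u; ring
    have e2 : (fun u => y u - m + 0) = (fun u => y u - m) := by funext u; ring
    have e3 : (fun u => y u - m + (m + p.g)) = (fun u => y u + p.g) := by funext u; ring
    simp only [e1, e2, e3] at h
    nlinarith
  have hkey : aval x col F v y - aval x col F v (fun u => y u + p.g)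
      ≤ (10 / 9) * (p.lam * p.Y0) := by
    refine le_of_mul_le_mul_left (hconv.trans ?_) (by linarith : 0 < m + p.g)
    by_cases hBW : B ⊆ W
    · -- the whole ball is in the window
      have hBF : B ⊆ F := fun u hu =>
        mem_inter.2 ⟨hBW hu, (mem_filter.1 hu).1⟩
      have hBg : aval x col B v (fun u => L u + (Mx + p.g))
          ≤ aval x col F v (fun u => y u + p.g) :=
        (H.am x col B F v _ _ hx hvB hBF hFvg fun u hu => by
          rw [hyL u]; linarith [hmax u (hBF (mem_of_mem_erase hu))]).2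
      have hBconv : p.g * (aval x col B v L - aval x col B v (fun u => L u + (Mx + p.g)))
          ≤ (Mx + p.g) * (aval x col B v L - aval x col B v (fun u => L u + p.g)) := by
        have h := H.cv x col B v L 0 p.g (Mx + p.g) hx hvB hBv le_rfl hg.le (by linarith)
        simp only [add_zero] at h
        nlinarith
      have hdd : aval x col B v L - aval x col B v (fun u => L u + p.g) ≤ p.lam * p.Y0 := hd
      have hdist : dist' nb p.ρ ψ uM ≤ dist' nb p.ρ ψ um + 2 * p.R := by
        have hm2 : uM ∈ nball nb (2 * p.R) um := by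
          have := nball_trans (nball_symm hb (mem_inter.1 hum).2) (mem_inter.1 huM).2
          rwa [two_mul]
        exact dist_le_of_mem hb
          (nball_trans (mem_dist hb (mem_filter.1 (hFW hum)).1) hm2)
      have hratio : Mx + p.g ≤ (10 / 9) * (m + p.g) := by
        have e1 : Mx + p.g = p.g * p.base ^ dist' nb p.ρ ψ uM := by
          simp only [hMx, phi]; ring
        have e2 : m + p.g = p.g * p.base ^ dist' nb p.ρ ψ um := by
          simp only [hm, phi]; ring
        rw [e1, e2]
        have hb0 : 0 ≤ p.base ^ dist' nb p.ρ ψ um :=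
          pow_nonneg (zero_le_one.trans (one_le_base p)) _
        calc p.g * p.base ^ dist' nb p.ρ ψ uM
            ≤ p.g * (p.base ^ dist' nb p.ρ ψ um * p.base ^ (2 * p.R)) := by
              rw [← pow_add]
              exact mul_le_mul_of_nonneg_left (pow_le_pow_right₀ (one_le_base p) hdist) hg.le
          _ ≤ p.g * (p.base ^ dist' nb p.ρ ψ um * (10 / 9)) :=
              mul_le_mul_of_nonneg_left
                (mul_le_mul_of_nonneg_left (base_pow_two_R hp) hb0) hg.le
          _ = _ := by ring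
      calc p.g * (aval x col F v (fun u => y u - m) - aval x col F v (fun u => y u + p.g))
          ≤ p.g * (aval x col B v L - aval x col B v (fun u => L u + (Mx + p.g))) :=
            mul_le_mul_of_nonneg_left (by linarith) hg.le
        _ ≤ (Mx + p.g) * (p.lam * p.Y0) :=
            hBconv.trans (mul_le_mul_of_nonneg_left hdd (by linarith))
        _ ≤ (m + p.g) * ((10 / 9) * (p.lam * p.Y0)) := by nlinarith
    · -- the ball leaves the window
      obtain ⟨u0, hu0, hu0W⟩ := not_subset.1 hBW
      have hu0' : u0 ∉ nball nb p.ρ ψ := fun hc =>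
        hu0W (mem_filter.2 ⟨hc, (mem_filter.1 hu0).2⟩)
      have hout : um ∉ nball nb (p.ρ - 2 * p.R) ψ := by
        intro hc
        refine hu0' ?_
        have h2 : u0 ∈ nball nb (p.R + p.R) um :=
          nball_trans (nball_symm hb (mem_inter.1 hum).2) (mem_filter.1 hu0).1
        have := nball_trans hc h2
        have e : p.ρ - 2 * p.R + (p.R + p.R) = p.ρ := by have := hp.R_le; omega
        rwa [e] at this
      have hdist : p.ρ + 1 - 2 * p.R ≤ dist' nb p.ρ ψ um := by
        have := succ_le_dist hb (Nat.sub_le _ _) hout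
        have := hp.R_le
        omega
      have hbig : 24 / p.lam + 1 ≤ p.base ^ dist' nb p.ρ ψ um :=
        hp.rho_lo.trans (pow_le_pow_right₀ (one_le_base p) hdist)
      have hmg : p.g * (24 / p.lam) ≤ m :=
        mul_le_mul_of_nonneg_left (by linarith) hg.le
      have hmg' : p.g * 24 ≤ m * p.lam := by
        have := mul_le_mul_of_nonneg_right hmg hp.lam_pos.le
        have e : p.g * (24 / p.lam) * p.lam = p.g * 24 := by
          rw [mul_assoc, div_mul_cancel₀ _ (ne_of_gt hp.lam_pos)]
        linarith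
      calc p.g * (aval x col F v (fun u => y u - m) - aval x col F v (fun u => y u + p.g))
          ≤ p.g * (17 * p.Y0) := mul_le_mul_of_nonneg_left (by linarith) hg.le
        _ ≤ (m + p.g) * ((10 / 9) * (p.lam * p.Y0)) := by
            have := mul_le_mul_of_nonneg_right hmg' hY.le
            nlinarith
  linarith

/-! ## One processed vertex -/

/-- The error of one processed vertex, against the threshold. -/
noncomputable def stepErr (p : Prm) : ℝ :=
  (p.g / 4) ^ p.n *
    ((p.n : ℝ) * (4 * p.lam / (25 * p.g)) * (2 / p.g + 4 * p.lam / (25 * p.g)) ^ (p.n - 1))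

lemma stepErr_le (hp : p.Ok) : stepErr p ≤ (3 / 4 : ℝ) ^ (p.n - 1) := by
  have hg := g_pos hp
  have hn := hp.n_ge
  have hl := hp.lam_pos
  have e : stepErr p = ((p.n : ℝ) * p.lam / 25) *
      ((2 / p.g + 4 * p.lam / (25 * p.g)) * (p.g / 4)) ^ (p.n - 1) := by
    have hs : (p.g / 4) ^ p.n = (p.g / 4) ^ (p.n - 1) * (p.g / 4) := by
      rw [← pow_succ]
      congr 1
      omega
    unfold stepErr
    rw [hs, mul_pow]
    field_simp
  have h1 : (p.n : ℝ) * p.lam / 25 ≤ 1 := by linarith [hp.n_lam]
  have h2 : (2 / p.g + 4 * p.lam / (25 * p.g)) * (p.g / 4) ≤ 3 / 4 := by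
    have e2 : (2 / p.g + 4 * p.lam / (25 * p.g)) * (p.g / 4) = 1 / 2 + p.lam / 25 := by
      field_simp
      ring
    rw [e2]
    linarith [hp.lam_le]
  rw [e]
  calc _ ≤ 1 * (3 / 4 : ℝ) ^ (p.n - 1) :=
        mul_le_mul h1 (pow_le_pow_left₀ (by positivity) h2 _) (by positivity) zero_le_one
    _ = _ := one_mul _

/-- The potential of the window of `ψ`, for one sign. -/
noncomputable def phiW (p : Prm) (x : Matrix V V ℂ) (nb : V → Finset V) (ψ : V) (j : ℕ)
    (st : St V p.r) : ℝ :=
  Phi x (colOf st) (win p nb ψ st) (ywin p nb ψ j st) p.n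

/-- All roots of the window are below the levels. -/
def validW (p : Prm) (x : Matrix V V ℂ) (nb : V → Finset V) (ψ : V) (j : ℕ)
    (st : St V p.r) : Prop :=
  Valid x (colOf st) (win p nb ψ st) (ywin p nb ψ j st)

lemma step_vertex (H : Hyps.{u}) (hp : p.Ok) [NeZero p.r] (hx : Kern x) (hb : Band x nb)
    {ψ v : V} {j : ℕ} {st : St V p.r} (hj : j < p.J) (hv : st v = none)
    (hvW : v ∈ nball nb p.ρ ψ)
    (hW : Valid x (colOf st) (win p nb ψ st) (fun u => ywin p nb ψ j st u - p.g / 4))
    (q : Fin p.r → ℝ) (hq0 : ∀ c, 0 ≤ q c) (hq2 : ∀ c, q c ≤ 2 / p.r) (hq1 : ∑ c, q c ≤ 1)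
    (hweak : ∀ c, q c ≠ 0 → Valid x (colOf st) (ball p nb v st) (ylev p (p.lev j) st) ∧
      aval x (Function.update (colOf st) v (some c)) (ball p nb v st) v
          (ylev p (p.lev j) st) ≤ 8 * p.lev j ∧
      dval p x (Function.update (colOf st) v (some c)) (ball p nb v st) v
          (ylev p (p.lev j) st) ≤ p.lam * p.Y0) :
    (∀ c, q c ≠ 0 → validW p x nb ψ j (Function.update st v (some (some c)))) ∧
      validW p x nb ψ j (Function.update st v (some none)) ∧
      (p.g / 4) ^ p.n *
          (∑ c, q c * phiW p x nb ψ j (Function.update st v (some (some c)))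
            + (1 - ∑ c, q c) * phiW p x nb ψ j (Function.update st v (some none)))
        ≤ (p.g / 4) ^ p.n * phiW p x nb ψ j st + stepErr p := by
  have hY := Y0_pos hp
  have hg := g_pos hp
  have hl := hp.lam_pos
  have hcv : colOf st v = none := by simp [colOf, hv]
  have hvWin : v ∈ win p nb ψ st := by simp [win, alive, hvW, hv]
  have hval : Valid x (colOf st) (win p nb ψ st) (ywin p nb ψ j st) :=
    H.vm x _ _ _ _ _ hx hW (Subset.refl _) fun u _ => by linarith
  have hval' : Valid x (colOf st) ((win p nb ψ st).erase v)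
      (fun u => ywin p nb ψ j st u - p.g / 4) :=
    H.vm x _ _ _ _ _ hx hW (erase_subset _ _) fun u _ => le_rfl
  have hphi := phi_le hp nb ψ v
  have hphi0 := phi_nonneg hp nb ψ v
  have hlev := lev_le hp hj
  have hlev0 := lev_nonneg hp j
  have hyv : ywin p nb ψ j st v = p.lev j + phi p nb ψ v := by simp [ywin, ylev, hcv]
  have hold : 0 ≤ aval x (colOf st) (win p nb ψ st) v (ywin p nb ψ j st) :=
    (H.am x _ _ _ v _ _ hx hvWin (Subset.refl _)
      (H.vm x _ _ _ _ _ hx hval (erase_subset _ _) fun u _ => le_rfl) fun u _ => le_rfl).1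
  have hcond : ∀ c, q c ≠ 0 →
      100 * p.Y0 ≤ ywin p nb ψ j st v + p.shiftS
        - aval x (Function.update (colOf st) v (some c)) (win p nb ψ st) v (ywin p nb ψ j st) ∧
      1 + 5 * (aval x (Function.update (colOf st) v (some c)) (win p nb ψ st) v
          (ywin p nb ψ j st)
          - aval x (Function.update (colOf st) v (some c)) (win p nb ψ st) v
            (fun u => ywin p nb ψ j st u + p.g)) / p.g
        ≤ 4 * p.lam / (25 * p.g) * (100 * p.Y0) := by
    intro c hc
    obtain ⟨h1, h2, h3⟩ := hweak c hc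
    obtain ⟨ha, hd⟩ := flat H hp hx hb hj hv hvW hW c h1 h2 h3
    refine ⟨?_, ?_⟩
    · rw [hyv]
      simp only [Prm.shiftS]
      linarith
    · rw [show 4 * p.lam / (25 * p.g) * (100 * p.Y0) = 16 * (p.lam * p.Y0) / p.g by
        field_simp; ring]
      rw [le_div_iff₀ hg, add_mul, div_mul_cancel₀ _ (ne_of_gt hg), one_mul]
      have := g_le_lam hp
      have : 0 < p.lam * p.Y0 := mul_pos hl hY
      linarith
  have hgrow : 2 * (1 + 4 * p.lam / (25 * p.g) / (2 / p.g)) ^ p.n *
      (ywin p nb ψ j st v - aval x (colOf st) (win p nb ψ st) v (ywin p nb ψ j st))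
        ≤ 100 * p.Y0 := by
    have e : 4 * p.lam / (25 * p.g) / (2 / p.g) = 2 * p.lam / 25 := by
      field_simp
      ring
    have h3 : (1 + 2 * p.lam / 25) ^ p.n ≤ 3 := by
      have h1 : 1 + 2 * p.lam / 25 ≤ Real.exp (2 * p.lam / 25) := by
        have := Real.add_one_le_exp (2 * p.lam / 25)
        linarith
      calc (1 + 2 * p.lam / 25) ^ p.n ≤ Real.exp (2 * p.lam / 25) ^ p.n :=
            pow_le_pow_left₀ (by positivity) h1 _
        _ = Real.exp ((p.n : ℝ) * (2 * p.lam / 25)) := (Real.exp_nat_mul _ _).symm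
        _ ≤ Real.exp 1 := Real.exp_le_exp.2 (by linarith [hp.n_lam])
        _ ≤ 3 := by linarith [Real.exp_one_lt_d9]
    rw [e, hyv]
    have hpow : 0 ≤ (1 + 2 * p.lam / 25) ^ p.n := by positivity
    calc 2 * (1 + 2 * p.lam / 25) ^ p.n *
          (p.lev j + phi p nb ψ v - aval x (colOf st) (win p nb ψ st) v (ywin p nb ψ j st))
        ≤ 2 * (1 + 2 * p.lam / 25) ^ p.n * (p.lev j + phi p nb ψ v) :=
          mul_le_mul_of_nonneg_left (by linarith) (by linarith)
      _ ≤ 6 * (p.lev j + phi p nb ψ v) :=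
          mul_le_mul_of_nonneg_right (by linarith) (by linarith)
      _ ≤ 100 * p.Y0 := by linarith
  obtain ⟨hP1, hP2⟩ := H.ps x (colOf st) (win p nb ψ st) v (ywin p nb ψ j st) p.shiftS p.g
    (100 * p.Y0) (4 * p.lam / (25 * p.g)) (2 / p.g) q p.n hx hvWin hcv hp.n_ge hg
    (by linarith) (by positivity) (by positivity) hval hval' hq0 hq2 hq1 hcond hgrow
  refine ⟨fun c hc => ?_, ?_, ?_⟩
  · unfold validW
    rw [colOf_upd, win_col hv, ywin_col hv]
    exact hP1 c hc
  · unfold validW
    rw [colOf_del hv, win_del, ywin_del hv]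
    exact H.vm x _ _ _ _ _ hx hval (erase_subset _ _) fun u _ => le_rfl
  · have hθ : 0 ≤ (p.g / 4) ^ p.n := by positivity
    have := mul_le_mul_of_nonneg_left hP2 hθ
    simp only [phiW, colOf_upd, win_col hv, ywin_col hv, colOf_del hv, win_del, ywin_del hv,
      stepErr]
    linarith [mul_add ((p.g / 4) ^ p.n) (Phi x (colOf st) (win p nb ψ st)
      (ywin p nb ψ j st) p.n) ((p.n : ℝ) * (4 * p.lam / (25 * p.g))
        * (2 / p.g + 4 * p.lam / (25 * p.g)) ^ (p.n - 1))]

/-! ## One slot -/

/-- The potential of the window of `ψ`, for both signs, against the threshold. -/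
noncomputable def pot (p : Prm) (x : Matrix V V ℂ) (nb : V → Finset V) (ψ : V) (j : ℕ)
    (st : St V p.r) : ℝ :=
  (p.g / 4) ^ p.n * (phiW p (sgn true x) nb ψ j st + phiW p (sgn false x) nb ψ j st)

open Classical in
/-- The potential, continued by `1` to windows with a root above the levels. -/
noncomputable def potC (p : Prm) (x : Matrix V V ℂ) (nb : V → Finset V) (ψ : V) (j : ℕ)
    (st : St V p.r) : ℝ :=
  if ∀ b, validW p (sgn b x) nb ψ j st then pot p x nb ψ j st else 1

lemma validW_local (H : Hyps.{u}) {ψ : V} {j : ℕ} {s s' : St V p.r}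
    (h : ∀ w ∈ nball nb p.ρ ψ, s w = s' w) (hv : validW p x nb ψ j s) :
    validW p x nb ψ j s' := by
  have e : win p nb ψ s' = win p nb ψ s := filter_congr fun u hu => by rw [h u hu]
  unfold validW
  rw [e]
  refine valid_congr H (fun u hu => ?_) (fun u hu => ?_) hv
  · simp [colOf, h u (mem_filter.1 hu).1]
  · have hc : colOf s u = colOf s' u := by simp [colOf, h u (mem_filter.1 hu).1]
    simp only [ywin, ylev, hc]

lemma phiW_local (H : Hyps.{u}) {ψ : V} {j : ℕ} {s s' : St V p.r}
    (h : ∀ w ∈ nball nb p.ρ ψ, s w = s' w) : phiW p x nb ψ j s = phiW p x nb ψ j s' := by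
  have e : win p nb ψ s' = win p nb ψ s := filter_congr fun u hu => by rw [h u hu]
  unfold phiW
  rw [e]
  refine H.phc x _ _ _ _ _ _ (fun u hu => ?_) (fun u hu => ?_)
  · simp [colOf, h u (mem_filter.1 hu).1]
  · have hc : colOf s u = colOf s' u := by simp [colOf, h u (mem_filter.1 hu).1]
    simp only [ywin, ylev, hc]

lemma potC_local (H : Hyps.{u}) {ψ : V} {j : ℕ} {s s' : St V p.r}
    (h : ∀ w ∈ nball nb p.ρ ψ, s w = s' w) : potC p x nb ψ j s = potC p x nb ψ j s' := by
  classical
  have h' : ∀ w ∈ nball nb p.ρ ψ, s' w = s w := fun w hw => (h w hw).symm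
  have hiff : (∀ b, validW p (sgn b x) nb ψ j s) ↔ (∀ b, validW p (sgn b x) nb ψ j s') :=
    ⟨fun hh b => validW_local H h (hh b), fun hh b => validW_local H h' (hh b)⟩
  have hpot : pot p x nb ψ j s = pot p x nb ψ j s' := by
    simp only [pot, phiW_local H h]
  simp only [potC, hiff, hpot]

lemma validW_of_good (H : Hyps.{u}) (hp : p.Ok) [NeZero p.r] (hx : Kern x) {ψ : V} {j : ℕ}
    {st : St V p.r} (hW : WGood p x nb ψ j st) (b : Bool) :
    validW p (sgn b x) nb ψ j st :=
  H.vm (sgn b x) _ _ _ _ _ (kern_sgn hx b) (hW b) (Subset.refl _)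
    fun u _ => by linarith [g_pos hp]

lemma pot_nonneg (H : Hyps.{u}) (hp : p.Ok) [NeZero p.r] (hx : Kern x) {ψ : V} {j : ℕ}
    {st : St V p.r} (hv : ∀ b, validW p (sgn b x) nb ψ j st) : 0 ≤ pot p x nb ψ j st := by
  have hg := g_pos hp
  have h : ∀ b, 0 ≤ phiW p (sgn b x) nb ψ j st := fun b =>
    (H.pb (sgn b x) _ _ _ p.n 1 (kern_sgn hx b) one_pos).1 (hv b)
  exact mul_nonneg (by positivity) (add_nonneg (h true) (h false))

lemma one_le_potC (H : Hyps.{u}) (hp : p.Ok) [NeZero p.r] (hx : Kern x) {ψ : V} {j : ℕ}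
    {st : St V p.r} (hW : ¬ WGood p x nb ψ j st) : 1 ≤ potC p x nb ψ j st := by
  classical
  have hg := g_pos hp
  unfold potC
  split_ifs with hv
  · obtain ⟨b, hb⟩ := not_forall.1 hW
    have h1 : (p.g / 4)⁻¹ ^ p.n ≤ phiW p (sgn b x) nb ψ j st :=
      (H.pb (sgn b x) _ _ _ p.n (p.g / 4) (kern_sgn hx b) (by linarith)).2.2 (hv b) hb
    have h2 : 1 ≤ (p.g / 4) ^ p.n * phiW p (sgn b x) nb ψ j st := by
      have h3 := mul_le_mul_of_nonneg_left h1 (by positivity : 0 ≤ (p.g / 4) ^ p.n)
      rwa [← mul_pow, mul_inv_cancel₀ (by linarith : p.g / 4 ≠ 0), one_pow] at h3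
    have h4 : ∀ b', 0 ≤ (p.g / 4) ^ p.n * phiW p (sgn b' x) nb ψ j st := fun b' =>
      mul_nonneg (by positivity) ((H.pb (sgn b' x) _ _ _ p.n 1 (kern_sgn hx b') one_pos).1 (hv b'))
    simp only [pot, mul_add]
    cases b
    · linarith [h4 true]
    · linarith [h4 false]
  · exact le_rfl

lemma avg_potC_le (H : Hyps.{u}) (hp : p.Ok) [NeZero p.r] (hx : Kern x) (hb : Band x nb)
    {O : Oracle V p} (hO : Sound p x nb O) (U : Finset V) {ψ : V} {j : ℕ} {st : St V p.r}
    (hj : j < p.J) (hW : WGood p x nb ψ j st) :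
    avgOn p U (fun ω => potC p x nb ψ j (step p nb O j st ω))
      ≤ pot p x nb ψ j st + (nball nb p.ρ ψ).card / (p.Q : ℝ) * (2 * stepErr p) := by
  classical
  have hr : 1 ≤ p.r := le_trans (by norm_num) hp.r_ge
  have hg := g_pos hp
  have hl := hp.lam_pos
  have herr : 0 ≤ stepErr p := by unfold stepErr; positivity
  obtain ⟨pr, hpr, hprsum, heq⟩ := H.sp p hp.Q_pos hr nb O U (nball nb p.ρ ψ) j st
    (potC p x nb ψ j)
    (fun u hu w hw => by
      have := nball_trans (nball_symm hb hw) hu
      rwa [two_mul])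
    (fun s s' h => potC_local H h)
  rw [heq]
  have hv0 : ∀ b, validW p (sgn b x) nb ψ j st := validW_of_good H hp hx hW
  have hst : potC p x nb ψ j st = pot p x nb ψ j st := by simp [potC, hv0]
  have hone : ∀ v ∈ nball nb p.ρ ψ,
      (if st v = none then outAvg p (potC p x nb ψ j) st v (O j st v)
        else potC p x nb ψ j st) ≤ pot p x nb ψ j st + 2 * stepErr p := by
    intro v hv
    split_ifs with hnone
    · obtain ⟨hq0, hqm, hq1, hq2, -⟩ := H.ql p hr (O j st v)
      have hsv : ∀ b, _ := fun b => step_vertex H hp (kern_sgn hx b) (band_sgn hb b) hj hnone hv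
        (hW b) (qLaw p (O j st v)) hq0 (hq2 (hO.large j st v)) hq1
        (fun c hc => hO.weak j st v hnone c (hqm c hc) b)
      have hdel : potC p x nb ψ j (Function.update st v (some none))
          = pot p x nb ψ j (Function.update st v (some none)) := by
        have : ∀ b, validW p (sgn b x) nb ψ j (Function.update st v (some none)) :=
          fun b => (hsv b).2.1
        simp [potC, this]
      have hterm : ∀ c, qLaw p (O j st v) c *
            potC p x nb ψ j (Function.update st v (some (some c)))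
          = qLaw p (O j st v) c * pot p x nb ψ j (Function.update st v (some (some c))) := by
        intro c
        by_cases hc : qLaw p (O j st v) c = 0
        · simp [hc]
        · have : ∀ b, validW p (sgn b x) nb ψ j (Function.update st v (some (some c))) :=
            fun b => (hsv b).1 c hc
          simp [potC, this]
      unfold outAvg
      simp only [hterm, hdel]
      have ht := (hsv true).2.2
      have hf := (hsv false).2.2
      simp only [pot, mul_add, Finset.sum_add_distrib, mul_left_comm _ ((p.g / 4) ^ p.n),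
        ← Finset.mul_sum] at ht hf ⊢
      linarith
    · linarith
  calc ∑ v ∈ nball nb p.ρ ψ, pr v * (if st v = none
          then outAvg p (potC p x nb ψ j) st v (O j st v) else potC p x nb ψ j st)
        + (1 - ∑ v ∈ nball nb p.ρ ψ, pr v) * potC p x nb ψ j st
      ≤ ∑ v ∈ nball nb p.ρ ψ, pr v * (pot p x nb ψ j st + 2 * stepErr p)
        + (1 - ∑ v ∈ nball nb p.ρ ψ, pr v) * potC p x nb ψ j st := by
        gcongr with v hv
        · exact (hpr v).1
        · exact hone v hv
    _ = pot p x nb ψ j st + (∑ v ∈ nball nb p.ρ ψ, pr v) * (2 * stepErr p) := by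
        rw [hst, ← Finset.sum_mul]
        ring
    _ ≤ _ := by
        have hs : ∑ v ∈ nball nb p.ρ ψ, pr v ≤ ∑ _v ∈ nball nb p.ρ ψ, 1 / (p.Q : ℝ) :=
          Finset.sum_le_sum fun v _ => (hpr v).2
        rw [Finset.sum_const, nsmul_eq_mul, mul_one_div] at hs
        have := mul_le_mul_of_nonneg_right hs (by linarith : 0 ≤ 2 * stepErr p)
        linarith

/-! ## Rounds -/

lemma pot_start (H : Hyps.{u}) (hp : p.Ok) [NeZero p.r] (hx : Kern x) {ψ : V} {j : ℕ}
    {st : St V p.r}
    (hv : ∀ b, Valid (sgn b x) (colOf st) (win p nb ψ st)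
      (fun u => ywin p nb ψ j st u - 5 * p.g / 4)) :
    WGood p x nb ψ j st ∧
      pot p x nb ψ j st ≤ 2 * ((nball nb p.ρ ψ).card : ℝ) * (1 / 5 : ℝ) ^ p.n := by
  have hg := g_pos hp
  refine ⟨fun b => H.vm (sgn b x) _ _ _ _ _ (kern_sgn hx b) (hv b) (Subset.refl _)
    fun u _ => by linarith, ?_⟩
  have h : ∀ b, (p.g / 4) ^ p.n * phiW p (sgn b x) nb ψ j st
      ≤ ((nball nb p.ρ ψ).card : ℝ) * (1 / 5 : ℝ) ^ p.n := by
    intro b
    have h1 : phiW p (sgn b x) nb ψ j st
        ≤ ((win p nb ψ st).card : ℝ) * (5 * p.g / 4)⁻¹ ^ p.n :=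
      (H.pb (sgn b x) _ _ _ p.n (5 * p.g / 4) (kern_sgn hx b) (by linarith)).2.1 (hv b)
    calc (p.g / 4) ^ p.n * phiW p (sgn b x) nb ψ j st
        ≤ (p.g / 4) ^ p.n * (((win p nb ψ st).card : ℝ) * (5 * p.g / 4)⁻¹ ^ p.n) :=
          mul_le_mul_of_nonneg_left h1 (by positivity)
      _ = ((win p nb ψ st).card : ℝ) * (1 / 5 : ℝ) ^ p.n := by
          rw [mul_left_comm, ← mul_pow]
          congr 2
          field_simp
      _ ≤ _ := by
          refine mul_le_mul_of_nonneg_right ?_ (by positivity)
          exact_mod_cast card_filter_le (nball nb p.ρ ψ) _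
  simp only [pot, mul_add]
  linarith [h true, h false]

lemma pBad_le (H : Hyps.{u}) (hp : p.Ok) [NeZero p.r] (hx : Kern x) (hb : Band x nb)
    {O : Oracle V p} (hO : Sound p x nb O) (U : Finset V) (ψ : V) :
    ∀ (k t : ℕ) (st : St V p.r), t + k ≤ p.T → WGood p x nb ψ (t / p.S) st →
      pBad p x nb O U ψ k t st ≤ pot p x nb ψ (t / p.S) st
        + k * ((nball nb p.ρ ψ).card / (p.Q : ℝ) * (2 * stepErr p))
        + (((t + k) / p.S - t / p.S : ℕ) : ℝ)
          * (2 * ((nball nb p.ρ ψ).card : ℝ) * (1 / 5 : ℝ) ^ p.n) := by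
  classical
  set a := ((nball nb p.ρ ψ).card : ℝ) / (p.Q : ℝ) * (2 * stepErr p) with ha
  set d := 2 * ((nball nb p.ρ ψ).card : ℝ) * (1 / 5 : ℝ) ^ p.n with hd
  intro k
  induction k with
  | zero =>
    intro t st _ hW
    simp only [pBad, Nat.cast_zero, zero_mul, add_zero, Nat.sub_self]
    exact pot_nonneg H hp hx (validW_of_good H hp hx hW)
  | succ k ih =>
    intro t st hT hW
    have hr : 1 ≤ p.r := le_trans (by norm_num) hp.r_ge
    obtain ⟨hmono, hadd, -, hconst⟩ := H.av p hp.Q_pos hr U
    have hj : t / p.S < p.J := by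
      rw [Nat.div_lt_iff_lt_mul hp.S_pos]
      simp only [Prm.T] at hT
      omega
    set N := (t + (k + 1)) / p.S - t / p.S with hN
    have hpt : ∀ ω, (if WGood p x nb ψ (t / p.S) (step p nb O (t / p.S) st ω) then
          pBad p x nb O U ψ k (t + 1) (step p nb O (t / p.S) st ω) else 1)
        ≤ potC p x nb ψ (t / p.S) (step p nb O (t / p.S) st ω) + ((k : ℝ) * a + (N : ℝ) * d) := by
      intro ω
      have hl := hp.lam_pos
      have hg := g_pos hp
      have hrem : 0 ≤ (k : ℝ) * a + (N : ℝ) * d := by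
        have : 0 ≤ stepErr p := by unfold stepErr; positivity
        rw [ha, hd]
        positivity
      generalize step p nb O (t / p.S) st ω = s
      split_ifs with hs
      · have hsC : potC p x nb ψ (t / p.S) s = pot p x nb ψ (t / p.S) s := by
          simp [potC, validW_of_good H hp hx hs]
        rw [hsC]
        have hdiv : (t + 1) / p.S = t / p.S ∨ (t + 1) / p.S = t / p.S + 1 := by
          rw [Nat.succ_div]
          split_ifs
          · exact Or.inr rfl
          · exact Or.inl rfl
        rcases hdiv with he | he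
        · have h := ih (t + 1) s (by omega) (by rwa [he])
          rw [he, show t + 1 + k = t + (k + 1) by omega, ← hN] at h
          linarith
        · have hv : ∀ b, Valid (sgn b x) (colOf s) (win p nb ψ s)
              (fun u => ywin p nb ψ ((t + 1) / p.S) s u - 5 * p.g / 4) := by
            intro b
            have e : (fun u => ywin p nb ψ ((t + 1) / p.S) s u - 5 * p.g / 4)
                = (fun u => ywin p nb ψ (t / p.S) s u - p.g / 4) := by
              funext u
              simp only [ywin, ylev, he, lev_succ]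
              ring
            rw [e]
            exact hs b
          obtain ⟨hW', hpot⟩ := pot_start H hp hx hv
          have h := ih (t + 1) s (by omega) hW'
          have hN' : (t + 1 + k) / p.S - (t + 1) / p.S + 1 = N := by
            have h1 : (t + 1) / p.S ≤ (t + 1 + k) / p.S := Nat.div_le_div_right (by omega)
            rw [hN, show t + (k + 1) = t + 1 + k by omega]
            omega
          have hNr : (((t + 1 + k) / p.S - (t + 1) / p.S : ℕ) : ℝ) + 1 = (N : ℝ) := by
            exact_mod_cast hN'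
          have h0 := pot_nonneg H hp hx (validW_of_good H hp hx hs)
          rw [← hNr]
          linarith
      · linarith [one_le_potC H hp hx hs]
    calc pBad p x nb O U ψ (k + 1) t st
        ≤ avgOn p U (fun ω => potC p x nb ψ (t / p.S) (step p nb O (t / p.S) st ω)
            + ((k : ℝ) * a + (N : ℝ) * d)) := by
          rw [pBad]
          exact hmono _ _ hpt
      _ = avgOn p U (fun ω => potC p x nb ψ (t / p.S) (step p nb O (t / p.S) st ω))
            + ((k : ℝ) * a + (N : ℝ) * d) := by rw [hadd, hconst]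
      _ ≤ pot p x nb ψ (t / p.S) st + a + ((k : ℝ) * a + (N : ℝ) * d) := by
          linarith [avg_potC_le H hp hx hb hO U hj hW]
      _ = pot p x nb ψ (t / p.S) st + ((k + 1 : ℕ) : ℝ) * a + (N : ℝ) * d := by
          push_cast
          ring

lemma window_aux (H : Hyps.{u}) : WindowGoal.{u} := by
  intro p hp V _ x nb O hx hb hO U ψ
  have : NeZero p.r := ⟨by have := hp.r_ge; omega⟩
  have hv : ∀ b, Valid (sgn b x) (colOf (fun _ : V => (none : Option (Option (Fin p.r)))))
      (win p nb ψ (fun _ => none))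
      (fun u => ywin p nb ψ 0 (fun _ => none) u - 5 * p.g / 4) := by
    intro b
    refine H.us (sgn b x) _ _ _ (kern_sgn hx b) (le_trans (by norm_num) hp.r_ge)
      (fun u _ => rfl) (fun u _ => ?_)
    have := phi_nonneg hp nb ψ u
    have := g_pos hp
    simp [ywin, ylev, colOf, Prm.lev]
    change p.Y0 ≤ _
    linarith
  obtain ⟨hW, hpot⟩ := pot_start H hp hx hv
  have hS : 0 < p.S := hp.S_pos
  have h := pBad_le H hp hx hb hO U ψ p.T 0 (fun _ => none) (by omega)
    (by rwa [Nat.zero_div])
  rw [Nat.zero_div, Nat.zero_add, Nat.sub_zero,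
    show p.T / p.S = p.J from Nat.mul_div_cancel _ hS] at h
  refine h.trans ?_
  have hB : (1 : ℝ) ≤ (nball nb p.ρ ψ).card := by
    exact_mod_cast card_pos.2 ⟨ψ, mem_nball_self hb p.ρ ψ⟩
  have hJ := J_ge' hp
  set B := ((nball nb p.ρ ψ).card : ℝ)
  set P := (3 / 4 : ℝ) ^ (p.n - 1)
  have hP : 0 ≤ P := by positivity
  have h5 : (1 / 5 : ℝ) ^ p.n ≤ P / 2 := by
    have hn : p.n = p.n - 1 + 1 := by have := hp.n_ge; omega
    rw [hn, pow_succ]
    have := pow_le_pow_left₀ (by norm_num) (by norm_num : (1 / 5 : ℝ) ≤ 3 / 4) (p.n - 1)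
    change _ ≤ (3 / 4 : ℝ) ^ (p.n - 1) / 2
    nlinarith [pow_nonneg (by norm_num : (0 : ℝ) ≤ 1 / 5) (p.n - 1)]
  have hT : (p.T : ℝ) = p.J * p.S := by simp [Prm.T]
  have hQ : (0 : ℝ) ≤ (p.S : ℝ) / p.Q := by positivity
  have h1 : ((p.J : ℝ) + 1) * (2 * B * (1 / 5 : ℝ) ^ p.n) ≤ 2 * p.J * B * B * P := by
    calc ((p.J : ℝ) + 1) * (2 * B * (1 / 5 : ℝ) ^ p.n)
        ≤ ((p.J : ℝ) + 1) * (2 * B * (P / 2)) := by gcongr
      _ ≤ (2 * p.J) * (2 * B * (P / 2)) * B := by
          have : 0 ≤ 2 * B * (P / 2) := by positivity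
          calc ((p.J : ℝ) + 1) * (2 * B * (P / 2)) ≤ (2 * p.J) * (2 * B * (P / 2)) := by
                gcongr; linarith
            _ ≤ _ := le_mul_of_one_le_right (by positivity) hB
      _ = _ := by ring
  have h2 : (p.T : ℝ) * (B / p.Q * (2 * stepErr p))
      ≤ 2 * p.J * B * ((p.S : ℝ) / p.Q) * B * P := by
    calc (p.T : ℝ) * (B / p.Q * (2 * stepErr p)) ≤ (p.T : ℝ) * (B / p.Q * (2 * P)) := by
          gcongr
          exact stepErr_le hp
      _ = 2 * p.J * B * ((p.S : ℝ) / p.Q) * P := by rw [hT]; ring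
      _ ≤ (2 * p.J * B * ((p.S : ℝ) / p.Q) * P) * B :=
          le_mul_of_one_le_right (by positivity) hB
      _ = _ := by ring
  nlinarith

end Win

/-- Windows stay good, given the goals of the modules Basic, Line, Tail and Prob. -/
theorem window (hPC : PCongrGoal.{u}) (hVM : ValidMonoGoal.{u}) (hAM : AvalMonoGoal.{u})
    (hUS : UniformStartGoal.{u}) (hCV : ConvexGoal.{u}) (hPhC : PhiCongrGoal.{u})
    (hPB : PhiBoundsGoal.{u}) (hPS : PhiStepGoal.{u}) (hTail : TailGoal.{u})
    (hAvg : AvgGoal.{u}) (hQ : QLawGoal) (hSplit : SplitGoal.{u}) : WindowGoal.{u} :=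
  Win.window_aux ⟨hPC, hVM, hAM, hUS, hCV, hPhC, hPB, hPS, hTail, hAvg, hQ, hSplit⟩

end Vale.Agent.P078.TypeIII.Reg
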