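import Vale.Agent.P078.TypeIII.Reg.Basic
import Vale.Agent.P078.TypeIII.Reg.Update
import Vale.Agent.P078.TypeIII.Reg.Line
import Vale.Agent.P078.TypeIII.Reg.Tail
import Vale.Agent.P078.TypeIII.Reg.Prob
import Vale.Agent.P078.TypeIII.Reg.Window

/-!
# The regular part: deletion is rare

While the window of a vertex is good, the barrier value of the vertex at the level is a
supermartingale and its drop over one round grows at most geometrically with the slots. The drops
telescope over the rounds, and only a large drop or failed trials lead to a deletion.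
-/

namespace Vale.Agent.P078.TypeIII.Reg

open Vale.Agent.P078.Mss2
open Finset Matrix

universe u

namespace Del

variable {V : Type u} [DecidableEq V] {p : Prm} {x : Matrix V V ℂ} {nb : V → Finset V} {ψ : V}

/-- The drop weights over the remaining slots of a round. -/
noncomputable def gam (κ : ℝ) : ℕ → ℝ
  | 0 => 0
  | i + 1 => 1 + (1 + κ) * gam κ i

lemma gam_nonneg {κ : ℝ} (hκ : 0 ≤ κ) : ∀ i, 0 ≤ gam κ i
  | 0 => le_rfl
  | i + 1 => by have := gam_nonneg hκ i; simp only [gam]; positivity

lemma gam_le {κ : ℝ} (hκ : 0 ≤ κ) : ∀ i : ℕ, gam κ i ≤ i * (1 + κ) ^ i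
  | 0 => by simp [gam]
  | i + 1 => by
    have h := mul_le_mul_of_nonneg_left (gam_le hκ i) (by linarith : 0 ≤ 1 + κ)
    have h1 : (1 : ℝ) ≤ (1 + κ) ^ (i + 1) := one_le_pow₀ (by linarith)
    simp only [gam]
    push_cast
    rw [pow_succ] at h1 ⊢
    nlinarith

/-- The growth per slot. -/
noncomputable def kap (p : Prm) : ℝ := 4 * p.J / p.Q

/-- The weight of the barrier value. -/
noncomputable def wgt (p : Prm) : ℝ := p.S * Real.exp (4 * p.J * p.S / p.Q)

/-- The common factor. -/
noncomputable def coef (p : Prm) : ℝ := 16 / (p.lam * p.Y0 * p.Q)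

lemma kap_nonneg (p : Prm) : 0 ≤ kap p := by unfold kap; positivity

lemma wgt_nonneg (p : Prm) : 0 ≤ wgt p := by unfold wgt; positivity

lemma coef_nonneg (hp : p.Ok) : 0 ≤ coef p := by
  have := Win.Y0_pos hp
  have := hp.lam_pos
  unfold coef
  positivity

lemma gam_le_wgt {i : ℕ} (hi : i ≤ p.S) : gam (kap p) i ≤ wgt p := by
  have hk := kap_nonneg p
  have hi' : (i : ℝ) ≤ p.S := by exact_mod_cast hi
  refine (gam_le hk i).trans (mul_le_mul hi' ?_ (by positivity) (Nat.cast_nonneg _))
  have h1 : (1 + kap p) ^ i ≤ Real.exp (kap p) ^ i :=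
    pow_le_pow_left₀ (by linarith) (by linarith [Real.add_one_le_exp (kap p)]) i
  refine h1.trans ?_
  rw [← Real.exp_nat_mul]
  refine Real.exp_le_exp.2 ?_
  calc (i : ℝ) * kap p ≤ p.S * kap p := mul_le_mul_of_nonneg_right hi' hk
    _ = 4 * p.J * p.S / p.Q := by unfold kap; ring

variable (p x nb ψ) in
/-- `ψ` is undecided and its ball is valid at the level of round `j`. -/
def Live (j : ℕ) (st : St V p.r) : Prop :=
  st ψ = none ∧ ∀ b, Valid (sgn b x) (colOf st) (ball p nb ψ st) (ylev p (p.lev j) st)

variable (p x nb ψ) in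
/-- The barrier value of `ψ` at the level of round `j`. -/
noncomputable def aBar (b : Bool) (j : ℕ) (st : St V p.r) : ℝ :=
  aval (sgn b x) (colOf st) (ball p nb ψ st) ψ (ylev p (p.lev j) st)

variable (p x nb ψ) in
/-- Its drop over the round. -/
noncomputable def dBar (b : Bool) (j : ℕ) (st : St V p.r) : ℝ :=
  dval p (sgn b x) (colOf st) (ball p nb ψ st) ψ (ylev p (p.lev j) st)

open Classical in
variable (p x nb ψ) in
/-- The value of a state with `i` slots left in round `j`. -/
noncomputable def val (i j : ℕ) (st : St V p.r) : ℝ :=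
  if Live p x nb ψ j st then
    coef p * (gam (kap p) i * dBar p x nb ψ true j st + wgt p * aBar p x nb ψ true j st
      + (gam (kap p) i * dBar p x nb ψ false j st + wgt p * aBar p x nb ψ false j st))
  else 0

lemma mem_ball_self (hb : Band x nb) {st : St V p.r} (h : st ψ = none) :
    ψ ∈ ball p nb ψ st := by
  simp [ball, alive, h, mem_nball_self hb p.R ψ]

omit [DecidableEq V] in
lemma ylev_add (L t : ℝ) (st : St V p.r) :
    ylev p (L + t) st = fun u => ylev p L st u + t := by
  funext u
  simp only [ylev]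
  ring

omit [DecidableEq V] in
lemma ylev_eq (L : ℝ) {st st' : St V p.r} {u : V} (h : st u = st' u) :
    ylev p L st u = ylev p L st' u :=
  congrArg (fun o : Option (Option (Fin p.r)) => L + if o.join.isSome then p.shiftS else 0) h

lemma lin_comb {ι : Type*} (s : Finset ι) (q a₁ d₁ a₂ d₂ : ι → ℝ) (A₁ D₁ A₂ D₂ c g E t : ℝ) :
    ∑ i ∈ s, q i * (c * (g * d₁ i + E * a₁ i + (g * d₂ i + E * a₂ i)))
        + t * (c * (g * D₁ + E * A₁ + (g * D₂ + E * A₂)))
      = c * (g * (∑ i ∈ s, q i * d₁ i + t * D₁) + E * (∑ i ∈ s, q i * a₁ i + t * A₁)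
          + (g * (∑ i ∈ s, q i * d₂ i + t * D₂) + E * (∑ i ∈ s, q i * a₂ i + t * A₂))) := by
  have h : ∀ i, q i * (c * (g * d₁ i + E * a₁ i + (g * d₂ i + E * a₂ i)))
      = c * g * (q i * d₁ i) + c * E * (q i * a₁ i)
        + (c * g * (q i * d₂ i) + c * E * (q i * a₂ i)) := fun i => by ring
  simp only [h, sum_add_distrib, ← mul_sum]
  ring

lemma valid_congr' {x : Matrix V V ℂ} {r : ℕ} {col col' : V → Option (Fin r)} {F : Finset V}
    {y y' : V → ℝ} (hc : ∀ v ∈ F, col v = col' v) (hy : ∀ v ∈ F, y v = y' v)
    (h : Valid x col F y) : Valid x col' F y' := fun G hG => by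
  rw [← pCongr x col col' G y y' (fun v hv => hc v (hG hv)) (fun v hv => hy v (hG hv))]
  exact h G hG

variable [NeZero p.r]

lemma live_bounds (hp : p.Ok) (hk : Kern x) (hb : Band x nb) {j : ℕ} {st : St V p.r}
    (h : Live p x nb ψ j st) (b : Bool) :
    0 ≤ dBar p x nb ψ b j st ∧ dBar p x nb ψ b j st ≤ aBar p x nb ψ b j st ∧
      aBar p x nb ψ b j st ≤ p.lev j := by
  have hks := Win.kern_sgn hk b
  have hψ := mem_ball_self hb h.1
  have hg := Win.g_pos hp
  obtain ⟨hv, hlt⟩ := (validStep (sgn b x) _ _ ψ _ hks hψ).1 (h.2 b)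
  have h2 := avalMono (sgn b x) _ (ball p nb ψ st) _ ψ (ylev p (p.lev j) st)
    (fun u => ylev p (p.lev j) st u + p.g) hks hψ subset_rfl hv (fun u _ => by linarith)
  have he : ylev p (p.lev j) st ψ = p.lev j := by simp [ylev, colOf, h.1]
  rw [he] at hlt
  refine ⟨sub_nonneg.2 h2.2, sub_le_self _ h2.1, hlt.le⟩

lemma val_nonneg (hp : p.Ok) (hk : Kern x) (hb : Band x nb) (i j : ℕ) (st : St V p.r) :
    0 ≤ val p x nb ψ i j st := by
  unfold val
  split
  · rename_i h
    obtain ⟨a1, a2, -⟩ := live_bounds hp hk hb h true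
    obtain ⟨b1, b2, -⟩ := live_bounds hp hk hb h false
    exact mul_nonneg (coef_nonneg hp) (add_nonneg
      (add_nonneg (mul_nonneg (gam_nonneg (kap_nonneg p) i) a1)
        (mul_nonneg (wgt_nonneg p) (a1.trans a2)))
      (add_nonneg (mul_nonneg (gam_nonneg (kap_nonneg p) i) b1)
        (mul_nonneg (wgt_nonneg p) (b1.trans b2))))
  · exact le_rfl

omit [NeZero p.r] in
lemma val_congr (hψ : ψ ∈ nball nb p.R ψ) {i j : ℕ} {st st' : St V p.r}
    (h : ∀ u ∈ nball nb p.R ψ, st u = st' u) :
    val p x nb ψ i j st = val p x nb ψ i j st' := by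
  have hF : ball p nb ψ st = ball p nb ψ st' := filter_congr fun u hu => by rw [h u hu]
  have hc : ∀ u ∈ ball p nb ψ st', colOf st u = colOf st' u := fun u hu =>
    congrArg Option.join (h u (mem_of_mem_filter u hu))
  have hy : ∀ L : ℝ, ∀ u ∈ ball p nb ψ st', ylev p L st u = ylev p L st' u := fun L u hu =>
    ylev_eq L (h u (mem_of_mem_filter u hu))
  have hP : ∀ b (G : Finset V), G ⊆ ball p nb ψ st' → ∀ L : ℝ,
      P (sgn b x) (colOf st) G (ylev p L st) = P (sgn b x) (colOf st') G (ylev p L st') :=
    fun b G hG L => pCongr _ _ _ _ _ _ (fun u hu => hc u (hG hu)) fun u hu => hy L u (hG hu)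
  have hy0 : ∀ L : ℝ, ylev p L st ψ = ylev p L st' ψ := fun L => ylev_eq L (h ψ hψ)
  have hA : ∀ b (L : ℝ), aval (sgn b x) (colOf st) (ball p nb ψ st) ψ (ylev p L st)
      = aval (sgn b x) (colOf st') (ball p nb ψ st') ψ (ylev p L st') := fun b L => by
    simp only [aval, hF]
    rw [hy0 L, hP b _ (Finset.Subset.refl _) L, hP b _ (erase_subset ψ _) L]
  have ha : ∀ b, aBar p x nb ψ b j st = aBar p x nb ψ b j st' := fun b => hA b _
  have hd : ∀ b, dBar p x nb ψ b j st = dBar p x nb ψ b j st' := fun b => by
    simp only [dBar, dval, ← ylev_add]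
    rw [hA, hA]
  have hiff : Live p x nb ψ j st ↔ Live p x nb ψ j st' := by
    unfold Live
    rw [h ψ hψ, hF]
    exact and_congr_right fun _ => forall_congr' fun b => forall₂_congr fun G hG => by
      rw [hP b G hG]
  classical
  unfold val
  rw [ha, ha, hd, hd]
  exact if_congr hiff rfl rfl

lemma margin_valid (hp : p.Ok) (hk : Kern x) (hb : Band x nb) {j : ℕ} {st : St V p.r}
    (h : WGood p x nb ψ j st) (b : Bool) :
    Valid (sgn b x) (colOf st) (ball p nb ψ st) (fun u => ylev p (p.lev j) st u - p.g / 8) := by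
  have hR : p.R ≤ p.ρ := by have := hp.R_le; omega
  have hg := Win.g_pos hp
  refine validMono _ _ _ _ _ _ (Win.kern_sgn hk b) (h b)
    (filter_subset_filter _ (nball_mono hb hR ψ)) fun u hu => ?_
  have hd := Win.dist_le_of_mem (ρ := p.ρ) hb (mem_of_mem_filter u hu)
  have hpow : p.base ^ dist' nb p.ρ ψ u ≤ 10 / 9 :=
    (pow_le_pow_right₀ (Win.one_le_base p) (by omega)).trans (Win.base_pow_two_R hp)
  have hphi : phi p nb ψ u ≤ p.g * (1 / 9) :=
    mul_le_mul_of_nonneg_left (by linarith) hg.le
  simp only [ywin]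
  linarith

omit [NeZero p.r] in
lemma ball_col {st : St V p.r} {w : V} (hw : st w = none) (c : Fin p.r) :
    ball p nb ψ (Function.update st w (some (some c))) = ball p nb ψ st := by
  refine filter_congr fun u _ => ?_
  by_cases hu : u = w
  · subst hu; simp [hw]
  · simp [hu]

omit [NeZero p.r] in
lemma ball_del (st : St V p.r) (w : V) :
    ball p nb ψ (Function.update st w (some none)) = (ball p nb ψ st).erase w := by
  ext u
  by_cases hu : u = w
  · subst hu; simp [ball, alive]
  · simp [ball, alive, hu]

omit [NeZero p.r] in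
lemma ylev_col {st : St V p.r} {w : V} (hw : st w = none) (c : Fin p.r) (L : ℝ) :
    ylev p L (Function.update st w (some (some c)))
      = Function.update (ylev p L st) w (ylev p L st w + p.shiftS) := by
  funext u
  by_cases hu : u = w
  · subst hu
    simp [ylev, colOf, hw]
  · rw [Function.update_of_ne hu]
    exact ylev_eq L (Function.update_of_ne hu _ _)

omit [NeZero p.r] in
lemma ylev_del {st : St V p.r} {w : V} (hw : st w = none) (L : ℝ) :
    ylev p L (Function.update st w (some none)) = ylev p L st := by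
  funext u
  simp [ylev, Win.colOf_del hw]

/-- A processed neighbour keeps a low value and validity. -/
lemma child (hp : p.Ok) (hk : Kern x) (hb : Band x nb) {j : ℕ} {st : St V p.r} {w : V}
    (hj : j < p.J) (hwF : w ∈ ball p nb ψ st) (hw : st w = none)
    (hv : ∀ b, Valid (sgn b x) (colOf st) (ball p nb ψ st)
      (fun u => ylev p (p.lev j) st u - p.g / 8))
    {c : Fin p.r} (hc : WeakTest p x nb j st w c) (b : Bool) :
    aval (sgn b x) (Function.update (colOf st) w (some c)) (ball p nb ψ st) w
        (ylev p (p.lev j) st) ≤ 17 * p.Y0 ∧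
      Valid (sgn b x) (Function.update (colOf st) w (some c)) (ball p nb ψ st)
        (Function.update (ylev p (p.lev j) st) w (ylev p (p.lev j) st w + p.shiftS)) := by
  have hks := Win.kern_sgn hk b
  have hg := Win.g_pos hp
  have hY := Win.Y0_pos hp
  set F := ball p nb ψ st with hF
  set col' := Function.update (colOf st) w (some c) with hcol
  set y := ylev p (p.lev j) st with hy
  obtain ⟨hB, ha, -⟩ := hc b
  have hoff : ∀ (S : Finset V), ∀ u ∈ S.erase w, colOf st u = col' u := fun S u hu => by
    simp [col', ne_of_mem_erase hu]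
  have hFv : Valid (sgn b x) col' (F.erase w) (fun u => y u - p.g / 16) :=
    valid_congr' (hoff F) (fun _ _ => rfl)
      (validMono _ _ _ _ _ _ hks (hv b) (erase_subset _ _) fun u _ => by simp only [y]; linarith)
  have hBv : Valid (sgn b x) col' ((ball p nb w st).erase w) y :=
    valid_congr' (hoff _) (fun _ _ => rfl)
      (validMono _ _ _ _ _ _ hks hB (erase_subset _ _) fun u _ => le_rfl)
  have hlev := Win.lev_le hp hj
  have hy200 : ∀ u ∈ F, |y u| ≤ 200 := by
    intro u _
    have h3 := Win.Y0_le_one hp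
    have h4 := Win.lev_nonneg hp j
    rw [abs_le]
    simp only [y, ylev, Prm.shiftS]
    split_ifs <;> constructor <;> linarith
  have htail := tail (sgn b x) nb col' F w y (p.g / 16) 200 p.R hks (Win.band_sgn hb b) hwF
    (by norm_num) (by linarith) (by linarith [Win.g_le_Y0 hp, Win.Y0_le_one hp]) hy200 hFv
  have hwI : w ∈ F ∩ nball nb p.R w := mem_inter.2 ⟨hwF, mem_nball_self hb p.R w⟩
  have hsub : F ∩ nball nb p.R w ⊆ ball p nb w st := fun u hu => by
    simp only [F, ball, alive, mem_inter, mem_filter] at hu ⊢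
    exact ⟨hu.2, hu.1.2⟩
  have hmono := (avalMono (sgn b x) col' _ _ w y y hks hwI hsub hBv (fun _ _ => le_rfl)).2
  have hlY : p.lam * p.Y0 ≤ 1 * p.Y0 := mul_le_mul_of_nonneg_right hp.lam_le hY.le
  have hA : aval (sgn b x) col' F w y ≤ 17 * p.Y0 := by linarith [hp.tail]
  refine ⟨hA, ?_⟩
  set y' := Function.update y w (y w + p.shiftS) with hy'
  have hyy : ∀ u ∈ F.erase w, y u = y' u := fun u hu => by simp [y', ne_of_mem_erase hu]
  have hF0 : Valid (sgn b x) col' (F.erase w) y :=
    validMono _ _ _ _ _ _ hks hFv subset_rfl fun u _ => by linarith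
  refine (validStep (sgn b x) col' F w y' hks hwF).2
    ⟨valid_congr' (fun _ _ => rfl) hyy hF0, ?_⟩
  rw [← avalCongr (sgn b x) col' col' F w y y' hks hwF (hF0 _ subset_rfl).ne' (fun _ _ => rfl) hyy]
  have hyw : y w = p.lev j := by simp [y, ylev, colOf, hw]
  have h4 := Win.lev_nonneg hp j
  simp only [y', Function.update_self, hyw, Prm.shiftS]
  linarith

/-- The mean of a child's value, and its drop against that of the parent. -/
lemma child_mean (hp : p.Ok) (hk : Kern x) (hb : Band x nb) {j : ℕ} {st : St V p.r} {w : V}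
    (hj : j < p.J) (hwF : w ∈ ball p nb ψ st) (hw : st w = none) (hψ : st ψ = none) (hne : w ≠ ψ)
    (hv : ∀ b, Valid (sgn b x) (colOf st) (ball p nb ψ st)
      (fun u => ylev p (p.lev j) st u - p.g / 8))
    {q : Fin p.r → ℝ} (hq0 : ∀ c, 0 ≤ q c) (hq2 : ∀ c, q c ≤ 2 / (p.r : ℝ))
    (hq1 : ∑ c, q c ≤ 1) (hweak : ∀ c, q c ≠ 0 → WeakTest p x nb j st w c) (b : Bool) :
    ∑ c, q c * aBar p x nb ψ b j (Function.update st w (some (some c)))
        + (1 - ∑ c, q c) * aBar p x nb ψ b j (Function.update st w (some none))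
      ≤ aBar p x nb ψ b j st ∧
    ∑ c, q c * dBar p x nb ψ b j (Function.update st w (some (some c)))
        + (1 - ∑ c, q c) * dBar p x nb ψ b j (Function.update st w (some none))
      ≤ dBar p x nb ψ b j st
        + (aval (sgn b x) (colOf st) (ball p nb ψ st) ψ (fun u => ylev p (p.lev j) st u + p.g)
          - aval (sgn b x) (colOf st) ((ball p nb ψ st).erase w) ψ
              (fun u => ylev p (p.lev j) st u + p.g)) := by
  have hks := Win.kern_sgn hk b
  have hg := Win.g_pos hp
  have hψF := mem_ball_self (p := p) hb hψ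
  set F := ball p nb ψ st with hF
  set col := colOf st with hcol
  set y := ylev p (p.lev j) st with hy
  set y' := Function.update y w (y w + p.shiftS) with hy'
  have hFv : Valid (sgn b x) col F y :=
    validMono _ _ _ _ _ _ hks (hv b) subset_rfl fun u _ => by simp only [y]; linarith
  have hFψ : Valid (sgn b x) col (F.erase ψ) y :=
    validMono _ _ _ _ _ _ hks hFv (erase_subset _ _) fun u _ => le_rfl
  have hwψ : w ∈ F.erase ψ := mem_erase.2 ⟨hne, hwF⟩
  have hψw : ψ ∈ F.erase w := mem_erase.2 ⟨hne.symm, hψF⟩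
  have hyw : y w = p.lev j := by simp [y, ylev, colOf, hw]
  have hcolw : col w = none := by simp [col, colOf, hw]
  have hy0 : 0 ≤ aval (sgn b x) col (F.erase ψ) w y :=
    (avalMono (sgn b x) col _ _ w y y hks hwψ subset_rfl
      (validMono _ _ _ _ _ _ hks hFψ (erase_subset _ _) fun u _ => le_rfl) fun _ _ => le_rfl).1
  have hY := Win.Y0_pos hp
  have hlev := Win.lev_le hp hj
  have hstep : ∀ c, q c ≠ 0 → 2 * (y w - aval (sgn b x) col (F.erase ψ) w y)
      ≤ y w + p.shiftS - aval (sgn b x) (Function.update col w (some c)) (F.erase ψ) w y := by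
    intro c hc
    have h1 := (child hp hk hb hj hwF hw hv (hweak c hc) b).1
    have hw' : Valid (sgn b x) (Function.update col w (some c)) (F.erase w) y :=
      valid_congr' (fun u hu => by simp [ne_of_mem_erase hu]) (fun _ _ => rfl)
        (validMono _ _ _ _ _ _ hks hFv (erase_subset _ _) fun u _ => le_rfl)
    have h2 := (avalMono (sgn b x) (Function.update col w (some c)) _ F w y y hks hwψ
      (erase_subset _ _) hw' fun _ _ => le_rfl).2
    simp only [Prm.shiftS, hyw] at *
    linarith
  have hmean := stepAvg (sgn b x) col F ψ w y p.shiftS q hks hψF hwF hne hcolw hFv hq0 hq2 hq1 hstep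
  have ea : ∀ c, aBar p x nb ψ b j (Function.update st w (some (some c)))
      = aval (sgn b x) (Function.update col w (some c)) F ψ y' := fun c => by
    simp only [aBar, ball_col hw, Win.colOf_upd, ylev_col hw, F, col, y, y']
  have ea' : aBar p x nb ψ b j (Function.update st w (some none))
      = aval (sgn b x) col (F.erase w) ψ y := by
    simp only [aBar, ball_del, Win.colOf_del hw, ylev_del hw, F, col, y]
  have ed : ∀ c, dBar p x nb ψ b j (Function.update st w (some (some c)))
      = aval (sgn b x) (Function.update col w (some c)) F ψ y'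
        - aval (sgn b x) (Function.update col w (some c)) F ψ (fun u => y' u + p.g) := fun c => by
    simp only [dBar, dval, ball_col hw, Win.colOf_upd, ylev_col hw, F, col, y, y']
  have ed' : dBar p x nb ψ b j (Function.update st w (some none))
      = aval (sgn b x) col (F.erase w) ψ y
        - aval (sgn b x) col (F.erase w) ψ (fun u => y u + p.g) := by
    simp only [dBar, dval, ball_del, Win.colOf_del hw, ylev_del hw, F, col, y]
  refine ⟨by simp only [ea, ea']; exact hmean, ?_⟩
  set low := aval (sgn b x) col (F.erase w) ψ (fun u => y u + p.g) with hlow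
  have hterm : ∀ c, q c * dBar p x nb ψ b j (Function.update st w (some (some c)))
      ≤ q c * aval (sgn b x) (Function.update col w (some c)) F ψ y' - q c * low := by
    intro c
    by_cases hc : q c = 0
    · simp [hc]
    rw [ed, ← mul_sub]
    refine mul_le_mul_of_nonneg_left (sub_le_sub_left ?_ _) (hq0 c)
    have hval := (child hp hk hb hj hwF hw hv (hweak c hc) b).2
    have hFψ' : Valid (sgn b x) (Function.update col w (some c)) (F.erase ψ)
        (fun u => y' u + p.g) :=
      validMono _ _ _ _ _ _ hks hval (erase_subset _ _) fun u _ => by linarith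
    have h1 := (avalMono (sgn b x) (Function.update col w (some c)) (F.erase w) F ψ
      (fun u => y' u + p.g) (fun u => y' u + p.g) hks hψw (erase_subset _ _) hFψ'
      fun _ _ => le_rfl).2
    refine le_trans (le_of_eq ?_) h1
    refine avalCongr (sgn b x) col _ (F.erase w) ψ _ _ hks hψw ?_ (fun u hu => ?_) (fun u hu => ?_)
    · exact (validMono _ _ ((F.erase w).erase ψ) _ y (fun u => y u + p.g) hks hFv
        ((erase_subset _ _).trans (erase_subset _ _)) (fun u _ => by linarith) _ subset_rfl).ne'
    · simp [ne_of_mem_erase hu]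
    · simp [y', ne_of_mem_erase (mem_of_mem_erase hu)]
  calc ∑ c, q c * dBar p x nb ψ b j (Function.update st w (some (some c)))
        + (1 - ∑ c, q c) * dBar p x nb ψ b j (Function.update st w (some none))
      ≤ ∑ c, (q c * aval (sgn b x) (Function.update col w (some c)) F ψ y' - q c * low)
        + (1 - ∑ c, q c) * (aval (sgn b x) col (F.erase w) ψ y - low) := by
        rw [ed']
        gcongr with c _
        exact hterm c
    _ = (∑ c, q c * aval (sgn b x) (Function.update col w (some c)) F ψ y'
          + (1 - ∑ c, q c) * aval (sgn b x) col (F.erase w) ψ y) - low := by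
        rw [sum_sub_distrib, ← sum_mul]
        ring
    _ ≤ aval (sgn b x) col F ψ y - low := sub_le_sub_right hmean _
    _ = _ := by
        simp only [dBar, dval, F, col, y, low]
        ring

lemma live_col (hp : p.Ok) (hk : Kern x) (hb : Band x nb) {j : ℕ} {st : St V p.r} {w : V}
    (hj : j < p.J) (hwF : w ∈ ball p nb ψ st) (hw : st w = none) (hψ : st ψ = none) (hne : w ≠ ψ)
    (hv : ∀ b, Valid (sgn b x) (colOf st) (ball p nb ψ st)
      (fun u => ylev p (p.lev j) st u - p.g / 8))
    {c : Fin p.r} (hc : WeakTest p x nb j st w c) :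
    Live p x nb ψ j (Function.update st w (some (some c))) :=
  ⟨by simp [hne.symm, hψ], fun b => by
    rw [ball_col hw, Win.colOf_upd, ylev_col hw]
    exact (child hp hk hb hj hwF hw hv hc b).2⟩

lemma live_del (hp : p.Ok) (hk : Kern x) {j : ℕ} {st : St V p.r} {w : V}
    (hw : st w = none) (hψ : st ψ = none) (hne : w ≠ ψ)
    (hv : ∀ b, Valid (sgn b x) (colOf st) (ball p nb ψ st)
      (fun u => ylev p (p.lev j) st u - p.g / 8)) :
    Live p x nb ψ j (Function.update st w (some none)) :=
  ⟨by simp [hne.symm, hψ], fun b => by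
    rw [ball_del, Win.colOf_del hw, ylev_del hw]
    exact validMono _ _ _ _ _ _ (Win.kern_sgn hk b) (hv b) (erase_subset _ _)
      fun u _ => by linarith [Win.g_pos hp]⟩

/-- Every state after one slot is still live as long as `ψ` is undecided. -/
lemma live_step (hp : p.Ok) (hk : Kern x) (hb : Band x nb) {O : Oracle V p}
    (hO : Sound p x nb O) {j : ℕ} {st : St V p.r} (hj : j < p.J) (hψ : st ψ = none)
    (hv : ∀ b, Valid (sgn b x) (colOf st) (ball p nb ψ st)
      (fun u => ylev p (p.lev j) st u - p.g / 8))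
    (ω : V → Option (Seed p)) (hend : step p nb O j st ω ψ = none) :
    Live p x nb ψ j (step p nb O j st ω) := by
  set st' := step p nb O j st ω with hst'
  have hψn := mem_nball_self hb p.R ψ
  by_cases hch : ∃ w ∈ nball nb p.R ψ, st' w ≠ st w
  · obtain ⟨w, hwB, hw⟩ := hch
    have hact : st w = none ∧ acts p nb ω w = true := by
      by_contra h
      exact hw (by simp only [st', step, if_neg h])
    have hne : w ≠ ψ := fun e => hw (e ▸ hend.trans hψ.symm)
    have honly : ∀ u ∈ nball nb p.R ψ, st' u = Function.update st w (st' w) u := by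
      intro u hu
      by_cases e : u = w
      · subst e; simp
      rw [Function.update_of_ne e]
      by_contra hu'
      have hact' : st u = none ∧ acts p nb ω u = true := by
        by_contra h
        exact hu' (by simp only [st', step, if_neg h])
      have h1 := hact.2
      have h2 := hact'.2
      simp only [acts, Bool.and_eq_true, decide_eq_true_eq, filter_eq_empty_iff] at h1 h2
      refine h1.2 (mem_erase.2 ⟨e, ?_⟩) h2.1
      refine nball_mono hb (show p.R + p.R ≤ 2 * p.ρ by have := hp.R_le; omega) w ?_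
      exact nball_trans (nball_symm hb hwB) hu
    have hwF : w ∈ ball p nb ψ st := mem_filter.2 ⟨hwB, by simp [hact.1]⟩
    have hval : Live p x nb ψ j (Function.update st w (st' w)) := by
      have e : st' w = choose p (O j st w) (ω w) := by simp only [st', step, if_pos hact]
      rcases hσ : ω w with _ | σ
      · rw [e, hσ]
        exact live_del hp hk hact.1 hψ hne hv
      · rcases hf : (List.ofFn σ.2).find? (fun c => decide (c ∈ O j st w)) with _ | c
        · rw [e, hσ, choose, hf]
          exact live_del hp hk hact.1 hψ hne hv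
        · rw [e, hσ, choose, hf]
          exact live_col hp hk hb hj hwF hact.1 hψ hne hv
            (hO.weak j st w hact.1 c (by simpa using List.find?_some hf))
    refine ⟨hend, fun b => ?_⟩
    have hF : ball p nb ψ st' = ball p nb ψ (Function.update st w (st' w)) :=
      filter_congr fun u hu => by rw [honly u hu]
    rw [hF]
    refine valid_congr' (fun u hu => congrArg Option.join (honly u (mem_of_mem_filter u hu)).symm)
      (fun u hu => ?_) (hval.2 b)
    exact ylev_eq _ (honly u (mem_of_mem_filter u hu)).symm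
  · push Not at hch
    refine ⟨hend, fun b => ?_⟩
    have hF : ball p nb ψ st' = ball p nb ψ st := filter_congr fun u hu => by rw [hch u hu]
    rw [hF]
    refine valid_congr' (fun u hu => congrArg Option.join (hch u (mem_of_mem_filter u hu)).symm)
      (fun u hu => ?_)
      (validMono _ _ _ _ _ (ylev p (p.lev j) st) (Win.kern_sgn hk b) (hv b) subset_rfl
        fun u _ => by linarith [Win.g_pos hp])
    exact ylev_eq _ (hch u (mem_of_mem_filter u hu)).symm

/-- The value at the start of the next round is at most the value at the end of this one. -/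
lemma val_round (hp : p.Ok) (hk : Kern x) (hb : Band x nb) {j : ℕ} {st : St V p.r}
    (h : st ψ = none → Live p x nb ψ j st) :
    val p x nb ψ p.S (j + 1) st ≤ val p x nb ψ 0 j st := by
  by_cases h1 : Live p x nb ψ (j + 1) st
  swap
  · have e : val p x nb ψ p.S (j + 1) st = 0 := if_neg h1
    rw [e]
    exact val_nonneg hp hk hb _ _ _
  have h0 := h h1.1
  have key : ∀ b, gam (kap p) p.S * dBar p x nb ψ b (j + 1) st + wgt p * aBar p x nb ψ b (j + 1) st
      ≤ gam (kap p) 0 * dBar p x nb ψ b j st + wgt p * aBar p x nb ψ b j st := by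
    intro b
    have hks := Win.kern_sgn hk b
    have hψF := mem_ball_self (p := p) hb h0.1
    have hg := Win.g_pos hp
    have hval : Valid (sgn b x) (colOf st) ((ball p nb ψ st).erase ψ) (ylev p (p.lev j) st) :=
      validMono _ _ _ _ _ _ hks (h0.2 b) (erase_subset _ _) fun u _ => le_rfl
    have hc := convex (sgn b x) (colOf st) (ball p nb ψ st) ψ (ylev p (p.lev j) st) 0 p.g
      (2 * p.g) hks hψF hval le_rfl hg.le (by linarith)
    simp only [add_zero] at hc
    have e1 : aBar p x nb ψ b (j + 1) st = aval (sgn b x) (colOf st) (ball p nb ψ st) ψ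
        (fun u => ylev p (p.lev j) st u + p.g) := by
      rw [aBar, Win.lev_succ, ylev_add]
    have e2 : dBar p x nb ψ b (j + 1) st
        = aval (sgn b x) (colOf st) (ball p nb ψ st) ψ (fun u => ylev p (p.lev j) st u + p.g)
          - aval (sgn b x) (colOf st) (ball p nb ψ st) ψ
            (fun u => ylev p (p.lev j) st u + 2 * p.g) := by
      have hh : (fun u => ylev p (p.lev j) st u + p.g + p.g)
          = fun u => ylev p (p.lev j) st u + 2 * p.g := by
        funext u; ring
      simp only [dBar, dval, Win.lev_succ, ylev_add]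
      rw [hh]
    have hd1 : 0 ≤ dBar p x nb ψ b (j + 1) st := (live_bounds hp hk hb h1 b).1
    have hdj : dBar p x nb ψ b (j + 1) st
        ≤ aBar p x nb ψ b j st - aBar p x nb ψ b (j + 1) st := by
      refine le_of_mul_le_mul_left ?_ hg
      rw [e2, e1, aBar]
      linarith
    have hE := mul_le_mul_of_nonneg_right (gam_le_wgt (le_refl p.S)) hd1
    have hE2 := mul_le_mul_of_nonneg_left hdj (wgt_nonneg p)
    simp only [gam, zero_mul, zero_add]
    linarith
  unfold val
  rw [if_pos h1, if_pos h0]
  exact mul_le_mul_of_nonneg_left (add_le_add (key true) (key false)) (coef_nonneg hp)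

variable (p x nb ψ) in
/-- The deletion indicator plus the value. -/
noncomputable def fval (i j : ℕ) (s : St V p.r) : ℝ :=
  (if s ψ = some none then 1 else 0) + val p x nb ψ i j s

variable (p x nb ψ) in
/-- The drop caused by removing a neighbour. -/
noncomputable def rem (j : ℕ) (st : St V p.r) (b : Bool) (w : V) : ℝ :=
  aval (sgn b x) (colOf st) (ball p nb ψ st) ψ (fun u => ylev p (p.lev j) st u + p.g)
    - aval (sgn b x) (colOf st) ((ball p nb ψ st).erase w) ψ
        (fun u => ylev p (p.lev j) st u + p.g)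

lemma slot_self (hp : p.Ok) (hk : Kern x) (hb : Band x nb) {O : Oracle V p} (hO : Sound p x nb O)
    {j : ℕ} {st : St V p.r} (hj : j < p.J) (hψ : st ψ = none)
    (hv : ∀ b, Valid (sgn b x) (colOf st) (ball p nb ψ st)
      (fun u => ylev p (p.lev j) st u - p.g / 8))
    (hlive : Live p x nb ψ j st) (i : ℕ) :
    outAvg p (fval p x nb ψ i j) st ψ (O j st ψ) ≤ (1 / 2 : ℝ) ^ p.K
      + 16 * (dBar p x nb ψ true j st + dBar p x nb ψ false j st) / (p.lam * p.Y0) := by
  have hr : 1 ≤ p.r := by have := hp.r_ge; omega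
  have hlY : 0 < p.lam * p.Y0 := mul_pos hp.lam_pos (Win.Y0_pos hp)
  have ht := (live_bounds hp hk hb hlive true).1
  have hf := (live_bounds hp hk hb hlive false).1
  have hfr : 0 ≤ 16 * (dBar p x nb ψ true j st + dBar p x nb ψ false j st) / (p.lam * p.Y0) :=
    div_nonneg (mul_nonneg (by norm_num) (add_nonneg ht hf)) hlY.le
  obtain ⟨hq0, -, -, -, hqK⟩ := qLaw' p hr (O j st ψ)
  have hz : ∀ o, val p x nb ψ i j (Function.update st ψ (some o)) = 0 := fun o =>
    if_neg (fun h => by simpa using h.1)
  have hout : outAvg p (fval p x nb ψ i j) st ψ (O j st ψ)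
      = 1 - ∑ c, qLaw p (O j st ψ) c := by
    simp [outAvg, fval, hz]
  rw [hout]
  by_cases hne : (O j st ψ).Nonempty
  · exact (hqK hne (hO.large j st ψ hne)).trans (le_add_of_nonneg_right hfr)
  · have hm : ¬ Margin p x nb j st ψ := fun h => hne (hO.margin j st ψ hj hψ h)
    obtain ⟨b, hb'⟩ := not_forall.1 hm
    have hbig : p.lam * p.Y0 / 16 < dBar p x nb ψ b j st :=
      not_le.1 fun h => hb' ⟨hv b, h⟩
    have hsum : dBar p x nb ψ b j st
        ≤ dBar p x nb ψ true j st + dBar p x nb ψ false j st := by
      cases b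
      · exact le_add_of_nonneg_left ht
      · exact le_add_of_nonneg_right hf
    have h16 : 1 ≤ 16 * (dBar p x nb ψ true j st + dBar p x nb ψ false j st)
        / (p.lam * p.Y0) := by
      rw [le_div_iff₀ hlY]
      linarith
    have hK : 0 ≤ (1 / 2 : ℝ) ^ p.K := pow_nonneg (by norm_num) _
    have hs : 0 ≤ ∑ c, qLaw p (O j st ψ) c := sum_nonneg fun c _ => hq0 c
    linarith

omit [NeZero p.r] in
lemma fval_col {st : St V p.r} {w : V} (hψ : st ψ = none) (hne : w ≠ ψ) (i j : ℕ) (o : Option (Fin p.r))
    (hl : Live p x nb ψ j (Function.update st w (some o))) :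
    fval p x nb ψ i j (Function.update st w (some o)) = coef p *
      (gam (kap p) i * dBar p x nb ψ true j (Function.update st w (some o))
        + wgt p * aBar p x nb ψ true j (Function.update st w (some o))
        + (gam (kap p) i * dBar p x nb ψ false j (Function.update st w (some o))
        + wgt p * aBar p x nb ψ false j (Function.update st w (some o)))) := by
  unfold fval val
  rw [if_pos hl, Function.update_of_ne hne.symm, hψ, if_neg (by simp), zero_add]

lemma slot_other {st : St V p.r} {w : V} (hp : p.Ok) (hk : Kern x) (hb : Band x nb) {O : Oracle V p}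
    (hO : Sound p x nb O) {j : ℕ} (hj : j < p.J) (hwF : w ∈ ball p nb ψ st) (hw : st w = none)
    (hψ : st ψ = none) (hne : w ≠ ψ)
    (hv : ∀ b, Valid (sgn b x) (colOf st) (ball p nb ψ st)
      (fun u => ylev p (p.lev j) st u - p.g / 8))
    (hlive : Live p x nb ψ j st) (i : ℕ) :
    outAvg p (fval p x nb ψ i j) st w (O j st w) ≤ val p x nb ψ i j st
      + coef p * gam (kap p) i * (rem p x nb ψ j st true w + rem p x nb ψ j st false w) := by
  have hr : 1 ≤ p.r := by have := hp.r_ge; omega
  obtain ⟨hq0, hqm, hq1, hq2, -⟩ := qLaw' p hr (O j st w)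
  have hweak : ∀ c, qLaw p (O j st w) c ≠ 0 → WeakTest p x nb j st w c := fun c hc =>
    hO.weak j st w hw c (hqm c hc)
  have hmean := fun b => child_mean hp hk hb hj hwF hw hψ hne hv hq0 (hq2 (hO.large j st w))
    hq1 hweak b
  have hcol : ∀ c, qLaw p (O j st w) c * fval p x nb ψ i j (Function.update st w (some (some c)))
      = qLaw p (O j st w) c * (coef p *
        (gam (kap p) i * dBar p x nb ψ true j (Function.update st w (some (some c)))
          + wgt p * aBar p x nb ψ true j (Function.update st w (some (some c)))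
          + (gam (kap p) i * dBar p x nb ψ false j (Function.update st w (some (some c)))
          + wgt p * aBar p x nb ψ false j (Function.update st w (some (some c)))))) := by
    intro c
    by_cases hc : qLaw p (O j st w) c = 0
    · rw [hc, zero_mul, zero_mul]
    · rw [fval_col hψ hne i j _ (live_col hp hk hb hj hwF hw hψ hne hv (hweak c hc))]
  have hdel := fval_col hψ hne i j none (live_del hp hk hw hψ hne hv)
  obtain ⟨hat, hdtm⟩ := hmean true
  obtain ⟨haf, hdfm⟩ := hmean false
  have hg0 := gam_nonneg (kap_nonneg p) i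
  have h1 := mul_le_mul_of_nonneg_left hdtm hg0
  have h2 := mul_le_mul_of_nonneg_left hdfm hg0
  have h3 := mul_le_mul_of_nonneg_left hat (wgt_nonneg p)
  have h4 := mul_le_mul_of_nonneg_left haf (wgt_nonneg p)
  have h5 := mul_le_mul_of_nonneg_left (add_le_add (add_le_add h1 h3) (add_le_add h2 h4))
    (coef_nonneg hp)
  refine le_trans (le_of_eq ?_) (h5.trans (le_of_eq ?_))
  · rw [outAvg, hdel, Finset.sum_congr rfl fun c _ => hcol c]
    exact lin_comb univ _ _ _ _ _ _ _ _ _ _ _ _ _
  · have hV : val p x nb ψ i j st = coef p * (gam (kap p) i * dBar p x nb ψ true j st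
        + wgt p * aBar p x nb ψ true j st + (gam (kap p) i * dBar p x nb ψ false j st
        + wgt p * aBar p x nb ψ false j st)) := if_pos hlive
    rw [hV]
    simp only [rem]
    ring

/-- The mean of the deletion and of the value after one slot. -/
lemma slot (hp : p.Ok) (hk : Kern x) (hb : Band x nb) {O : Oracle V p} (hO : Sound p x nb O)
    (U : Finset V) {j : ℕ} {st : St V p.r} (hj : j < p.J) (hψ : st ψ = none)
    (hg : WGood p x nb ψ j st) (i : ℕ) :
    avgOn p U (fun ω => (if step p nb O j st ω ψ = some none then 1 else 0)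
        + val p x nb ψ i j (step p nb O j st ω))
      ≤ val p x nb ψ (i + 1) j st + (1 / 2 : ℝ) ^ p.K / p.Q := by
  classical
  have hr : 1 ≤ p.r := by have := hp.r_ge; omega
  have hQ := hp.Q_pos
  have hgp := Win.g_pos hp
  have hY := Win.Y0_pos hp
  have hl := hp.lam_pos
  set W := nball nb p.R ψ with hW
  have hψW : ψ ∈ W := mem_nball_self hb p.R ψ
  have hv := margin_valid hp hk hb hg
  have hlive : Live p x nb ψ j st := ⟨hψ, fun b =>
    validMono _ _ _ _ _ _ (Win.kern_sgn hk b) (hv b) subset_rfl fun u _ => by linarith⟩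
  set f : St V p.r → ℝ := fval p x nb ψ i j with hf
  obtain ⟨pr, hpr, hpr1, hsplit⟩ := split p hQ hr nb O U W j st f (fun u hu w hw => by
      refine nball_mono hb (show p.R + p.R ≤ 2 * p.ρ by have := hp.R_le; omega) w ?_
      exact nball_trans (nball_symm hb hw) hu)
    (fun s s' h => by simp only [f, fval, h ψ hψW, val_congr hψW h])
  change avgOn p U (fun ω => f (step p nb O j st ω)) ≤ _
  rw [hsplit]
  set V0 := val p x nb ψ i j st with hV0
  have hfst : f st = V0 := by simp [f, fval, hψ, V0]
  set dt := dBar p x nb ψ true j st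
  set df := dBar p x nb ψ false j st
  obtain ⟨hdt0, -, -⟩ := live_bounds hp hk hb hlive true
  obtain ⟨hdf0, -, -⟩ := live_bounds hp hk hb hlive false
  set dropv : Bool → V → ℝ := rem p x nb ψ j st with hdrop
  set S0 := W.filter (fun w => w ≠ ψ ∧ st w = none) with hS0
  set fail := (1 / 2 : ℝ) ^ p.K + 16 * (dt + df) / (p.lam * p.Y0) with hfail
  have hfail0 : 0 ≤ fail := add_nonneg (by positivity)
    (div_nonneg (mul_nonneg (by norm_num) (add_nonneg hdt0 hdf0)) (mul_pos hl hY).le)
  set cg := coef p * gam (kap p) i with hcg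
  have hcg0 : 0 ≤ cg := mul_nonneg (coef_nonneg hp) (gam_nonneg (kap_nonneg p) i)
  have hone : ∀ w ∈ W, (if st w = none then outAvg p f st w (O j st w) else f st)
      ≤ V0 + ((if w = ψ then fail else 0)
        + (if w ∈ S0 then cg * (dropv true w + dropv false w) else 0)) := by
    intro w hwW
    by_cases hw : st w = none
    swap
    · rw [if_neg hw, hfst]
      have h1 : w ≠ ψ := fun e => hw (e ▸ hψ)
      have h2 : w ∉ S0 := fun h => hw (mem_filter.1 h).2.2
      simp [h1, h2]
    rw [if_pos hw]
    by_cases hwψ : w = ψ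
    · have h2 : w ∉ S0 := fun h => (mem_filter.1 h).2.1 hwψ
      rw [if_pos hwψ, if_neg h2, add_zero]
      subst hwψ
      exact (slot_self hp hk hb hO hj hψ hv hlive i).trans
        (le_add_of_nonneg_left (val_nonneg hp hk hb i j st))
    · have hwF : w ∈ ball p nb ψ st := mem_filter.2 ⟨hwW, by simp [hw]⟩
      have hwS : w ∈ S0 := mem_filter.2 ⟨hwW, hwψ, hw⟩
      rw [if_neg hwψ, if_pos hwS, zero_add]
      exact slot_other hp hk hb hO hj hwF hw hψ hwψ hv hlive i
  have hsum : ∑ w ∈ W, pr w * (if st w = none then outAvg p f st w (O j st w) else f st)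
      ≤ (∑ w ∈ W, pr w) * V0 + (1 / p.Q * fail
        + 1 / p.Q * (cg * (∑ w ∈ S0, (dropv true w + dropv false w)))) := by
    refine (sum_le_sum fun w hw => mul_le_mul_of_nonneg_left (hone w hw) (hpr w).1).trans ?_
    simp only [mul_add, sum_add_distrib, ← sum_mul, mul_ite, mul_zero]
    gcongr
    · rw [sum_ite_eq', if_pos hψW]
      exact mul_le_mul_of_nonneg_right (hpr ψ).2 hfail0
    · rw [← sum_filter, show W.filter (fun w => w ∈ S0) = S0 by
        ext w; simp only [mem_filter, S0]; tauto]
      rw [← mul_add, ← mul_add, ← sum_add_distrib, mul_sum, mul_sum]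
      refine sum_le_sum fun w hw => ?_
      have hd : ∀ b, 0 ≤ dropv b w := fun b => by
        have hwne := (mem_filter.1 hw).2.1
        refine sub_nonneg.2 (avalMono (sgn b x) (colOf st) _ _ ψ _ _ (Win.kern_sgn hk b)
          (mem_erase.2 ⟨hwne.symm, mem_ball_self hb hψ⟩) (erase_subset _ _)
          (validMono _ _ _ _ _ _ (Win.kern_sgn hk b) (hlive.2 b) (erase_subset _ _)
            fun u _ => by linarith) fun u _ => le_rfl).2
      have := mul_le_mul_of_nonneg_right (hpr w).2
        (mul_nonneg hcg0 (add_nonneg (hd true) (hd false)))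
      linarith
  have hJ := Win.J_ge' hp
  have hlev := Win.lev_le hp hj
  have hg10 := Win.g_le_Y0 hp
  have htot : ∀ b, ∑ w ∈ S0, dropv b w ≤ 4 * p.J * dBar p x nb ψ b j st := by
    intro b
    have hks := Win.kern_sgn hk b
    have hsub : S0 ⊆ (ball p nb ψ st).erase ψ := fun w hw => by
      obtain ⟨hwW, hne, hnone⟩ := mem_filter.1 hw
      exact mem_erase.2 ⟨hne, mem_filter.2 ⟨hwW, by simp [hnone]⟩⟩
    have h := Reg.drop (sgn b x) (colOf st) (ball p nb ψ st) S0 ψ
      (fun u => ylev p (p.lev j) st u + p.g) p.g (4 * p.Y0) hks (mem_ball_self hb hψ) hsub hgp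
      (by linarith) (fun w hw => by
        have hnone := (mem_filter.1 hw).2.2
        simp only [ylev, colOf, hnone, Option.join, Option.bind_none, Option.isSome_none,
          Bool.false_eq_true, if_false]
        linarith)
      (validMono _ _ _ _ _ _ hks (hlive.2 b) (erase_subset _ _) fun u _ => by linarith)
    simp only [add_sub_cancel_right] at h
    simp only [dropv, rem]
    refine h.trans (le_of_eq ?_)
    have e : 4 * p.Y0 / p.g = 4 * p.J := by
      rw [Prm.g]
      field_simp
    rw [e]
    rfl
  have hQ0 : (0 : ℝ) < p.Q := by exact_mod_cast hQ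
  have hfin : 1 / (p.Q : ℝ) * (cg * (∑ w ∈ S0, (dropv true w + dropv false w)))
      ≤ coef p * gam (kap p) i * kap p * (dt + df) := by
    have h := add_le_add (htot true) (htot false)
    rw [← sum_add_distrib, ← mul_add] at h
    refine le_trans (mul_le_mul_of_nonneg_left (mul_le_mul_of_nonneg_left h hcg0)
      (by positivity)) (le_of_eq ?_)
    rw [hcg, kap]
    field_simp
    rfl
  have hV : val p x nb ψ (i + 1) j st
      = V0 + coef p * (1 + gam (kap p) i * kap p) * (dt + df) := by
    simp only [V0, val, if_pos hlive, gam, dt, df]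
    ring
  have efail : 1 / (p.Q : ℝ) * fail = (1 / 2 : ℝ) ^ p.K / p.Q + coef p * (dt + df) := by
    simp only [fail, coef]
    field_simp
  rw [hfst, hV]
  rw [hfst] at hsum
  linarith

lemma pDel_le (hp : p.Ok) (hk : Kern x) (hb : Band x nb) {O : Oracle V p} (hO : Sound p x nb O)
    (U : Finset V) :
    ∀ (k t : ℕ) (st : St V p.r), t + k ≤ p.T →
      pDel p x nb O U ψ k t st
        ≤ val p x nb ψ (p.S - t % p.S) (t / p.S) st + k * ((1 / 2 : ℝ) ^ p.K / p.Q) := by
  intro k
  induction k with
  | zero =>
    intro t st _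
    simp only [pDel, Nat.cast_zero, zero_mul, add_zero]
    exact val_nonneg hp hk hb _ _ _
  | succ k ih =>
    intro t st ht
    have hr : 1 ≤ p.r := by have := hp.r_ge; omega
    have hS := hp.S_pos
    obtain ⟨hmono, hadd, -, hconst⟩ := avg p hp.Q_pos hr U
    set ε := (1 / 2 : ℝ) ^ p.K / p.Q with hε
    have hε0 : 0 ≤ ε := by positivity
    rw [pDel]
    split
    swap
    · have := val_nonneg hp hk hb (ψ := ψ) (p.S - t % p.S) (t / p.S) st
      positivity
    rename_i h
    have hj : t / p.S < p.J := by
      rw [Nat.div_lt_iff_lt_mul hS]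
      simp only [Prm.T] at ht
      omega
    have hlt := Nat.mod_lt t hS
    set i := p.S - t % p.S - 1 with hi
    have hi1 : p.S - t % p.S = i + 1 := by omega
    have hnext : ∀ ω, val p x nb ψ (p.S - (t + 1) % p.S) ((t + 1) / p.S)
          (step p nb O (t / p.S) st ω)
        ≤ val p x nb ψ i (t / p.S) (step p nb O (t / p.S) st ω) := by
      intro ω
      have hdm := Nat.div_add_mod t p.S
      rcases Nat.lt_or_ge (t % p.S + 1) p.S with hlt' | hge
      · have he := (Nat.div_mod_unique (d := t / p.S) (a := t + 1) (c := t % p.S + 1) hS).2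
          ⟨by omega, hlt'⟩
        rw [he.1, he.2, show p.S - (t % p.S + 1) = i by omega]
      · have hms : p.S * (t / p.S + 1) = p.S * (t / p.S) + p.S := by ring
        have he := (Nat.div_mod_unique (d := t / p.S + 1) (a := t + 1) (c := 0) hS).2
          ⟨by omega, hS⟩
        rw [he.1, he.2, Nat.sub_zero, show i = 0 by omega]
        exact val_round hp hk hb fun hend =>
          live_step hp hk hb hO hj h.1 (margin_valid hp hk hb h.2) ω hend
    calc avgOn p U (fun ω => (if step p nb O (t / p.S) st ω ψ = some none then 1 else 0)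
          + pDel p x nb O U ψ k (t + 1) (step p nb O (t / p.S) st ω))
        ≤ avgOn p U (fun ω => ((if step p nb O (t / p.S) st ω ψ = some none then 1 else 0)
            + val p x nb ψ i (t / p.S) (step p nb O (t / p.S) st ω)) + (k : ℝ) * ε) := by
          refine hmono _ _ fun ω => ?_
          have := ih (t + 1) (step p nb O (t / p.S) st ω) (by omega)
          linarith [hnext ω]
      _ = avgOn p U (fun ω => (if step p nb O (t / p.S) st ω ψ = some none then 1 else 0)
            + val p x nb ψ i (t / p.S) (step p nb O (t / p.S) st ω)) + (k : ℝ) * ε := by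
          rw [hadd _ (fun _ => (k : ℝ) * ε), hconst]
      _ ≤ val p x nb ψ (i + 1) (t / p.S) st + ε + (k : ℝ) * ε :=
          add_le_add_left (slot hp hk hb hO U hj h.1 h.2 i) _
      _ = _ := by
          rw [hi1]
          push_cast
          ring

end Del

/-- Deletion is rare. -/
theorem delete : DeleteGoal.{u} := by
  intro p hp V _ x nb O hk hb hO U ψ
  have : NeZero p.r := ⟨by have := hp.r_ge; omega⟩
  have h := Del.pDel_le hp hk hb hO U (ψ := ψ) p.T 0 (fun _ => none) (by omega)
  rw [Nat.zero_mod, Nat.zero_div, Nat.sub_zero] at h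
  have hY := Win.Y0_pos hp
  have hl := hp.lam_pos
  have hS : (0 : ℝ) ≤ p.S := Nat.cast_nonneg _
  have hQ : (0 : ℝ) < p.Q := by exact_mod_cast hp.Q_pos
  have hval : Del.val p x nb ψ p.S 0 (fun _ => none)
      ≤ 192 * ((p.S : ℝ) / p.Q) * Real.exp (4 * p.J * p.S / p.Q) / p.lam := by
    classical
    unfold Del.val
    split
    swap
    · positivity
    rename_i hlive
    obtain ⟨t1, t2, t3⟩ := Del.live_bounds hp hk hb hlive true
    obtain ⟨f1, f2, f3⟩ := Del.live_bounds hp hk hb hlive false
    have hlev : p.lev 0 ≤ 3 * p.Y0 := by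
      have := Win.lev_le hp (j := 0) (by have := hp.J_ge; omega)
      linarith
    have hw := Del.wgt_nonneg p
    have hg0 := Del.gam_le_wgt (p := p) (le_refl p.S)
    have a1 := mul_le_mul hg0 (t2.trans (t3.trans hlev)) t1 hw
    have b1 := mul_le_mul hg0 (f2.trans (f3.trans hlev)) f1 hw
    have a2 := mul_le_mul_of_nonneg_left (t3.trans hlev) hw
    have b2 := mul_le_mul_of_nonneg_left (f3.trans hlev) hw
    refine (mul_le_mul_of_nonneg_left (add_le_add (add_le_add a1 a2) (add_le_add b1 b2))
      (Del.coef_nonneg hp)).trans (le_of_eq ?_)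
    simp only [Del.coef, Del.wgt]
    field_simp
    ring
  calc pDel p x nb O U ψ p.T 0 (fun _ => none)
      ≤ _ := h
    _ ≤ 192 * ((p.S : ℝ) / p.Q) * Real.exp (4 * p.J * p.S / p.Q) / p.lam
        + (p.T : ℝ) * ((1 / 2 : ℝ) ^ p.K / p.Q) := add_le_add hval le_rfl
    _ = _ := by ring

end Vale.Agent.P078.TypeIII.Reg
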