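import Vale.Agent.P078.TypeIII.Reg.Defs

/-!
# Both signs of a kernel
-/

namespace Vale.Agent.P078.TypeIII.Reg

open Vale.Agent.P078.Mss Vale.Agent.P078.Mss2
open Matrix

universe u

variable {V : Type u} [DecidableEq V] {x : Matrix V V ℂ}

lemma Kern.neg (h : Kern x) : Kern (-x) where
  herm i j := by simp [h.herm i j]
  diag i := by simp [h.diag i]
  bound F := by
    obtain ⟨hh, hb⟩ := h.bound F
    have e : (-x).submatrix (Subtype.val : {v // v ∈ F} → V) (Subtype.val : {v // v ∈ F} → V)
        = -(x.submatrix (Subtype.val : {v // v ∈ F} → V) (Subtype.val : {v // v ∈ F} → V)) := rfl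
    rw [e]
    refine ⟨hh.neg, fun v => ?_⟩
    rw [Matrix.neg_mulVec, dotProduct_neg, Complex.neg_re, abs_neg]
    exact hb v

lemma kern_sgn (h : Kern x) (b : Bool) : Kern (sgn b x) := by
  cases b
  · exact h.neg
  · exact h

lemma Band.sgn {nb : V → Finset V} (h : Band x nb) (b : Bool) : Band (sgn b x) nb := by
  cases b
  · exact ⟨h.refl, h.symm, fun c v w hne => h.supp c v w (fun e => hne (by
      simpa [Reg.sgn] using e))⟩
  · exact h

end Vale.Agent.P078.TypeIII.Reg
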