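import Vale.Agent.P078.TypeIII.Reg.Goals
import Vale.Agent.P078.TypeIII.Reg.Sign

/-!
# The regular part: assembly of the probability bounds and choice of the parameters
-/

namespace Vale.Agent.P078.TypeIII.Reg

open Vale.Agent.P078.Mss2
open Finset Matrix Filter Topology

universe u

lemma banded_of_band {V : Type u} {x : Matrix V V ℂ} {nb : V → Finset V} (h : Band x nb) :
    Banded (fun _ : Fin 1 => x) nb := h

lemma nball_card_le {V : Type u} [DecidableEq V] {nb : V → Finset V} {d : ℕ}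
    (h : ∀ v, (nb v).card ≤ d) : ∀ (k : ℕ) (v : V), (nball nb k v).card ≤ d ^ k
  | 0, v => by simp [nball]
  | k + 1, v => by
    refine card_biUnion_le.trans ?_
    refine (sum_le_card_nsmul _ _ d fun w _ => h w).trans ?_
    rw [smul_eq_mul, pow_succ]
    exact Nat.mul_le_mul_right _ (nball_card_le h k v)

lemma Prm.Y0_pos {p : Prm} (h : p.Ok) : 0 < p.Y0 := by
  have := h.r_ge
  have : (0 : ℝ) < p.r := by exact_mod_cast (show 0 < p.r by omega)
  unfold Prm.Y0
  positivity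

lemma Prm.g_pos {p : Prm} (h : p.Ok) : 0 < p.g := by
  have := h.J_ge
  exact div_pos (Prm.Y0_pos h) (by exact_mod_cast (show 0 < p.J by omega))

lemma Prm.lev_mono {p : Prm} (h : p.Ok) {i j : ℕ} (hij : i ≤ j) : p.lev i ≤ p.lev j := by
  have : (i : ℝ) ≤ j := by exact_mod_cast hij
  exact add_le_add le_rfl (mul_le_mul_of_nonneg_right (by linarith) (Prm.g_pos h).le)

lemma Prm.one_le_base (p : Prm) : 1 ≤ p.base :=
  le_add_of_nonneg_right (by positivity)

section link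

variable {p : Prm} {V : Type u} [DecidableEq V] {x : Matrix V V ℂ} {nb : V → Finset V}
variable {O : Oracle V p} {U : Finset V} {ψ : V} {m : ℕ}

lemma dist'_le (ρ : ℕ) (ψ v : V) : dist' nb ρ ψ v ≤ ρ + 1 := by
  unfold dist'
  exact (card_filter_le _ _).trans (by simp)

lemma phi_nonneg (h : p.Ok) (ψ v : V) : 0 ≤ phi p nb ψ v :=
  mul_nonneg (Prm.g_pos h).le (sub_nonneg.2 (one_le_pow₀ p.one_le_base))

lemma phi_le_Y0 (h : p.Ok) (ψ v : V) : phi p nb ψ v ≤ p.Y0 := by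
  have hg := Prm.g_pos h
  have h1 : p.base ^ dist' nb p.ρ ψ v ≤ p.J :=
    (pow_le_pow_right₀ p.one_le_base (dist'_le p.ρ ψ v)).trans h.rho_hi
  have hJ : (0 : ℝ) < p.J := by exact_mod_cast (show 0 < p.J from lt_of_lt_of_le (by norm_num) h.J_ge)
  calc phi p nb ψ v ≤ p.g * p.J := mul_le_mul_of_nonneg_left (by linarith) hg.le
    _ = p.Y0 := div_mul_cancel₀ _ hJ.ne'

lemma badEnd_le_one (x : Matrix V V ℂ) (nb : V → Finset V) (m : ℕ) (v : V) (st : St V p.r) :
    badEnd p x nb m v st ≤ 1 := by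
  unfold badEnd
  split <;> norm_num

lemma step_of_some {j : ℕ} {st : St V p.r} {v : V} (hv : st v ≠ none) (ω : V → Option (Seed p)) :
    step p nb O j st ω v = st v := by
  simp [step, hv]

variable (hA : AvgGoal.{u})
include hA

lemma avg_nonneg (hQ : 1 ≤ p.Q) (hr : 1 ≤ p.r) {f : (V → Option (Seed p)) → ℝ}
    (hf : ∀ ω, 0 ≤ f ω) : 0 ≤ avgOn p U f := by
  obtain ⟨hmono, -, -, hconst⟩ := hA p hQ hr U
  have := hmono (fun _ => 0) f hf
  rwa [hconst] at this

lemma run_le_one (hQ : 1 ≤ p.Q) (hr : 1 ≤ p.r) {f : St V p.r → ℝ} (hf : ∀ s, f s ≤ 1) :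
    ∀ (k t : ℕ) (st : St V p.r), run p nb O U k t st f ≤ 1
  | 0, _, st => hf st
  | k + 1, t, st => by
    obtain ⟨hmono, -, -, hconst⟩ := hA p hQ hr U
    refine (hmono _ (fun _ => 1) fun ω => run_le_one hQ hr hf k (t + 1) _).trans (le_of_eq ?_)
    exact hconst 1

lemma run_nonneg (hQ : 1 ≤ p.Q) (hr : 1 ≤ p.r) {f : St V p.r → ℝ} (hf : ∀ s, 0 ≤ f s) :
    ∀ (k t : ℕ) (st : St V p.r), 0 ≤ run p nb O U k t st f
  | 0, _, st => hf st
  | k + 1, t, _ => avg_nonneg hA hQ hr fun _ => run_nonneg hQ hr hf k (t + 1) _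

lemma pBad_nonneg (hQ : 1 ≤ p.Q) (hr : 1 ≤ p.r) :
    ∀ (k t : ℕ) (st : St V p.r), 0 ≤ pBad p x nb O U ψ k t st
  | 0, _, _ => le_rfl
  | k + 1, t, st => avg_nonneg hA hQ hr fun ω => by
    split
    · exact pBad_nonneg hQ hr k (t + 1) _
    · exact zero_le_one

lemma pDel_nonneg (hQ : 1 ≤ p.Q) (hr : 1 ≤ p.r) :
    ∀ (k t : ℕ) (st : St V p.r), 0 ≤ pDel p x nb O U ψ k t st
  | 0, _, _ => le_rfl
  | k + 1, t, st => by
    unfold pDel
    split
    · exact avg_nonneg hA hQ hr fun ω =>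
        add_nonneg (by split <;> norm_num) (pDel_nonneg hQ hr k (t + 1) _)
    · exact le_rfl

variable (hM : ValidMonoGoal.{u})
include hM

omit hA in
lemma wGood_mono (h : p.Ok) (hk : Kern x) {i j : ℕ} (hij : i ≤ j) {st : St V p.r}
    (hg : WGood p x nb ψ i st) : WGood p x nb ψ j st := by
  have : NeZero p.r := ⟨by have := h.r_ge; omega⟩
  intro b
  refine hM _ _ _ _ _ _ (kern_sgn hk b) (hg b) subset_rfl fun u _ => ?_
  have := Prm.lev_mono h hij
  simp only [ywin, ylev]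
  linarith

/-- The final test fails only if the window becomes bad, or `ψ` is deleted or never processed. -/
lemma run_badEnd_le (h : p.Ok) (hk : Kern x) (hb : Band x nb) (hm : m ≤ p.ρ) :
    ∀ (k t : ℕ) (st : St V p.r), t + k ≤ p.T → st ψ ≠ some none →
      WGood p x nb ψ (t / p.S) st →
      run p nb O U k t st (badEnd p x nb m ψ)
        ≤ run p nb O U k t st (fun s => if s ψ = none then 1 else 0)
          + pBad p x nb O U ψ k t st + pDel p x nb O U ψ k t st := by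
  have hr : 1 ≤ p.r := by have := h.r_ge; omega
  have hQ := h.Q_pos
  have : NeZero p.r := ⟨by omega⟩
  intro k
  induction k with
  | zero =>
    intro t st ht hdel hgood
    simp only [run, pBad, pDel, add_zero]
    rcases hst : st ψ with _ | _ | c
    · rw [if_pos rfl]
      exact badEnd_le_one x nb m ψ st
    · exact absurd hst hdel
    rw [if_neg (by simp)]
    refine le_of_eq ?_
    unfold badEnd
    refine if_pos ⟨by simp [colOf, hst], fun b => ?_⟩
    refine hM _ _ _ _ _ _ (kern_sgn hk b) (hgood b) (fun u hu => ?_) fun u hu => ?_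
    · simp only [mem_filter] at hu
      refine mem_filter.2 ⟨nball_mono (banded_of_band hb) hm ψ hu.1, fun e => ?_⟩
      have h2 := hu.2
      simp [colOf, e] at h2
    · have hj : ((t / p.S : ℕ) : ℝ) ≤ p.J := by
        exact_mod_cast Nat.div_le_of_le_mul (by rw [Prm.T] at ht; rw [mul_comm]; omega)
      have hJ : (10 : ℝ) ≤ p.J := by exact_mod_cast h.J_ge
      have hY := Prm.Y0_pos h
      have hg := Prm.g_pos h
      have hgJ : p.g * p.J = p.Y0 := div_mul_cancel₀ _ (by linarith)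
      have hphi := phi_le_Y0 (nb := nb) h ψ u
      simp only [ywin, ylev, Prm.lev, Prm.shiftS]
      split <;> nlinarith
  | succ k ih =>
    intro t st ht hdel hgood
    obtain ⟨hmono, hadd, -, -⟩ := hA p hQ hr U
    have hpt : ∀ ω : V → Option (Seed p),
        run p nb O U k (t + 1) (step p nb O (t / p.S) st ω) (badEnd p x nb m ψ)
          ≤ run p nb O U k (t + 1) (step p nb O (t / p.S) st ω)
              (fun s => if s ψ = none then 1 else 0)
            + (open Classical in if WGood p x nb ψ (t / p.S) (step p nb O (t / p.S) st ω)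
                then pBad p x nb O U ψ k (t + 1) (step p nb O (t / p.S) st ω) else 1)
            + (if st ψ = none then (if step p nb O (t / p.S) st ω ψ = some none then 1 else 0)
                + pDel p x nb O U ψ k (t + 1) (step p nb O (t / p.S) st ω) else 0) := by
      intro ω
      set st' := step p nb O (t / p.S) st ω
      have h0 := run_nonneg hA hQ hr (nb := nb) (O := O) (U := U)
        (f := fun s : St V p.r => if s ψ = none then (1 : ℝ) else 0)
        (fun s => by split <;> norm_num) k (t + 1) st'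
      have h1 := run_le_one hA hQ hr (nb := nb) (O := O) (U := U)
        (badEnd_le_one x nb m ψ) k (t + 1) st'
      have h2 := pBad_nonneg hA hQ hr (x := x) (nb := nb) (O := O) (U := U) (ψ := ψ) k (t + 1) st'
      have h3 := pDel_nonneg hA hQ hr (x := x) (nb := nb) (O := O) (U := U) (ψ := ψ) k (t + 1) st'
      by_cases hw : WGood p x nb ψ (t / p.S) st'
      swap
      · rw [if_neg hw]
        split_ifs <;> linarith
      rw [if_pos hw]
      by_cases hst : st ψ = none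
      · rw [if_pos hst]
        by_cases hd : st' ψ = some none
        · rw [if_pos hd]; linarith
        · rw [if_neg hd]
          have := ih (t + 1) st' (by omega) hd
            (wGood_mono hM h hk (Nat.div_le_div_right (Nat.le_succ t)) hw)
          linarith
      · rw [if_neg hst]
        have he : st' ψ = st ψ := step_of_some hst ω
        have hz : pDel p x nb O U ψ k (t + 1) st' = 0 := by
          cases k with
          | zero => rfl
          | succ k => simp [pDel, he, hst]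
        have := ih (t + 1) st' (by omega) (he ▸ hdel)
          (wGood_mono hM h hk (Nat.div_le_div_right (Nat.le_succ t)) hw)
        linarith
    simp only [run]
    refine (hmono _ _ hpt).trans (le_of_eq ?_)
    rw [hadd, hadd]
    congr 1
    by_cases hst : st ψ = none
    · simp only [if_pos hst]
      rw [pDel, if_pos ⟨hst, hgood⟩]
    · simp only [if_neg hst]
      rw [pDel, if_neg (fun hc => hst hc.1)]
      exact (hA p hQ hr U).2.2.2 0

end link

lemma exists_profile {R i : ℕ} (hR : 1 ≤ R) (hi : 8 ≤ i)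
    (h2 : 25 * (i : ℝ) ^ 8 ≤ (2 : ℝ) ^ i) :
    ∃ ρ0 : ℕ, ρ0 ≤ 20 * R * i ∧
      24 * (i : ℝ) ^ 8 + 1 ≤ (1 + 1 / (20 * (R : ℝ))) ^ ρ0 ∧
      (1 + 1 / (20 * (R : ℝ))) ^ (ρ0 + 2 * R + 1) ≤ (i : ℝ) ^ 10 := by
  set a : ℝ := 1 + 1 / (20 * (R : ℝ)) with ha
  set X : ℝ := 24 * (i : ℝ) ^ 8 + 1 with hX
  have hR' : (1 : ℝ) ≤ R := by exact_mod_cast hR
  have hi' : (8 : ℝ) ≤ i := by exact_mod_cast hi
  have ha1 : 1 ≤ a := le_add_of_nonneg_right (by positivity)
  have hi8 : (1 : ℝ) ≤ (i : ℝ) ^ 8 := one_le_pow₀ (by linarith)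
  have hdouble : (2 : ℝ) ≤ a ^ (20 * R) := by
    refine le_trans (le_of_eq ?_) (one_add_mul_le_pow (a := 1 / (20 * (R : ℝ)))
      (le_trans (by norm_num) (by positivity : (0 : ℝ) ≤ 1 / (20 * (R : ℝ)))) (20 * R))
    have : (R : ℝ) ≠ 0 := by linarith
    push_cast
    field_simp
    ring
  have hbig : X ≤ a ^ (20 * R * i) := by
    rw [pow_mul]
    refine le_trans ?_ (pow_le_pow_left₀ (by norm_num) hdouble i)
    linarith
  classical
  have hex : ∃ k, X ≤ a ^ k := ⟨_, hbig⟩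
  have hlt : a ^ Nat.find hex ≤ a * X := by
    rcases Nat.eq_zero_or_pos (Nat.find hex) with h0 | h0
    · rw [h0, pow_zero]; nlinarith
    · obtain ⟨k, hk⟩ : ∃ k, Nat.find hex = k + 1 := ⟨Nat.find hex - 1, by omega⟩
      have := Nat.find_min hex (show k < Nat.find hex by omega)
      rw [hk, pow_succ']
      exact mul_le_mul_of_nonneg_left (not_le.1 this).le (by linarith)
  refine ⟨Nat.find hex, Nat.find_le hbig, Nat.find_spec hex, ?_⟩
  have hexp : a ^ (2 * R + 2) ≤ 2 := by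
    have h1 : a ≤ Real.exp (1 / (20 * (R : ℝ))) := by
      have := Real.add_one_le_exp (1 / (20 * (R : ℝ)))
      linarith
    refine (pow_le_pow_left₀ (by linarith) h1 _).trans ?_
    rw [← Real.exp_nat_mul]
    calc Real.exp (((2 * R + 2 : ℕ) : ℝ) * (1 / (20 * (R : ℝ)))) ≤ Real.exp (1 / 2) := by
          refine Real.exp_le_exp.2 ?_
          push_cast
          rw [mul_one_div, div_le_iff₀ (by linarith)]
          linarith
      _ ≤ 1 / (1 - 1 / 2) := Real.exp_bound_div_one_sub_of_interval (by norm_num) (by norm_num)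
      _ = 2 := by norm_num
  calc a ^ (Nat.find hex + 2 * R + 1) = a ^ Nat.find hex * a ^ (2 * R + 1) := by
        rw [add_assoc, pow_add]
    _ ≤ (a * X) * a ^ (2 * R + 1) := mul_le_mul_of_nonneg_right hlt (by positivity)
    _ = a ^ (2 * R + 2) * X := by ring
    _ ≤ 2 * X := mul_le_mul_of_nonneg_right hexp (by linarith)
    _ ≤ (i : ℝ) ^ 10 := by
      have h64 : (64 : ℝ) ≤ (i : ℝ) ^ 2 := by nlinarith
      have : (i : ℝ) ^ 10 = (i : ℝ) ^ 8 * (i : ℝ) ^ 2 := by ring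
      nlinarith [mul_le_mul_of_nonneg_left h64 (by linarith : (0 : ℝ) ≤ (i : ℝ) ^ 8)]

/-- The window error at scale `i`. -/
lemma window_small {D : ℝ} (hD : 1 ≤ D) {i : ℕ} (hi : 2 ≤ i) {c W : ℝ} (hc : 0 ≤ c) (hW0 : 0 ≤ W)
    (hW : W ≤ D ^ (22 * i ^ 7)) (hq : D ^ 44 * (3 / 4 : ℝ) ^ i ≤ 1 / 2) :
    2 * (i : ℝ) ^ 10 * W * (1 + c) * W * (3 / 4 : ℝ) ^ (i ^ 8 - 1)
      ≤ 8 / 3 * (1 + c) * ((i : ℝ) ^ 10 * (1 / 2) ^ i) := by
  have h1 : i ≤ i ^ 7 := Nat.le_self_pow (by norm_num) i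
  have h2 : 1 ≤ i ^ 8 := Nat.one_le_pow _ _ (by omega)
  have hmain : W * W * (3 / 4 : ℝ) ^ (i ^ 8) ≤ (1 / 2 : ℝ) ^ i := by
    calc W * W * (3 / 4 : ℝ) ^ (i ^ 8)
        ≤ D ^ (22 * i ^ 7) * D ^ (22 * i ^ 7) * (3 / 4 : ℝ) ^ (i ^ 8) := by
          exact mul_le_mul_of_nonneg_right (mul_le_mul hW hW hW0 (by positivity)) (by positivity)
      _ = (D ^ 44 * (3 / 4 : ℝ) ^ i) ^ (i ^ 7) := by
          rw [mul_pow, ← pow_mul, ← pow_mul, ← pow_add]
          congr 2 <;> ring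
      _ ≤ (1 / 2 : ℝ) ^ (i ^ 7) := pow_le_pow_left₀ (by positivity) hq _
      _ ≤ (1 / 2 : ℝ) ^ i := pow_le_pow_of_le_one (by norm_num) (by norm_num) h1
  have he : (3 / 4 : ℝ) ^ (i ^ 8 - 1) = 4 / 3 * (3 / 4 : ℝ) ^ (i ^ 8) := by
    obtain ⟨k, hk⟩ : ∃ k, i ^ 8 = k + 1 := ⟨i ^ 8 - 1, by omega⟩
    rw [hk, Nat.add_sub_cancel, pow_succ]
    ring
  rw [he]
  calc 2 * (i : ℝ) ^ 10 * W * (1 + c) * W * (4 / 3 * (3 / 4 : ℝ) ^ (i ^ 8))
      = 8 / 3 * (1 + c) * ((i : ℝ) ^ 10 * (W * W * (3 / 4 : ℝ) ^ (i ^ 8))) := by ring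
    _ ≤ _ := by gcongr

/-- The locality error at scale `i`. -/
lemma tail_small {i : ℕ} (hi : 1 ≤ i) {Y : ℝ} (hY : 0 < Y)
    (hev : 2048 / Y ^ 2 * ((i : ℝ) ^ 18 * Real.exp (-Real.sqrt (Y / 51200)) ^ i) ≤ 1) :
    tailErr (Y / (i : ℝ) ^ 10 / 16) 200 (i ^ 6) ≤ ((i : ℝ) ^ 8)⁻¹ * Y / 8 := by
  have hi' : (1 : ℝ) ≤ i := by exact_mod_cast hi
  have hi0 : (0 : ℝ) < i := by linarith
  have hs : Real.sqrt (Y / (i : ℝ) ^ 10 / 16 / (16 * 200))
      = Real.sqrt (Y / 51200) / (i : ℝ) ^ 5 := by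
    rw [show Y / (i : ℝ) ^ 10 / 16 / (16 * 200) = Y / 51200 / ((i : ℝ) ^ 5) ^ 2 by
      field_simp; ring, Real.sqrt_div (by positivity), Real.sqrt_sq (by positivity)]
  unfold tailErr
  rw [hs]
  have he : Real.exp (-(((i ^ 6 : ℕ) : ℝ) * (Real.sqrt (Y / 51200) / (i : ℝ) ^ 5)))
      = Real.exp (-Real.sqrt (Y / 51200)) ^ i := by
    rw [← Real.exp_nat_mul]
    congr 1
    push_cast
    field_simp
  rw [he]
  set E := Real.exp (-Real.sqrt (Y / 51200)) ^ i
  have hk : 0 < Y / (8 * (i : ℝ) ^ 8) := by positivity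
  calc 16 / (Y / (i : ℝ) ^ 10 / 16) * E
      = Y / (8 * (i : ℝ) ^ 8) * (2048 / Y ^ 2 * ((i : ℝ) ^ 18 * E)) := by
        field_simp
        ring
    _ ≤ Y / (8 * (i : ℝ) ^ 8) * 1 := mul_le_mul_of_nonneg_left hev hk.le
    _ = _ := by field_simp

/-- The parameters at scale `i`. -/
lemma exists_params {r deg : ℕ} (hr : 9 ≤ r) {m c : ℕ} (hc : 1 ≤ c) {δ : ℝ} (hδ : 0 < δ) :
    ∃ (i ρ : ℕ), 1 ≤ i ∧ m ≤ ρ ∧
      (∀ N K : ℕ, 1 ≤ N →
        (Prm.mk r (i ^ 10) (c * N) (i ^ 10 * N) K (i ^ 6) ρ (i ^ 8) ((i : ℝ) ^ 8)⁻¹).Ok) ∧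
      192 * (c : ℝ) * Real.exp (4 * c) / (i : ℝ) ^ 2 ≤ δ ∧
      ∀ W : ℝ, 0 ≤ W → W ≤ ((deg : ℝ) + 2) ^ ρ →
        2 * (i : ℝ) ^ 10 * W * (1 + c) * W * (3 / 4 : ℝ) ^ (i ^ 8 - 1) ≤ δ := by
  set Y : ℝ := 3 / Real.sqrt r with hYdef
  have hr0 : (0 : ℝ) < r := by exact_mod_cast (show 0 < r by omega)
  have hY : 0 < Y := by rw [hYdef]; positivity
  set D : ℝ := (deg : ℝ) + 2 with hDdef
  have hD : 1 ≤ D := by
    have : (0 : ℝ) ≤ deg := Nat.cast_nonneg _
    rw [hDdef]; linarith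
  have e1 : ∀ᶠ i : ℕ in atTop, 25 * (i : ℝ) ^ 8 ≤ (2 : ℝ) ^ i := by
    have h := (tendsto_pow_const_mul_const_pow_of_lt_one 8 (by norm_num : (0 : ℝ) ≤ 1 / 2)
      (by norm_num)).const_mul 25
    rw [mul_zero] at h
    filter_upwards [h.eventually (ge_mem_nhds (by norm_num : (0 : ℝ) < 1))] with i hi
    have h2 : (0 : ℝ) < 2 ^ i := by positivity
    rw [div_pow, one_pow] at hi
    have := mul_le_mul_of_nonneg_right hi h2.le
    rw [one_mul] at this
    refine le_trans (le_of_eq ?_) this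
    field_simp
  have e2 : ∀ᶠ i : ℕ in atTop, D ^ 44 * (3 / 4 : ℝ) ^ i ≤ 1 / 2 := by
    have h := (tendsto_pow_atTop_nhds_zero_of_lt_one (by norm_num : (0 : ℝ) ≤ 3 / 4)
      (by norm_num)).const_mul (D ^ 44)
    rw [mul_zero] at h
    exact h.eventually (ge_mem_nhds (by norm_num))
  have e3 : ∀ᶠ i : ℕ in atTop,
      8 / 3 * (1 + (c : ℝ)) * ((i : ℝ) ^ 10 * (1 / 2) ^ i) ≤ δ := by
    have h := (tendsto_pow_const_mul_const_pow_of_lt_one 10 (by norm_num : (0 : ℝ) ≤ 1 / 2)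
      (by norm_num)).const_mul (8 / 3 * (1 + (c : ℝ)))
    rw [mul_zero] at h
    exact h.eventually (ge_mem_nhds hδ)
  have e4 : ∀ᶠ i : ℕ in atTop,
      2048 / Y ^ 2 * ((i : ℝ) ^ 18 * Real.exp (-Real.sqrt (Y / 51200)) ^ i) ≤ 1 := by
    have h := (tendsto_pow_const_mul_const_pow_of_lt_one 18
      (Real.exp_pos (-Real.sqrt (Y / 51200))).le
      (Real.exp_lt_one_iff.2 (neg_lt_zero.2 (Real.sqrt_pos.2 (by positivity))))).const_mul
      (2048 / Y ^ 2)
    rw [mul_zero] at h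
    exact h.eventually (ge_mem_nhds one_pos)
  have e5 : ∀ᶠ i : ℕ in atTop, 192 * (c : ℝ) * Real.exp (4 * c) / (i : ℝ) ^ 2 ≤ δ :=
    ((tendsto_const_nhds (x := 192 * (c : ℝ) * Real.exp (4 * c))).div_atTop
      ((tendsto_pow_atTop (by norm_num : (2 : ℕ) ≠ 0)).comp tendsto_natCast_atTop_atTop)).eventually
        (ge_mem_nhds hδ)
  obtain ⟨i, h1, h2, h3, h4, h5, h6⟩ :=
    (e1.and (e2.and (e3.and (e4.and (e5.and (eventually_ge_atTop (max 8 m))))))).exists
  have hi8 : 8 ≤ i := le_of_max_le_left h6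
  have him : m ≤ i := le_of_max_le_right h6
  have hi' : (8 : ℝ) ≤ i := by exact_mod_cast hi8
  have hR1 : 1 ≤ i ^ 6 := Nat.one_le_pow _ _ (by omega)
  obtain ⟨ρ0, hρ0, hlo, hhi⟩ := exists_profile hR1 hi8 h1
  refine ⟨i, ρ0 + 2 * i ^ 6, by omega, ?_, fun N K hN => ?_, h5, fun W hW0 hW => ?_⟩
  · have := Nat.le_self_pow (show 6 ≠ 0 by norm_num) i
    omega
  · have h10 : i ≤ i ^ 10 := Nat.le_self_pow (by norm_num) i
    have h8 : i ≤ i ^ 8 := Nat.le_self_pow (by norm_num) i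
    refine
      { r_ge := hr
        J_ge := le_trans (by norm_num) (Nat.pow_le_pow_left (show 2 ≤ i by omega) 10)
        S_pos := one_le_mul hc hN
        Q_pos := one_le_mul (Nat.one_le_pow _ _ (by omega)) hN
        R_pos := hR1
        R_le := Nat.le_add_left _ _
        n_ge := show 2 ≤ i ^ 8 by omega
        lam_pos := by positivity
        lam_le := inv_le_one_of_one_le₀ (one_le_pow₀ (by linarith))
        lam_J := ?_
        n_lam := ?_
        rho_lo := ?_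
        rho_hi := ?_
        tail := ?_ }
    · push_cast
      rw [inv_mul_eq_div, le_div_iff₀ (by positivity), one_mul]
      exact pow_le_pow_right₀ (by linarith) (by norm_num)
    · push_cast
      rw [mul_inv_cancel₀ (by positivity)]
      norm_num
    · dsimp only [Prm.base]
      rw [div_inv_eq_mul]
      exact hlo.trans (pow_le_pow_right₀ (le_add_of_nonneg_right (by positivity)) (by omega))
    · dsimp only [Prm.base]
      push_cast
      exact_mod_cast hhi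
    · have := tail_small (show 1 ≤ i by omega) hY h4
      dsimp only [Prm.g, Prm.Y0]
      push_cast
      exact this
  · refine le_trans (window_small hD (by omega) (Nat.cast_nonneg c) hW0
      (hW.trans (pow_le_pow_right₀ hD ?_)) h2) h3
    have h7 : i ^ 6 * i = i ^ 7 := by ring
    have h67 : i ^ 6 ≤ i ^ 7 := Nat.pow_le_pow_right (by omega) (by norm_num)
    nlinarith

/-- The regular part. -/
theorem regular_of (hA : AvgGoal.{u}) (hM : ValidMonoGoal.{u}) (hU : UniformStartGoal.{u})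
    (hL : LeftoverGoal.{u}) (hW : WindowGoal.{u}) (hD : DeleteGoal.{u}) : RegularGoal.{u} := by
  intro r hr δ hδ deg m
  obtain ⟨c, hc1, hcδ⟩ : ∃ c : ℕ, 1 ≤ c ∧ Real.exp (-((c : ℝ) / 2)) ≤ δ / 4 := by
    have h : Tendsto (fun c : ℕ => Real.exp (-((c : ℝ) / 2))) atTop (𝓝 0) :=
      Real.tendsto_exp_atBot.comp (tendsto_neg_atTop_atBot.comp
        ((tendsto_natCast_atTop_atTop (R := ℝ)).atTop_div_const (by norm_num)))
    obtain ⟨c, h1, h2⟩ := ((eventually_ge_atTop 1).and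
      (h.eventually (ge_mem_nhds (by linarith : (0 : ℝ) < δ / 4)))).exists
    exact ⟨c, h1, h2⟩
  obtain ⟨i, ρ, hi, hmρ, hok, hdel, hwin⟩ :=
    exists_params (deg := deg) hr (m := m) hc1 (by linarith : (0 : ℝ) < δ / 4)
  obtain ⟨K, hK⟩ : ∃ K : ℕ, (c : ℝ) * (1 / 2 : ℝ) ^ K ≤ δ / 4 := by
    have h := (tendsto_pow_atTop_nhds_zero_of_lt_one (by norm_num : (0 : ℝ) ≤ 1 / 2)
      (by norm_num)).const_mul (c : ℝ)
    rw [mul_zero] at h
    exact (h.eventually (ge_mem_nhds (by linarith : (0 : ℝ) < δ / 4))).exists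
  set N := 2 * (deg + 2) ^ (2 * ρ) with hN
  have hN1 : 1 ≤ N := Nat.one_le_iff_ne_zero.2 (by positivity)
  refine ⟨i ^ 10, c * N, i ^ 10 * N, K, i ^ 6, ρ, i ^ 8, ((i : ℝ) ^ 8)⁻¹, hok N K hN1, ?_⟩
  set p := Prm.mk r (i ^ 10) (c * N) (i ^ 10 * N) K (i ^ 6) ρ (i ^ 8) ((i : ℝ) ^ 8)⁻¹ with hp
  intro V _ x nb O hk hb hdeg hO U ψ hψ
  have h : p.Ok := hok N K hN1
  have hQ := h.Q_pos
  have hr1 : 1 ≤ p.r := by have := h.r_ge; omega
  have hY := Prm.Y0_pos h
  have hg := Prm.g_pos h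
  have hstart : WGood p x nb ψ (0 / p.S) (fun _ => none) := by
    intro b
    have : NeZero p.r := ⟨by omega⟩
    refine hU (sgn b x) _ _ _ (kern_sgn hk b) (by have := h.r_ge; omega) (fun v _ => rfl)
      (fun v _ => ?_)
    have hphi := phi_nonneg (nb := nb) h ψ v
    change p.Y0 ≤ _
    simp only [ywin, ylev, colOf, Option.join, Nat.zero_div, Prm.lev,
      Nat.cast_zero]
    simp only [Option.bind_none, Option.isSome_none, Bool.false_eq_true, if_false]
    linarith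
  have hlink := run_badEnd_le hA hM h hk hb hmρ (U := U) (O := O) p.T 0 (fun _ => none)
    (by omega) (by simp) hstart
  have hB : (nball nb (2 * ρ) ψ).card ≤ (deg + 2) ^ (2 * ρ) :=
    (nball_card_le hdeg _ ψ).trans (Nat.pow_le_pow_left (by omega) _)
  have hleft := hL p hQ hr1 nb O U ψ p.T 0 (fun _ => none) hψ
    (show (nball nb (2 * ρ) ψ).card ≤ i ^ 10 * N from
      le_trans hB (le_trans (by omega : (deg + 2) ^ (2 * ρ) ≤ N)
        (Nat.le_mul_of_pos_left N (Nat.pow_pos (by omega)))))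
  have hi' : (1 : ℝ) ≤ i := by exact_mod_cast hi
  have hN' : (0 : ℝ) < N := by exact_mod_cast hN1
  have hi10 : (1 : ℝ) ≤ (i : ℝ) ^ 10 := one_le_pow₀ hi'
  have hTQ : (p.T : ℝ) / p.Q = c := by
    simp only [hp, Prm.T]
    push_cast
    field_simp
  have hSQ : (p.S : ℝ) / p.Q = c / (i : ℝ) ^ 10 := by
    simp only [hp]
    push_cast
    field_simp
  have e4 : Real.exp (-((p.T : ℝ) / p.Q * (1 - ((nball nb (2 * p.ρ) ψ).card : ℝ) / p.Q)))
      ≤ δ / 4 := by
    refine le_trans (Real.exp_le_exp.2 ?_) hcδ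
    rw [hTQ]
    have h1 : ((nball nb (2 * p.ρ) ψ).card : ℝ) / p.Q ≤ 1 / 2 := by
      have hB' : ((nball nb (2 * p.ρ) ψ).card : ℝ) * 2 ≤ N := by
        exact_mod_cast (show (nball nb (2 * ρ) ψ).card * 2 ≤ N by omega)
      rw [div_le_iff₀ (by exact_mod_cast hQ)]
      simp only [hp] at hB' ⊢
      push_cast
      nlinarith
    have hc0 : (0 : ℝ) ≤ c := Nat.cast_nonneg c
    nlinarith
  have e1 : pBad p x nb O U ψ p.T 0 (fun _ => none) ≤ δ / 4 := by
    refine (hW p h x nb O hk hb hO U ψ).trans ?_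
    have hcard : ((nball nb p.ρ ψ).card : ℝ) ≤ ((deg : ℝ) + 2) ^ ρ := by
      exact_mod_cast (nball_card_le hdeg ρ ψ).trans (Nat.pow_le_pow_left (by omega) ρ)
    refine le_trans ?_ (hwin _ (Nat.cast_nonneg _) hcard)
    rw [hSQ]
    simp only [hp]
    push_cast
    gcongr
    exact div_le_self (Nat.cast_nonneg _) hi10
  have e2 : pDel p x nb O U ψ p.T 0 (fun _ => none) ≤ δ / 4 + δ / 4 := by
    refine (hD p h x nb O hk hb hO U ψ).trans (add_le_add ?_ ?_)
    · rw [hTQ]; exact hK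
    · rw [mul_div_assoc, hSQ]
      refine le_trans (le_of_eq ?_) hdel
      simp only [hp]
      push_cast
      field_simp
  calc run p nb O U p.T 0 (fun _ => none) (badEnd p x nb m ψ)
      ≤ _ := hlink
    _ ≤ δ / 4 + δ / 4 + (δ / 4 + δ / 4) :=
        add_le_add (add_le_add (hleft.trans e4) e1) e2
    _ = δ := by ring

end Vale.Agent.P078.TypeIII.Reg
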