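import Vale.Agent.P078.TypeIII.Reg.Goals

/-!
# Basic properties of the expected pinched determinants

A generic part on a finite index type (affine dependence, the cross inequality averaged over the
colours, monotonicity), and its translation to the goals of the module `Basic`.
-/

namespace Vale.Agent.P078.TypeIII.Reg

open Vale.Agent.P078.Mss Vale.Agent.P078.Mss2
open Finset Matrix

universe u

namespace Basic

section Generic

variable {W : Type*} [Fintype W] [DecidableEq W] {r : ℕ}
variable {x : Fin r → Matrix W W ℂ} {q : W → Fin r → ℝ}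

/-- The fully mixed determinant on `G`. -/
noncomputable def Q (x : Fin r → Matrix W W ℂ) (q : W → Fin r → ℝ) (G : Finset W) (y : W → ℝ) : ℝ :=
  (mix x q (realVars fun _ w => y w) G (fun _ => ∅)).re

/-- Positivity on all subsets. -/
def Pos' (x : Fin r → Matrix W W ℂ) (q : W → Fin r → ℝ) (F : Finset W) (y : W → ℝ) : Prop :=
  ∀ G ⊆ F, 0 < Q x q G y

/-- The barrier value. -/
noncomputable def av (x : Fin r → Matrix W W ℂ) (q : W → Fin r → ℝ) (F : Finset W) (w : W)
    (y : W → ℝ) : ℝ :=
  y w - Q x q F y / Q x q (F.erase w) y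

lemma Q_congr {G : Finset W} {y y' : W → ℝ} (h : ∀ v ∈ G, y v = y' v) :
    Q x q G y = Q x q G y' := by
  refine congrArg Complex.re (mix_congr (fun c v hv => ?_))
  rcases hv with hv | hv
  · simp only [realVars, h v hv]
  · simp at hv

lemma Q_empty (hq : ∀ v, ∑ c, q v c = 1) (y : W → ℝ) : Q x q ∅ y = 1 := by
  simp [Q, Mss2.mix_empty hq, minorMat_empty]

lemma split_gen (hq : ∀ v, ∑ c, q v c = 1) {U : Finset W} {v : W} (hv : v ∉ U)
    {D : Fin r → Finset W} (hD : ∀ c, v ∉ D c) (y : W → ℝ) (t : ℝ) :
    mix x q (realVars fun _ w => Function.update y v t w) (insert v U) D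
      = ∑ c, (q v c : ℂ)
          * mix x q (setVar (realVars fun _ w => y w) c v (t : ℂ)) U (adj D c v) := by
  rw [Mss2.mix_insert hq hv]
  refine Finset.sum_congr rfl (fun c _ => congrArg _ (mix_congr (fun d w hw => ?_)))
  by_cases hd : d = c
  · subst hd
    by_cases hwv : w = v
    · subst hwv; simp [setVar, realVars]
    · simp [setVar, realVars, Function.update_of_ne hwv]
  · have hwv : w ≠ v := by
      rintro rfl
      rcases hw with hw | hw
      · exact hv hw
      · simp [Function.update_of_ne hd, hD] at hw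
    simp [setVar, realVars, Function.update_of_ne hwv, Function.update_of_ne hd]

lemma setVar_self (y : W → ℝ) (c : Fin r) (v : W) :
    setVar (realVars fun (_ : Fin r) w => y w) c v (y v : ℂ) = realVars fun _ w => y w := by
  rw [mix_setVar_real]; simp

variable (hq : ∀ v, ∑ c, q v c = 1)
include hq

lemma Q_split {G : Finset W} {v : W} (hv : v ∈ G) (y : W → ℝ) (t : ℝ) :
    Q x q G (Function.update y v t)
      = ∑ c, q v c * (mix x q (setVar (realVars fun _ w => y w) c v (t : ℂ)) (G.erase v)
          (adj (fun _ => ∅) c v)).re := by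
  conv_lhs => rw [Q, ← Finset.insert_erase hv]
  rw [split_gen hq (Finset.notMem_erase v G) (by simp) y t, Complex.re_sum]
  simp only [Complex.re_ofReal_mul]

lemma Q_affine {G : Finset W} {v : W} (hv : v ∈ G) (y : W → ℝ) (t : ℝ) :
    Q x q G (Function.update y v t)
      = t * Q x q (G.erase v) y + Q x q G (Function.update y v 0) := by
  rw [Q_split hq hv, Q_split hq hv, ← mul_one (t * _), ← hq v, Finset.mul_sum,
    ← Finset.sum_add_distrib]
  refine Finset.sum_congr rfl (fun c _ => ?_)
  rw [mix_affine' hq (G.erase v) (fun _ => ∅) c v (Finset.notMem_erase v G) (by simp) (t : ℂ),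
    Complex.add_re, Complex.re_ofReal_mul, Complex.ofReal_zero]
  simp only [Q]
  ring

lemma Q_affine_self {G : Finset W} {v : W} (hv : v ∈ G) (y : W → ℝ) :
    Q x q G y = y v * Q x q (G.erase v) y + Q x q G (Function.update y v 0) := by
  have := Q_affine (x := x) hq hv y (y v)
  rwa [Function.update_eq_self] at this

lemma av_eq {F : Finset W} {w : W} (hw : w ∈ F) {y : W → ℝ} (h : Q x q (F.erase w) y ≠ 0) :
    av x q F w y = -Q x q F (Function.update y w 0) / Q x q (F.erase w) y := by
  rw [av, Q_affine_self hq hw]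
  field_simp
  ring

lemma av_congr {F : Finset W} {w : W} (hw : w ∈ F) {y y' : W → ℝ}
    (h : Q x q (F.erase w) y ≠ 0) (hy : ∀ v ∈ F.erase w, y v = y' v) :
    av x q F w y = av x q F w y' := by
  have e := Q_congr (x := x) (q := q) hy
  rw [av_eq hq hw h, av_eq hq hw (e ▸ h), e]
  congr 2
  refine Q_congr (fun v hv => ?_)
  by_cases hvw : v = w
  · subst hvw; simp
  · simp [Function.update_of_ne hvw, hy v (Finset.mem_erase.2 ⟨hvw, hv⟩)]

/-- Raising one variable keeps positivity. -/
lemma pos'_raise {F : Finset W} {y : W → ℝ} (h : Pos' x q F y) {u : W} {t : ℝ} (ht : y u ≤ t) :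
    Pos' x q F (Function.update y u t) := by
  intro G hG
  by_cases hu : u ∈ G
  · have h1 := h G hG
    rw [Q_affine_self hq hu] at h1
    rw [Q_affine hq hu]
    have h2 := h (G.erase u) ((Finset.erase_subset u G).trans hG)
    nlinarith [mul_le_mul_of_nonneg_right ht h2.le]
  · rw [Q_congr (y' := y) (fun v hv => Function.update_of_ne (fun e : v = u => hu (e ▸ hv)) _ _)]
    exact h G hG

lemma pos'_le {F : Finset W} {y y' : W → ℝ} (h : Pos' x q F y) (hle : ∀ v ∈ F, y v ≤ y' v) :
    Pos' x q F y' := by
  classical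
  suffices ∀ T ⊆ F, Pos' x q F (fun v => if v ∈ T then y' v else y v) by
    intro G hG
    rw [Q_congr (y' := fun v => if v ∈ F then y' v else y v) (fun v hv => by simp [hG hv])]
    exact this F subset_rfl G hG
  intro T
  induction T using Finset.induction with
  | empty => intro _; simpa using h
  | insert a T ha ih =>
    intro hT
    have e : (fun v => if v ∈ insert a T then y' v else y v)
        = Function.update (fun v => if v ∈ T then y' v else y v) a (y' a) := by
      funext v
      by_cases hv : v = a
      · subst hv; simp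
      · simp [hv]
    rw [e]
    exact pos'_raise hq (ih ((Finset.subset_insert a T).trans hT))
      (by simpa [ha] using hle a (hT (Finset.mem_insert_self a T)))

lemma pos'_quant {F : Finset W} {y : W → ℝ} {δ : ℝ} (hδ : 0 ≤ δ)
    (h : Pos' x q F (fun v => y v - δ)) {G : Finset W} (hG : G ⊆ F) :
    δ ^ G.card ≤ Q x q G y := by
  classical
  suffices ∀ T : Finset W, ∀ G ⊆ F, δ ^ (G ∩ T).card * Q x q (G \ T) (fun v => y v - δ)
      ≤ Q x q G (fun v => if v ∈ T then y v else y v - δ) by
    have e := this G G hG
    rw [Finset.inter_self, Finset.sdiff_self, Q_empty hq, mul_one] at e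
    rwa [Q_congr (y' := y) (fun v hv => by simp [hv])] at e
  intro T
  induction T using Finset.induction with
  | empty => intro G _; simp
  | insert a T ha ih =>
    intro G hG
    have e : (fun v => if v ∈ insert a T then y v else y v - δ)
        = Function.update (fun v => if v ∈ T then y v else y v - δ) a (y a) := by
      funext v
      by_cases hv : v = a
      · subst hv; simp
      · simp [hv]
    by_cases hu : a ∈ G
    · set z : W → ℝ := fun v => if v ∈ T then y v else y v - δ with hz
      have h0 : z a = y a - δ := by simp [z, ha]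
      have hzp : Pos' x q F z :=
        pos'_le hq h (fun v _ => by simp only [z]; split_ifs <;> linarith)
      have h1 := hzp G hG
      rw [Q_affine_self hq hu, h0] at h1
      rw [e, Q_affine hq hu]
      have h2 := ih (G.erase a) ((Finset.erase_subset a G).trans hG)
      rw [show G ∩ insert a T = insert a (G.erase a ∩ T) by ext v; simp; grind,
        show G \ insert a T = G.erase a \ T by ext v; simp; tauto,
        Finset.card_insert_of_notMem (by simp), pow_succ', mul_assoc]
      have h3 := mul_le_mul_of_nonneg_left h2 hδ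
      change δ * _ ≤ δ * Q x q (G.erase a) z at h3
      linarith
    · rw [e, Q_congr (y' := fun v => if v ∈ T then y v else y v - δ)
          (fun v hv => Function.update_of_ne (fun e : v = a => hu (e ▸ hv)) _ _),
        show G ∩ insert a T = G ∩ T by ext v; simp; grind,
        show G \ insert a T = G \ T by ext v; simp; grind]
      exact ih G hG

variable (hx : ∀ c, NumBound (x c) 1) (hq0 : ∀ v c, 0 ≤ q v c)
include hx hq0

/-- The cross inequality, averaged over both colours. -/
lemma Q_cross {G : Finset W} {u w : W} (hu : u ∈ G) (hw : w ∈ G) (huw : u ≠ w) (y : W → ℝ) :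
    Q x q G (Function.update y u 0) * Q x q ((G.erase u).erase w) y
      ≤ Q x q (G.erase u) y * Q x q (G.erase w) (Function.update y u 0) := by
  classical
  set U := (G.erase u).erase w with hU
  set z : Fin r → W → ℂ := realVars fun _ v => y v with hz
  have hwU : w ∉ U := Finset.notMem_erase w _
  have huU : u ∉ U := fun h => Finset.notMem_erase u G (Finset.mem_of_mem_erase h)
  have huw' : u ∈ G.erase w := Finset.mem_erase.2 ⟨huw, hu⟩
  have hwu' : w ∈ G.erase u := Finset.mem_erase.2 ⟨Ne.symm huw, hw⟩
  have e1 : Q x q (G.erase u) y = ∑ c, q w c * (mix x q z U (adj (fun _ => ∅) c w)).re := by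
    have := Q_split (x := x) hq hwu' y (y w)
    rw [Function.update_eq_self] at this
    rw [this]
    exact Finset.sum_congr rfl (fun c _ => by rw [setVar_self])
  have e2 : Q x q (G.erase w) (Function.update y u 0)
      = ∑ d, q u d * (mix x q (setVar z d u 0) U (adj (fun _ => ∅) d u)).re := by
    rw [Q_split hq huw', Finset.erase_right_comm]
    simp only [Complex.ofReal_zero]
    rfl
  have e3 : Q x q G (Function.update y u 0) = ∑ c, ∑ d, q w c * q u d
      * (mix x q (setVar z d u 0) U (adj (adj (fun _ => ∅) c w) d u)).re := by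
    have hG : G = insert w (insert u U) := by
      ext v; simp only [U, Finset.mem_insert, Finset.mem_erase]; grind
    conv_lhs => rw [Q, hG]
    rw [Mss2.mix_insert hq (by simp [hwU, Ne.symm huw]), Complex.re_sum]
    refine Finset.sum_congr rfl (fun c _ => ?_)
    change ((q w c : ℂ) * mix x q _ (insert u U) (adj (fun _ => ∅) c w)).re = _
    rw [Complex.re_ofReal_mul, split_gen hq huU
      (fun d => by by_cases hd : d = c <;> simp [adj, hd, huw]) y 0, Complex.re_sum,
      Finset.mul_sum]
    refine Finset.sum_congr rfl (fun d _ => ?_)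
    rw [Complex.re_ofReal_mul, Complex.ofReal_zero]
    ring
  rw [e1, e2, e3, Finset.sum_mul, Finset.sum_mul]
  refine Finset.sum_le_sum (fun c _ => ?_)
  rw [Finset.sum_mul, Finset.mul_sum]
  refine Finset.sum_le_sum (fun d _ => ?_)
  have h := cross_nonneg (x := x) (p := q) hx hq0 hq U (fun _ => ∅) (fun _ v => y v)
    (fun _ => Finset.disjoint_empty_right U) (c := c) (d := d) hwU (by simp) huU (by simp)
    (fun h => huw h.2)
  have h' := mul_le_mul_of_nonneg_left h (mul_nonneg (hq0 w c) (hq0 u d))
  simp only [Q] at *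
  nlinarith [h']

/-- Removing another vertex lowers the barrier value. -/
lemma av_erase_le {F : Finset W} {u w : W} (hu : u ∈ F) (hw : w ∈ F) (huw : u ≠ w) {y : W → ℝ}
    (h : Pos' x q (F.erase w) y) : av x q (F.erase u) w y ≤ av x q F w y := by
  have ha : 0 < Q x q ((F.erase u).erase w) y :=
    h _ (Finset.erase_subset_erase w (Finset.erase_subset u F))
  have hd : 0 < Q x q (F.erase w) y := h _ subset_rfl
  have hu' : u ∈ F.erase w := Finset.mem_erase.2 ⟨huw, hu⟩
  rw [Q_affine_self hq hu', Finset.erase_right_comm] at hd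
  have := affine_ratio_le_top (Q_cross hq hx hq0 hu hw huw y) ha hd
  rw [← Q_affine_self hq hu, ← Finset.erase_right_comm, ← Q_affine_self hq hu',
    Finset.erase_right_comm] at this
  simp only [av]
  linarith

/-- The barrier value is antitone in every variable. -/
lemma av_update_le {F : Finset W} {u w : W} (hu : u ∈ F) (hw : w ∈ F) (huw : u ≠ w) {y : W → ℝ}
    (h : Pos' x q (F.erase w) y) {t : ℝ} (ht : y u ≤ t) :
    av x q F w (Function.update y u t) ≤ av x q F w y := by
  have hd : 0 < Q x q (F.erase w) y := h _ subset_rfl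
  have hd' : 0 < Q x q (F.erase w) (Function.update y u t) := pos'_raise hq h ht _ subset_rfl
  have hu' : u ∈ F.erase w := Finset.mem_erase.2 ⟨huw, hu⟩
  rw [Q_affine_self hq hu', Finset.erase_right_comm] at hd
  rw [Q_affine hq hu', Finset.erase_right_comm] at hd'
  have := affine_ratio_mono (Q_cross hq hx hq0 hu hw huw y) ht hd hd'
  rw [← Q_affine_self hq hu, ← Q_affine hq hu, ← Finset.erase_right_comm,
    ← Q_affine_self hq hu', ← Q_affine hq hu'] at this
  simp only [av, Function.update_of_ne (Ne.symm huw)]
  linarith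

lemma av_subset_le {F G : Finset W} {w : W} (hw : w ∈ F) (hFG : F ⊆ G) {y : W → ℝ}
    (h : Pos' x q (G.erase w) y) : av x q F w y ≤ av x q G w y := by
  classical
  suffices ∀ T : Finset W, T ⊆ G \ F → av x q (G \ T) w y ≤ av x q G w y by
    have := this (G \ F) subset_rfl
    rwa [Finset.sdiff_sdiff_eq_self hFG] at this
  intro T
  induction T using Finset.induction with
  | empty => intro _; simp
  | insert a T ha ih =>
    intro hT
    have haF := Finset.mem_sdiff.1 (hT (Finset.mem_insert_self a T))
    have haw : a ≠ w := fun e => haF.2 (e ▸ hw)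
    rw [show G \ insert a T = (G \ T).erase a by ext v; simp; tauto]
    refine le_trans (av_erase_le hq hx hq0 (Finset.mem_sdiff.2 ⟨haF.1, ha⟩)
      (Finset.mem_sdiff.2 ⟨hFG hw, fun e => ?_⟩) haw
      (fun S hS => h S (hS.trans (Finset.erase_subset_erase w Finset.sdiff_subset))))
      (ih ((Finset.subset_insert a T).trans hT))
    exact (Finset.mem_sdiff.1 (hT (Finset.mem_insert_of_mem e))).2 hw

lemma av_nonneg (h0 : ∀ c i, x c i i = 0) {F : Finset W} {w : W} (hw : w ∈ F) {y : W → ℝ}
    (h : Pos' x q (F.erase w) y) : 0 ≤ av x q F w y := by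
  refine le_trans (le_of_eq ?_) (av_subset_le hq hx hq0 (Finset.mem_singleton_self w)
    (Finset.singleton_subset_iff.2 hw) h)
  have hs : w ∈ ({w} : Finset W) := Finset.mem_singleton_self w
  rw [av_eq hq hs (by simp [Q_empty hq]), Finset.erase_singleton, Q_empty hq, Q_split hq hs,
    Finset.erase_singleton]
  suffices ∀ c, (mix x q (setVar (realVars fun _ v => y v) c w ((0 : ℝ) : ℂ)) ∅
      (adj (fun _ => ∅) c w)).re = 0 by
    rw [Finset.sum_eq_zero (fun c _ => by rw [this c, mul_zero])]
    simp
  intro c
  rw [Mss2.mix_empty hq, Finset.prod_eq_zero (Finset.mem_univ c), Complex.zero_re]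
  refine Matrix.det_eq_zero_of_row_eq_zero w (fun j => ?_)
  by_cases hj : j = w
  · subst hj; simp [minorMat, adj, setVar, h0]
  · simp [minorMat, adj, Ne.symm hj, hj]

lemma av_mono {F G : Finset W} {w : W} (hw : w ∈ F) (hFG : F ⊆ G) {y y' : W → ℝ}
    (h : Pos' x q (G.erase w) y) (hle : ∀ v ∈ F.erase w, y v ≤ y' v) :
    av x q F w y' ≤ av x q G w y := by
  classical
  have hF : Pos' x q (F.erase w) y :=
    fun S hS => h S (hS.trans (Finset.erase_subset_erase w hFG))
  have hF' : Pos' x q (F.erase w) y' := pos'_le hq hF hle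
  refine le_trans ?_ (av_subset_le hq hx hq0 hw hFG h)
  suffices ∀ T ⊆ F.erase w, av x q F w (fun v => if v ∈ T then y' v else y v) ≤ av x q F w y by
    rw [av_congr hq hw (hF' _ subset_rfl).ne'
      (y' := fun v => if v ∈ F.erase w then y' v else y v) (fun v hv => by simp only [hv, if_true])]
    exact this _ subset_rfl
  intro T
  induction T using Finset.induction with
  | empty => intro _; simp
  | insert a T ha ih =>
    intro hT
    have haF := hT (Finset.mem_insert_self a T)
    have hT' := (Finset.subset_insert a T).trans hT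
    have e : (fun v => if v ∈ insert a T then y' v else y v)
        = Function.update (fun v => if v ∈ T then y' v else y v) a (y' a) := by
      funext v
      by_cases hv : v = a
      · subst hv; simp
      · simp [hv]
    rw [e]
    refine le_trans (av_update_le hq hx hq0 (Finset.mem_of_mem_erase haF) hw
      (Finset.ne_of_mem_erase haF) (pos'_le hq hF (fun v hv => ?_))
      (by simpa [ha] using hle a haF)) (ih hT')
    split_ifs
    · exact hle v hv
    · exact le_rfl

lemma pos'_step {F : Finset W} {w : W} (hw : w ∈ F) (y : W → ℝ) :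
    Pos' x q F y ↔ Pos' x q (F.erase w) y ∧ av x q F w y < y w := by
  constructor
  · intro h
    refine ⟨fun S hS => h S (hS.trans (Finset.erase_subset w F)), ?_⟩
    have := div_pos (h F subset_rfl) (h _ (Finset.erase_subset w F))
    simp only [av]
    linarith
  · rintro ⟨h, hlt⟩ G hG
    by_cases hwG : w ∈ G
    · have h1 := (av_subset_le hq hx hq0 hwG hG h).trans_lt hlt
      simp only [av, sub_lt_self_iff] at h1
      exact pos_of_mul_pos_left (a := Q x q G y) (b := (Q x q (G.erase w) y)⁻¹)
        (by rwa [← div_eq_mul_inv]) (inv_nonneg.2 (h _ (Finset.erase_subset_erase w hG)).le)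
    · exact h G (fun v hv => Finset.mem_erase.2 ⟨fun e : v = w => hwG (e ▸ hv), hG hv⟩)


end Generic

/-! ## Translation to finite subsets of `V` -/

section Bridge

variable {V : Type*} [DecidableEq V] {r : ℕ} {x : Matrix V V ℂ} {col : V → Option (Fin r)}

/-- The restricted kernel family. -/
abbrev xs (r : ℕ) (x : Matrix V V ℂ) (F : Finset V) :
    Fin r → Matrix {v // v ∈ F} {v // v ∈ F} ℂ :=
  fun _ => x.submatrix Subtype.val Subtype.val

/-- The restricted colour laws. -/
noncomputable abbrev qs (col : V → Option (Fin r)) (F : Finset V) : {v // v ∈ F} → Fin r → ℝ :=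
  law fun v : {v // v ∈ F} => col v.1

lemma P_eq [NeZero r] {F G : Finset V} (hG : G ⊆ F) (y : V → ℝ) :
    P x col G y = Q (xs r x F) (qs col F) (G.subtype (· ∈ F)) (fun v => y v.1) := by
  classical
  let ι : {v // v ∈ G} ↪ {v // v ∈ F} :=
    ⟨fun v => ⟨v.1, hG v.2⟩, fun a b h => Subtype.ext (congrArg (fun u : {v // v ∈ F} => u.1) h :)⟩
  have e : (Finset.univ : Finset {v // v ∈ G}).map ι = G.subtype (· ∈ F) := by
    ext v
    simp only [Finset.mem_map, Finset.mem_univ, true_and, Finset.mem_subtype]
    exact ⟨fun ⟨u, hu⟩ => hu ▸ u.2, fun h => ⟨⟨v.1, h⟩, rfl⟩⟩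
  have h := Mss2.mix_embed ι (xs r x F) (p := qs col F) (law_sum _)
    (realVars fun _ v => y v.1) Finset.univ (fun _ => ∅)
  simp only [Finset.map_empty, e] at h
  rw [Q, h]
  rfl

lemma valid_iff [NeZero r] {F G : Finset V} (hG : G ⊆ F) (y : V → ℝ) :
    Valid x col G y ↔ Pos' (xs r x F) (qs col F) (G.subtype (· ∈ F)) (fun v => y v.1) := by
  classical
  constructor
  · intro h S hS
    have hH : S.map (Function.Embedding.subtype _) ⊆ G := by
      intro v hv
      obtain ⟨u, hu, rfl⟩ := Finset.mem_map.1 hv
      exact Finset.mem_subtype.1 (hS hu)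
    have e := h _ hH
    rwa [P_eq (hH.trans hG), show (S.map (Function.Embedding.subtype _)).subtype (· ∈ F) = S by
      ext v; simp [Finset.mem_subtype]] at e
  · intro h H hH
    rw [P_eq (hH.trans hG)]
    exact h _ (fun v hv => Finset.mem_subtype.2 (hH (Finset.mem_subtype.1 hv)))

lemma subtype_erase {F G : Finset V} {v : V} (hv : v ∈ F) :
    (G.erase v).subtype (· ∈ F) = (G.subtype (· ∈ F)).erase ⟨v, hv⟩ := by
  ext u; simp [Subtype.ext_iff]

lemma aval_eq [NeZero r] {F G : Finset V} (hG : G ⊆ F) {v : V} (hv : v ∈ F) (y : V → ℝ) :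
    aval x col G v y
      = av (xs r x F) (qs col F) (G.subtype (· ∈ F)) ⟨v, hv⟩ (fun u => y u.1) := by
  rw [aval, av, P_eq hG, P_eq ((Finset.erase_subset v G).trans hG), subtype_erase hv]

lemma update_val {F : Finset V} {v : V} (hv : v ∈ F) (y : V → ℝ) (t : ℝ) :
    (fun u : {u // u ∈ F} => Function.update y v t u.1)
      = Function.update (fun u : {u // u ∈ F} => y u.1) ⟨v, hv⟩ t := by
  funext u
  by_cases h : u = ⟨v, hv⟩
  · subst h; simp
  · rw [Function.update_of_ne h, Function.update_of_ne (fun e => h (Subtype.ext e))]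

omit [DecidableEq V] in
lemma xs_bound (hx : Kern x) (F : Finset V) : ∀ c, NumBound (xs r x F c) 1 := fun _ => hx.bound F

omit [DecidableEq V] in
lemma xs_diag (hx : Kern x) (F : Finset V) : ∀ c i, xs r x F c i i = 0 := fun _ i => hx.diag i.1

end Bridge

end Basic

open Basic

theorem pCongr : PCongrGoal.{u} := by
  intro V _ r x col col' F y y' hc hy
  have e1 : (fun v : {v // v ∈ F} => col v.1) = fun v => col' v.1 := funext fun v => hc v.1 v.2
  have e2 : (fun v : {v // v ∈ F} => y v.1) = fun v => y' v.1 := funext fun v => hy v.1 v.2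
  change (Mss2.mix _ (law _) (realVars fun _ => fun v : {v // v ∈ F} => y v.1) _ _).re = _
  rw [e1, e2]
  rfl

theorem avalCongr : AvalCongrGoal.{u} := by
  intro V _ r _ x col col' F v y y' hx hv hne hc hy
  have h1 : aval x col' F v y' = aval x col F v y' := by
    rw [aval, aval, pCongr x col' col F y' y' (fun u hu => (hc u hu).symm) (fun _ _ => rfl),
      pCongr x col' col (F.erase v) y' y'
        (fun u hu => (hc u (Finset.mem_of_mem_erase hu)).symm) (fun _ _ => rfl)]
  rw [h1, aval_eq subset_rfl hv, aval_eq subset_rfl hv]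
  refine av_congr (law_sum _) (Finset.mem_subtype.2 hv) ?_ (fun u hu => hy u.1 ?_)
  · rwa [← subtype_erase hv, ← P_eq (Finset.erase_subset v F)]
  · rw [← subtype_erase hv] at hu
    exact Finset.mem_subtype.1 hu

theorem pAffine : PAffineGoal.{u} := by
  intro V _ r _ x col F v y t _ hv
  rw [P_eq subset_rfl, P_eq (Finset.erase_subset v F), P_eq subset_rfl, update_val hv,
    update_val hv, subtype_erase hv]
  exact Q_affine (law_sum _) (Finset.mem_subtype.2 hv) _ _

theorem pEmpty : PEmptyGoal.{u} := by
  intro V _ r _ x col y _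
  rw [P_eq subset_rfl, show (∅ : Finset V).subtype (· ∈ (∅ : Finset V)) = ∅ by ext u; simp]
  exact Q_empty (law_sum _) _

theorem pAvg : PAvgGoal.{u} := by
  intro V _ r _ x col F v y _ hv hcol
  classical
  have hU : (Finset.univ : Finset {u // u ∈ F})
      = insert ⟨v, hv⟩ (Finset.univ.erase ⟨v, hv⟩) :=
    (Finset.insert_erase (Finset.mem_univ _)).symm
  set T : Fin r → ℂ := fun c => mix (xs r x F) (qs col F) (realVars fun _ u => y u.1)
    (Finset.univ.erase ⟨v, hv⟩) (Function.update (fun _ => ∅) c (insert ⟨v, hv⟩ ∅)) with hT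
  have hc : ∀ c, P x (Function.update col v (some c)) F y = (T c).re := by
    intro c
    rw [P, hU, Mss2.mix_insert (law_sum _) (Finset.notMem_erase _ _),
      Finset.sum_eq_single c (fun d _ hd => by simp [law, hd]) (by simp)]
    simp only [law, Function.update_self, if_true, Complex.ofReal_one, one_mul]
    refine congrArg Complex.re (mix_p_congr (law_sum _) (law_sum _) (fun u hu => ?_) _)
    funext d
    have : u.1 ≠ v := fun e => (Finset.mem_erase.1 hu).1 (Subtype.ext e)
    simp [law, Function.update_of_ne this]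
  have h0 : P x col F y = (∑ c, (T c).re) / r := by
    rw [P, hU, Mss2.mix_insert (law_sum _) (Finset.notMem_erase _ _), Complex.re_sum,
      Finset.sum_div]
    refine Finset.sum_congr rfl (fun c _ => ?_)
    rw [Complex.re_ofReal_mul, show law (fun u : {u // u ∈ F} => col u.1) ⟨v, hv⟩ c = 1 / (r : ℝ)
      by simp [law, hcol]]
    rw [one_div, inv_mul_eq_div]
  have hr : (r : ℝ) ≠ 0 := Nat.cast_ne_zero.2 (NeZero.ne r)
  have hsum : ∑ c, P x (Function.update col v (some c)) F y = r * P x col F y := by
    rw [h0, mul_div_cancel₀ _ hr]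
    exact Finset.sum_congr rfl (fun c _ => hc c)
  refine ⟨hsum, fun _ => ?_⟩
  have he : ∀ c, P x (Function.update col v (some c)) (F.erase v) y = P x col (F.erase v) y :=
    fun c => pCongr x _ col (F.erase v) y y
      (fun u hu => Function.update_of_ne (Finset.ne_of_mem_erase hu) _ _) (fun _ _ => rfl)
  simp only [aval, he, Finset.sum_sub_distrib, ← Finset.sum_div, hsum, Finset.sum_const,
    Finset.card_univ, Fintype.card_fin, nsmul_eq_mul]
  ring

theorem validMono : ValidMonoGoal.{u} := by
  intro V _ r _ x col F G y y' _ h hFG hle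
  rw [valid_iff subset_rfl]
  exact pos'_le (law_sum _) ((valid_iff subset_rfl y).1 (fun H hH => h H (hH.trans hFG)))
    (fun u hu => hle u.1 (Finset.mem_subtype.1 hu))

theorem avalMono : AvalMonoGoal.{u} := by
  intro V _ r _ x col F G v y y' hx hv hFG h hle
  rw [aval_eq hFG (hFG hv), aval_eq subset_rfl (hFG hv)]
  have h' := (valid_iff (Finset.erase_subset v G) y).1 h
  rw [subtype_erase (hFG hv)] at h'
  have hsub : F.subtype (· ∈ G) ⊆ G.subtype (· ∈ G) :=
    fun u hu => Finset.mem_subtype.2 (hFG (Finset.mem_subtype.1 hu))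
  have hle' : ∀ u ∈ (F.subtype (· ∈ G)).erase ⟨v, hFG hv⟩, y u.1 ≤ y' u.1 := fun u hu => by
    rw [← subtype_erase (hFG hv)] at hu
    exact hle u.1 (Finset.mem_subtype.1 hu)
  exact ⟨av_nonneg (law_sum _) (xs_bound hx G) (law_nonneg _) (xs_diag hx G)
      (Finset.mem_subtype.2 hv)
      (pos'_le (law_sum _) (fun S hS => h' S (hS.trans (Finset.erase_subset_erase _ hsub))) hle'),
    av_mono (law_sum _) (xs_bound hx G) (law_nonneg _) (Finset.mem_subtype.2 hv) hsub h' hle'⟩

theorem validStep : ValidStepGoal.{u} := by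
  intro V _ r _ x col F v y hx hv
  rw [valid_iff subset_rfl, valid_iff (Finset.erase_subset v F), aval_eq subset_rfl hv,
    subtype_erase hv]
  exact pos'_step (law_sum _) (xs_bound hx F) (law_nonneg _) (Finset.mem_subtype.2 hv) _

theorem validQuant : ValidQuantGoal.{u} := by
  intro V _ r _ x col F y δ _ hδ h G hG
  rw [valid_iff subset_rfl] at h
  have := pos'_quant (law_sum _) hδ.le h (G := G.subtype (· ∈ F))
    (fun u hu => Finset.mem_subtype.2 (hG (Finset.mem_subtype.1 hu)))
  rwa [← P_eq hG, Finset.card_subtype, Finset.filter_true_of_mem (fun u hu => hG hu)] at this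

theorem uniformStart : UniformStartGoal.{u} := by
  intro V _ r x col F y hx hr hcol hy
  have : NeZero r := ⟨by omega⟩
  have h : Valid x col F (fun _ => 3 / Real.sqrt r) := by
    intro H hH
    have e : law (fun v : {v // v ∈ H} => col v.1) = unif {v // v ∈ H} r := by
      funext v c; simp [law, unif, hcol v.1 (hH v.2)]
    rw [P, e]
    exact Mss2.mix_pos_above_sqrt hr (xs_bound hx H) (xs_diag hx H) le_rfl
  exact validMono x col F F _ y hx h subset_rfl hy


end Vale.Agent.P078.TypeIII.Reg
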