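import Vale.Agent.P078.Mss2.Flip
import Vale.Agent.P078.Mss2.Locality
import Vale.Agent.P078.TypeIII.RootSum

/-!
# The regular part without an invariant functional: definitions

Expected pinched determinants of finite sets, the barrier values, the root potential, the damped
levels of a window, and the finite-radius random rule with memoryless firing.
-/

namespace Vale.Agent.P078.TypeIII.Reg

open Vale.Agent.P078.Mss Vale.Agent.P078.Mss2
open Finset Matrix

universe u

variable {V : Type u} [DecidableEq V] {r : ℕ}

/-- A Hermitian kernel with zero diagonal all of whose finite compressions have norm at most one. -/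
structure Kern (x : Matrix V V ℂ) : Prop where
  herm : ∀ i j, starRingEnd ℂ (x j i) = x i j
  diag : ∀ i, x i i = 0
  bound : ∀ F : Finset V,
    NumBound (x.submatrix (Subtype.val : {v // v ∈ F} → V) Subtype.val) 1

/-- The expected characteristic value of the pinched kernel on `F`: coloured vertices keep their
colour, the others get independent uniform colours. -/
noncomputable def P (x : Matrix V V ℂ) (col : V → Option (Fin r)) (F : Finset V) (y : V → ℝ) : ℝ :=
  (mix (fun _ : Fin r => x.submatrix (Subtype.val : {v // v ∈ F} → V) Subtype.val)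
    (law fun v : {v // v ∈ F} => col v.1) (realVars fun _ v => y v.1) univ (fun _ => ∅)).re

/-- `y` is above the roots, for all subsets. -/
def Valid (x : Matrix V V ℂ) (col : V → Option (Fin r)) (F : Finset V) (y : V → ℝ) : Prop :=
  ∀ G ⊆ F, 0 < P x col G y

/-- The barrier value of `v` in `F`, for the present colour law of `v`. -/
noncomputable def aval (x : Matrix V V ℂ) (col : V → Option (Fin r)) (F : Finset V) (v : V)
    (y : V → ℝ) : ℝ :=
  y v - P x col F y / P x col (F.erase v) y

/-- The inverse power sum of the roots of `t ↦ P x col F (y + t)`. -/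
noncomputable def Phi (x : Matrix V V ℂ) (col : V → Option (Fin r)) (F : Finset V) (y : V → ℝ)
    (n : ℕ) : ℝ :=
  ((muPoly (fun _ : Fin r => x.submatrix (Subtype.val : {v // v ∈ F} → V) Subtype.val
      - Matrix.diagonal fun v => (y v.1 : ℂ))
    (law fun v : {v // v ∈ F} => col v.1)).roots.map fun z => (-z.re)⁻¹ ^ n).sum

/-- A neighbourhood map containing the support of the kernel. -/
def Band (x : Matrix V V ℂ) (nb : V → Finset V) : Prop := Banded (fun _ : Fin 1 => x) nb

/-- The error of replacing a valid set by a ball of radius `N`. -/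
noncomputable def tailErr (η K : ℝ) (N : ℕ) : ℝ :=
  16 / η * Real.exp (-((N : ℝ) * Real.sqrt (η / (16 * K))))

/-! ## States -/

/-- Undecided, deleted, or coloured. -/
abbrev St (V : Type u) (r : ℕ) := V → Option (Option (Fin r))

/-- The colour, if any. -/
def colOf (st : St V r) (v : V) : Option (Fin r) := (st v).join

/-- The vertices which are not deleted. -/
def alive (st : St V r) (F : Finset V) : Finset V := F.filter fun v => st v ≠ some none

/-- The signed kernel. -/
def sgn (b : Bool) (x : Matrix V V ℂ) : Matrix V V ℂ := if b then x else -x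

/-! ## Parameters -/

/-- The parameters of the rule and of its analysis. -/
structure Prm where
  r : ℕ
  J : ℕ
  S : ℕ
  Q : ℕ
  K : ℕ
  R : ℕ
  ρ : ℕ
  n : ℕ
  lam : ℝ

namespace Prm

variable (p : Prm)

/-- The root bound of the uniform colouring. -/
noncomputable def Y0 : ℝ := 3 / Real.sqrt p.r

/-- The rise of the level in one round. -/
noncomputable def g : ℝ := p.Y0 / p.J

/-- The level of round `j`. -/
noncomputable def lev (j : ℕ) : ℝ := p.Y0 + ((j : ℝ) + 2) * p.g

/-- The shift of a coloured vertex. -/
noncomputable def shiftS : ℝ := 130 * p.Y0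

/-- The growth factor of the window profile. -/
noncomputable def base : ℝ := 1 + 1 / (20 * (p.R : ℝ))

/-- The number of slots. -/
def T : ℕ := p.J * p.S

/-- The conditions used by the analysis. -/
structure Ok : Prop where
  r_ge : 9 ≤ p.r
  J_ge : 10 ≤ p.J
  S_pos : 1 ≤ p.S
  Q_pos : 1 ≤ p.Q
  R_pos : 1 ≤ p.R
  R_le : 2 * p.R ≤ p.ρ
  n_ge : 2 ≤ p.n
  lam_pos : 0 < p.lam
  lam_le : p.lam ≤ 1
  lam_J : 1 ≤ p.lam * p.J
  n_lam : (p.n : ℝ) * p.lam ≤ 12
  rho_lo : 24 / p.lam + 1 ≤ p.base ^ (p.ρ + 1 - 2 * p.R)
  rho_hi : p.base ^ (p.ρ + 1) ≤ p.J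
  tail : tailErr (p.g / 16) 200 p.R ≤ p.lam * p.Y0 / 8

end Prm

variable (p : Prm)

/-- The level of a vertex: coloured vertices are shifted. -/
noncomputable def ylev (L : ℝ) (st : St V p.r) (v : V) : ℝ :=
  L + if (colOf st v).isSome then p.shiftS else 0

/-- The distance from `ψ`, capped at `ρ + 1`. -/
def dist' (nb : V → Finset V) (ρ : ℕ) (ψ v : V) : ℕ :=
  ((range (ρ + 1)).filter fun d => v ∉ nball nb d ψ).card

/-- The profile of the window of `ψ`. -/
noncomputable def phi (nb : V → Finset V) (ψ v : V) : ℝ :=
  p.g * (p.base ^ dist' nb p.ρ ψ v - 1)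

/-- The variables of the window of `ψ` in round `j`. -/
noncomputable def ywin (nb : V → Finset V) (ψ : V) (j : ℕ) (st : St V p.r) (v : V) : ℝ :=
  ylev p (p.lev j) st v + phi p nb ψ v

/-- The window of `ψ`. -/
def win (nb : V → Finset V) (ψ : V) (st : St V p.r) : Finset V := alive st (nball nb p.ρ ψ)

/-- The ball on which the rule looks. -/
def ball (nb : V → Finset V) (v : V) (st : St V p.r) : Finset V := alive st (nball nb p.R v)

/-- The window of `ψ` is good: all roots stay `g / 4` below. -/
def WGood (x : Matrix V V ℂ) (nb : V → Finset V) (ψ : V) (j : ℕ) (st : St V p.r) : Prop :=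
  ∀ b, Valid (sgn b x) (colOf st) (win p nb ψ st) (fun v => ywin p nb ψ j st v - p.g / 4)

/-- The drop of the barrier value of `v` over one round, for a given colour law of `v`. -/
noncomputable def dval (x : Matrix V V ℂ) (col : V → Option (Fin p.r)) (F : Finset V) (v : V)
    (y : V → ℝ) : ℝ :=
  aval x col F v y - aval x col F v (fun u => y u + p.g)

/-- The necessary test for colour `c` at `v`. -/
def WeakTest (x : Matrix V V ℂ) (nb : V → Finset V) (j : ℕ) (st : St V p.r) (v : V)
    (c : Fin p.r) : Prop :=
  ∀ b, Valid (sgn b x) (colOf st) (ball p nb v st) (ylev p (p.lev j) st) ∧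
    aval (sgn b x) (Function.update (colOf st) v (some c)) (ball p nb v st) v
        (ylev p (p.lev j) st) ≤ 8 * p.lev j ∧
    dval p (sgn b x) (Function.update (colOf st) v (some c)) (ball p nb v st) v
        (ylev p (p.lev j) st) ≤ p.lam * p.Y0

/-- A sufficient condition for some colour to be allowed at `v`. -/
def Margin (x : Matrix V V ℂ) (nb : V → Finset V) (j : ℕ) (st : St V p.r) (v : V) : Prop :=
  ∀ b, Valid (sgn b x) (colOf st) (ball p nb v st)
      (fun u => ylev p (p.lev j) st u - p.g / 8) ∧
    dval p (sgn b x) (colOf st) (ball p nb v st) v (ylev p (p.lev j) st) ≤ p.lam * p.Y0 / 16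

/-- The allowed colours, by round, state and vertex. -/
abbrev Oracle (V : Type u) (p : Prm) := ℕ → St V p.r → V → Finset (Fin p.r)

/-- What is assumed on the allowed colours. -/
structure Sound (x : Matrix V V ℂ) (nb : V → Finset V) (O : Oracle V p) : Prop where
  weak : ∀ j st v, st v = none → ∀ c ∈ O j st v, WeakTest p x nb j st v c
  large : ∀ j st v, (O j st v).Nonempty → p.r ≤ 2 * (O j st v).card
  margin : ∀ j st v, j < p.J → st v = none → Margin p x nb j st v → (O j st v).Nonempty

/-! ## The random rule -/

/-- A seed: a firing value and the colours to be tried. -/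
abbrev Seed (p : Prm) := Fin p.Q × (Fin p.K → Fin p.r)

/-- Firing. -/
def fire (ω : V → Option (Seed p)) (v : V) : Bool :=
  match ω v with
  | some σ => decide ((σ.1 : ℕ) = 0)
  | none => false

/-- `v` acts: it fires and nobody else near it does. -/
def acts (nb : V → Finset V) (ω : V → Option (Seed p)) (v : V) : Bool :=
  fire p ω v && decide (((nball nb (2 * p.ρ) v).erase v).filter (fun w => fire p ω w = true) = ∅)

/-- The first allowed colour among the trials, or deletion. -/
def choose (G : Finset (Fin p.r)) : Option (Seed p) → Option (Option (Fin p.r))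
  | some σ => some ((List.ofFn σ.2).find? fun c => decide (c ∈ G))
  | none => some none

/-- One slot of round `j`. -/
def step (nb : V → Finset V) (O : Oracle V p) (j : ℕ) (st : St V p.r)
    (ω : V → Option (Seed p)) : St V p.r :=
  fun v => if st v = none ∧ acts p nb ω v = true then choose p (O j st v) (ω v) else st v

/-- Seeds on `U` only. -/
def extend (U : Finset V) (f : {v // v ∈ U} → Seed p) (v : V) : Option (Seed p) :=
  if h : v ∈ U then some (f ⟨v, h⟩) else none

/-- The average over the seeds of one slot. -/
noncomputable def avgOn (U : Finset V) (f : (V → Option (Seed p)) → ℝ) : ℝ :=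
  (Fintype.card ({v // v ∈ U} → Seed p) : ℝ)⁻¹ * ∑ σ : {v // v ∈ U} → Seed p, f (extend p U σ)

/-- The average of `f` after `k` slots, from slot `t` and state `st`. -/
noncomputable def run (nb : V → Finset V) (O : Oracle V p) (U : Finset V) :
    ℕ → ℕ → St V p.r → (St V p.r → ℝ) → ℝ
  | 0, _, st, f => f st
  | k + 1, t, st, f =>
      avgOn p U fun ω => run nb O U k (t + 1) (step p nb O (t / p.S) st ω) f

/-- The law of the chosen colour. -/
noncomputable def qLaw (G : Finset (Fin p.r)) (c : Fin p.r) : ℝ :=
  if c ∈ G then (1 - (1 - (G.card : ℝ) / p.r) ^ p.K) / G.card else 0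

/-- The average of `f` after `v` has been processed with allowed colours `G`. -/
noncomputable def outAvg (f : St V p.r → ℝ) (st : St V p.r) (v : V) (G : Finset (Fin p.r)) : ℝ :=
  (∑ c, qLaw p G c * f (Function.update st v (some (some c))))
    + (1 - ∑ c, qLaw p G c) * f (Function.update st v (some none))

open Classical in
/-- `1` unless `v` is coloured and its neighbourhood of radius `m` is paved at `135 Y0`. -/
noncomputable def badEnd (x : Matrix V V ℂ) (nb : V → Finset V) (m : ℕ) (v : V)
    (st : St V p.r) : ℝ :=
  if (colOf st v).isSome ∧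
      ∀ b, Valid (sgn b x) (colOf st) ((nball nb m v).filter fun u => (colOf st u).isSome)
        (fun _ => 135 * p.Y0)
  then 0 else 1

open Classical in
/-- `1` if the window of `ψ` becomes bad within `k` slots. -/
noncomputable def pBad (x : Matrix V V ℂ) (nb : V → Finset V) (O : Oracle V p) (U : Finset V)
    (ψ : V) : ℕ → ℕ → St V p.r → ℝ
  | 0, _, _ => 0
  | k + 1, t, st => avgOn p U fun ω =>
      if WGood p x nb ψ (t / p.S) (step p nb O (t / p.S) st ω) then
        pBad x nb O U ψ k (t + 1) (step p nb O (t / p.S) st ω)
      else 1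

open Classical in
/-- Deletion of `ψ` within `k` slots while its window is good. -/
noncomputable def pDel (x : Matrix V V ℂ) (nb : V → Finset V) (O : Oracle V p) (U : Finset V)
    (ψ : V) : ℕ → ℕ → St V p.r → ℝ
  | 0, _, _ => 0
  | k + 1, t, st =>
      if st ψ = none ∧ WGood p x nb ψ (t / p.S) st then
        avgOn p U fun ω =>
          (if step p nb O (t / p.S) st ω ψ = some none then 1 else 0)
            + pDel x nb O U ψ k (t + 1) (step p nb O (t / p.S) st ω)
      else 0

end Vale.Agent.P078.TypeIII.Reg
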