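import Vale.Agent.P078.TypeIII.Reg.Defs

/-!
# The regular part without an invariant functional: goals of the modules
-/

namespace Vale.Agent.P078.TypeIII.Reg

open Vale.Agent.P078.Mss2
open Finset Matrix

universe u

/-! ## Basic -/

def PCongrGoal : Prop :=
  ∀ {V : Type u} [DecidableEq V] {r : ℕ} (x : Matrix V V ℂ) (col col' : V → Option (Fin r))
    (F : Finset V) (y y' : V → ℝ), (∀ v ∈ F, col v = col' v) → (∀ v ∈ F, y v = y' v) →
    P x col F y = P x col' F y'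

def AvalCongrGoal : Prop :=
  ∀ {V : Type u} [DecidableEq V] {r : ℕ} [NeZero r] (x : Matrix V V ℂ)
    (col col' : V → Option (Fin r)) (F : Finset V) (v : V) (y y' : V → ℝ), Kern x → v ∈ F →
    P x col (F.erase v) y ≠ 0 → (∀ u ∈ F, col u = col' u) → (∀ u ∈ F.erase v, y u = y' u) →
    aval x col F v y = aval x col' F v y'

def PAffineGoal : Prop :=
  ∀ {V : Type u} [DecidableEq V] {r : ℕ} [NeZero r] (x : Matrix V V ℂ)
    (col : V → Option (Fin r)) (F : Finset V) (v : V) (y : V → ℝ) (t : ℝ), Kern x → v ∈ F →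
    P x col F (Function.update y v t)
      = t * P x col (F.erase v) y + P x col F (Function.update y v 0)

def PAvgGoal : Prop :=
  ∀ {V : Type u} [DecidableEq V] {r : ℕ} [NeZero r] (x : Matrix V V ℂ)
    (col : V → Option (Fin r)) (F : Finset V) (v : V) (y : V → ℝ), Kern x → v ∈ F →
    col v = none →
    (∑ c, P x (Function.update col v (some c)) F y = r * P x col F y) ∧
      (P x col (F.erase v) y ≠ 0 →
        ∑ c, aval x (Function.update col v (some c)) F v y = r * aval x col F v y)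

def PEmptyGoal : Prop :=
  ∀ {V : Type u} [DecidableEq V] {r : ℕ} [NeZero r] (x : Matrix V V ℂ)
    (col : V → Option (Fin r)) (y : V → ℝ), Kern x → P x col ∅ y = 1

def ValidMonoGoal : Prop :=
  ∀ {V : Type u} [DecidableEq V] {r : ℕ} [NeZero r] (x : Matrix V V ℂ)
    (col : V → Option (Fin r)) (F G : Finset V) (y y' : V → ℝ), Kern x →
    Valid x col G y → F ⊆ G → (∀ u ∈ F, y u ≤ y' u) → Valid x col F y'

def AvalMonoGoal : Prop :=
  ∀ {V : Type u} [DecidableEq V] {r : ℕ} [NeZero r] (x : Matrix V V ℂ)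
    (col : V → Option (Fin r)) (F G : Finset V) (v : V) (y y' : V → ℝ), Kern x → v ∈ F → F ⊆ G →
    Valid x col (G.erase v) y → (∀ u ∈ F.erase v, y u ≤ y' u) →
    0 ≤ aval x col F v y' ∧ aval x col F v y' ≤ aval x col G v y

def ValidStepGoal : Prop :=
  ∀ {V : Type u} [DecidableEq V] {r : ℕ} [NeZero r] (x : Matrix V V ℂ)
    (col : V → Option (Fin r)) (F : Finset V) (v : V) (y : V → ℝ), Kern x → v ∈ F →
    (Valid x col F y ↔ Valid x col (F.erase v) y ∧ aval x col F v y < y v)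

def ValidQuantGoal : Prop :=
  ∀ {V : Type u} [DecidableEq V] {r : ℕ} [NeZero r] (x : Matrix V V ℂ)
    (col : V → Option (Fin r)) (F : Finset V) (y : V → ℝ) (δ : ℝ), Kern x → 0 < δ →
    Valid x col F (fun u => y u - δ) → ∀ G ⊆ F, δ ^ G.card ≤ P x col G y

def UniformStartGoal : Prop :=
  ∀ {V : Type u} [DecidableEq V] {r : ℕ} (x : Matrix V V ℂ) (col : V → Option (Fin r))
    (F : Finset V) (y : V → ℝ), Kern x → 2 ≤ r → (∀ v ∈ F, col v = none) →
    (∀ v ∈ F, 3 / Real.sqrt r ≤ y v) → Valid x col F y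

/-! ## Updates -/

/-- Processing `w` with a law at most `2 / r` does not increase the barrier value of `v`. -/
def StepAvgGoal : Prop :=
  ∀ {V : Type u} [DecidableEq V] {r : ℕ} [NeZero r] (x : Matrix V V ℂ)
    (col : V → Option (Fin r)) (F : Finset V) (v w : V) (y : V → ℝ) (s : ℝ) (q : Fin r → ℝ),
    Kern x → v ∈ F → w ∈ F → w ≠ v → col w = none → Valid x col F y →
    (∀ c, 0 ≤ q c) → (∀ c, q c ≤ 2 / r) → ∑ c, q c ≤ 1 →
    (∀ c, q c ≠ 0 → 2 * (y w - aval x col (F.erase v) w y)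
      ≤ y w + s - aval x (Function.update col w (some c)) (F.erase v) w y) →
    ∑ c, q c * aval x (Function.update col w (some c)) F v (Function.update y w (y w + s))
        + (1 - ∑ c, q c) * aval x col (F.erase w) v y
      ≤ aval x col F v y

/-- The loss of the barrier value of `v` by removing single vertices, in total. -/
def DropGoal : Prop :=
  ∀ {V : Type u} [DecidableEq V] {r : ℕ} [NeZero r] (x : Matrix V V ℂ)
    (col : V → Option (Fin r)) (F S : Finset V) (v : V) (y : V → ℝ) (g Y : ℝ),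
    Kern x → v ∈ F → S ⊆ F.erase v → 0 < g → 0 ≤ Y → (∀ w ∈ S, y w ≤ Y) →
    Valid x col (F.erase v) (fun u => y u - g) →
    ∑ w ∈ S, (aval x col F v y - aval x col (F.erase w) v y)
      ≤ Y / g * (aval x col F v (fun u => y u - g) - aval x col F v y)

/-! ## Lines -/

def ConvexGoal : Prop :=
  ∀ {V : Type u} [DecidableEq V] {r : ℕ} [NeZero r] (x : Matrix V V ℂ)
    (col : V → Option (Fin r)) (F : Finset V) (v : V) (y : V → ℝ) (a b c : ℝ),
    Kern x → v ∈ F → Valid x col (F.erase v) y → 0 ≤ a → a ≤ b → b ≤ c →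
    (c - a) * aval x col F v (fun u => y u + b)
      ≤ (c - b) * aval x col F v (fun u => y u + a) + (b - a) * aval x col F v (fun u => y u + c)

def PhiCongrGoal : Prop :=
  ∀ {V : Type u} [DecidableEq V] {r : ℕ} (x : Matrix V V ℂ) (col col' : V → Option (Fin r))
    (F : Finset V) (y y' : V → ℝ) (n : ℕ), (∀ v ∈ F, col v = col' v) →
    (∀ v ∈ F, y v = y' v) → Phi x col F y n = Phi x col' F y' n

def PhiBoundsGoal : Prop :=
  ∀ {V : Type u} [DecidableEq V] {r : ℕ} [NeZero r] (x : Matrix V V ℂ)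
    (col : V → Option (Fin r)) (F : Finset V) (y : V → ℝ) (n : ℕ) (τ : ℝ), Kern x → 0 < τ →
    (Valid x col F y → 0 ≤ Phi x col F y n) ∧
    (Valid x col F (fun u => y u - τ) → Phi x col F y n ≤ F.card * τ⁻¹ ^ n) ∧
    (Valid x col F y → ¬ Valid x col F (fun u => y u - τ) → τ⁻¹ ^ n ≤ Phi x col F y n)

/-- One processed vertex of a good window. -/
def PhiStepGoal : Prop :=
  ∀ {V : Type u} [DecidableEq V] {r : ℕ} [NeZero r] (x : Matrix V V ℂ)
    (col : V → Option (Fin r)) (F : Finset V) (v : V) (y : V → ℝ) (s g A M L : ℝ) (q : Fin r → ℝ)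
    (n : ℕ),
    Kern x → v ∈ F → col v = none → 2 ≤ n → 0 < g → 0 < A → 0 ≤ M → 0 < L →
    Valid x col F y → Valid x col (F.erase v) (fun u => y u - g / 4) →
    (∀ c, 0 ≤ q c) → (∀ c, q c ≤ 2 / r) → ∑ c, q c ≤ 1 →
    (∀ c, q c ≠ 0 →
      A ≤ y v + s - aval x (Function.update col v (some c)) F v y ∧
      1 + 5 * (aval x (Function.update col v (some c)) F v y
          - aval x (Function.update col v (some c)) F v (fun u => y u + g)) / g ≤ M * A) →
    2 * (1 + M / L) ^ n * (y v - aval x col F v y) ≤ A →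
    (∀ c, q c ≠ 0 →
      Valid x (Function.update col v (some c)) F (Function.update y v (y v + s))) ∧
      ∑ c, q c * Phi x (Function.update col v (some c)) F (Function.update y v (y v + s)) n
          + (1 - ∑ c, q c) * Phi x col (F.erase v) y n
        ≤ Phi x col F y n + n * M * (L + M) ^ (n - 1)

/-! ## Locality -/

def TailGoal : Prop :=
  ∀ {V : Type u} [DecidableEq V] {r : ℕ} [NeZero r] (x : Matrix V V ℂ) (nb : V → Finset V)
    (col : V → Option (Fin r)) (F : Finset V) (v : V) (y : V → ℝ) (η K : ℝ) (N : ℕ),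
    Kern x → Band x nb → v ∈ F → 1 ≤ K → 0 < η → η ≤ K → (∀ u ∈ F, |y u| ≤ K) →
    Valid x col (F.erase v) (fun u => y u - η) →
    aval x col F v y ≤ aval x col (F ∩ nball nb N v) v y + tailErr η K N

/-! ## Averages over seeds -/

def AvgGoal : Prop :=
  ∀ (p : Prm), 1 ≤ p.Q → 1 ≤ p.r → ∀ {V : Type u} [DecidableEq V] (U : Finset V),
    (∀ f g : (V → Option (Seed p)) → ℝ, (∀ ω, f ω ≤ g ω) → avgOn p U f ≤ avgOn p U g) ∧
    (∀ f g : (V → Option (Seed p)) → ℝ,
      avgOn p U (fun ω => f ω + g ω) = avgOn p U f + avgOn p U g) ∧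
    (∀ (a : ℝ) (f : (V → Option (Seed p)) → ℝ),
      avgOn p U (fun ω => a * f ω) = a * avgOn p U f) ∧
    (∀ a : ℝ, avgOn p U (fun _ => a) = a)

def QLawGoal : Prop :=
  ∀ (p : Prm), 1 ≤ p.r → ∀ G : Finset (Fin p.r),
    (∀ c, 0 ≤ qLaw p G c) ∧ (∀ c, qLaw p G c ≠ 0 → c ∈ G) ∧ (∑ c, qLaw p G c ≤ 1) ∧
    ((G.Nonempty → p.r ≤ 2 * G.card) → ∀ c, qLaw p G c ≤ 2 / (p.r : ℝ)) ∧
    (G.Nonempty → p.r ≤ 2 * G.card → 1 - ∑ c, qLaw p G c ≤ (1 / 2 : ℝ) ^ p.K)

/-- In a set of small diameter at most one vertex acts. -/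
def SplitGoal : Prop :=
  ∀ (p : Prm), 1 ≤ p.Q → 1 ≤ p.r → ∀ {V : Type u} [DecidableEq V] (nb : V → Finset V)
    (O : Oracle V p) (U W : Finset V) (j : ℕ) (st : St V p.r) (f : St V p.r → ℝ),
    (∀ u ∈ W, ∀ w ∈ W, u ∈ nball nb (2 * p.ρ) w) →
    (∀ s s' : St V p.r, (∀ w ∈ W, s w = s' w) → f s = f s') →
    ∃ pr : V → ℝ, (∀ v, 0 ≤ pr v ∧ pr v ≤ 1 / (p.Q : ℝ)) ∧ ∑ v ∈ W, pr v ≤ 1 ∧
      avgOn p U (fun ω => f (step p nb O j st ω))
        = ∑ v ∈ W, pr v * (if st v = none then outAvg p f st v (O j st v) else f st)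
          + (1 - ∑ v ∈ W, pr v) * f st

def LeftoverGoal : Prop :=
  ∀ (p : Prm), 1 ≤ p.Q → 1 ≤ p.r → ∀ {V : Type u} [DecidableEq V] (nb : V → Finset V)
    (O : Oracle V p) (U : Finset V) (ψ : V) (k t : ℕ) (st : St V p.r), ψ ∈ U →
    (nball nb (2 * p.ρ) ψ).card ≤ p.Q →
    run p nb O U k t st (fun s => if s ψ = none then 1 else 0)
      ≤ Real.exp (-((k : ℝ) / p.Q * (1 - ((nball nb (2 * p.ρ) ψ).card : ℝ) / p.Q)))

/-! ## The two probability bounds -/

def WindowGoal : Prop :=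
  ∀ (p : Prm), p.Ok → ∀ {V : Type u} [DecidableEq V] (x : Matrix V V ℂ) (nb : V → Finset V)
    (O : Oracle V p), Kern x → Band x nb → Sound p x nb O → ∀ (U : Finset V) (ψ : V),
    pBad p x nb O U ψ p.T 0 (fun _ => none)
      ≤ 2 * p.J * (nball nb p.ρ ψ).card * (1 + (p.S : ℝ) / p.Q)
        * (nball nb p.ρ ψ).card * (3 / 4 : ℝ) ^ (p.n - 1)

def DeleteGoal : Prop :=
  ∀ (p : Prm), p.Ok → ∀ {V : Type u} [DecidableEq V] (x : Matrix V V ℂ) (nb : V → Finset V)
    (O : Oracle V p), Kern x → Band x nb → Sound p x nb O → ∀ (U : Finset V) (ψ : V),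
    pDel p x nb O U ψ p.T 0 (fun _ => none)
      ≤ (p.T : ℝ) / p.Q * (1 / 2 : ℝ) ^ p.K
        + 192 * ((p.S : ℝ) / p.Q) * Real.exp (4 * p.J * p.S / p.Q) / p.lam

/-! ## The regular part -/

/-- Every vertex is coloured and paved around with probability at least `1 - δ`, uniformly in the
kernel. -/
def RegularGoal : Prop :=
  ∀ (r : ℕ), 9 ≤ r → ∀ (δ : ℝ), 0 < δ → ∀ (deg m : ℕ),
    ∃ (J S Q K R ρ n : ℕ) (lam : ℝ), (Prm.mk r J S Q K R ρ n lam).Ok ∧
      ∀ {V : Type u} [DecidableEq V] (x : Matrix V V ℂ) (nb : V → Finset V)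
        (O : Oracle V (Prm.mk r J S Q K R ρ n lam)),
        Kern x → Band x nb → (∀ v, (nb v).card ≤ deg) →
        Sound (Prm.mk r J S Q K R ρ n lam) x nb O → ∀ (U : Finset V) (ψ : V), ψ ∈ U →
        run (Prm.mk r J S Q K R ρ n lam) nb O U (Prm.mk r J S Q K R ρ n lam).T 0 (fun _ => none)
          (badEnd (Prm.mk r J S Q K R ρ n lam) x nb m ψ) ≤ δ

/-- Allowed colours exist. -/
def OracleGoal : Prop :=
  ∀ (p : Prm), p.Ok → ∀ {V : Type u} [DecidableEq V] (x : Matrix V V ℂ) (nb : V → Finset V),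
    Kern x → Band x nb → ∃ O : Oracle V p, Sound p x nb O

end Vale.Agent.P078.TypeIII.Reg
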